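import Vale.Agent.P254.Refl.IrrAll769
import Vale.Agent.P254.Fib.GoodAll
import Vale.Agent.P254.Bdl.B2
import Vale.Agent.P254.Bdl.B4
import Vale.Agent.P254.Bdl.B5
import Vale.Agent.P254.Bdl.B7
import Vale.Agent.P254.Bdl.B10
import Vale.Agent.P254.Bdl.B13
import Vale.Agent.P254.Bdl.B17
import Vale.Agent.P254.Bdl.B20

/-!
P254: convex bodies in `ℝ^(m+1)` with `m` (or `m + 1`) hyperplane symmetries whose normals are
linearly independent and form a connected system: the conjecture with its equality case.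
-/

open MeasureTheory Set Matrix

namespace Vale.Agent.P254.Refl

namespace I769

open FV (Good Dn simpC simpC_pos)

theorem centroid_zero {m : ℕ} {K : Set (Fin m → ℝ)} (hK : IsCompact K)
    {a : Fin m → Fin m → ℝ} (h : RS K a) : centroid K = 0 := by
  funext i
  have h1 := mean_zero hK h (Pi.single i 1)
  simp_rw [dot_single] at h1
  simp only [centroid, h1, mul_zero, Pi.zero_apply]

theorem cov_scalar {m : ℕ} {K : Set (Fin m → ℝ)} (hK : IsCompact K)
    {a : Fin m → Fin m → ℝ} (h : RS K a) :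
    ∃ t : ℝ, covMatrix K = t • (1 : Matrix (Fin m) (Fin m) ℝ) := by
  obtain ⟨Q, hQ⟩ := second hK h
  refine ⟨(volume K).toReal⁻¹ * Q, ?_⟩
  ext i j
  have h1 := hQ (Pi.single i 1) (Pi.single j 1)
  rw [dot_single'] at h1
  simp_rw [dot_single] at h1
  simp only [covMatrix, centroid_zero hK h, Pi.zero_apply, sub_zero, h1, Matrix.smul_apply,
    Matrix.one_apply, smul_eq_mul]
  split_ifs <;> ring

/-- A connected system of `m` reflections of `ℝ^(m+1)`. -/
structure RF {m : ℕ} (K : Set (Fin (m + 1) → ℝ)) (a : Fin m → Fin (m + 1) → ℝ) : Prop where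
  unit : ∀ i, a i ⬝ᵥ a i = 1
  indep : LinearIndependent ℝ a
  conn : ∀ k : Fin m, k.1 ≠ 0 → ∃ j, j < k ∧ a j ⬝ᵥ a k ≠ 0
  inv : ∀ i, ∀ x ∈ K, rf (a i) x ∈ K

theorem RF.slice {m : ℕ} {K : Set (Fin (m + 1) → ℝ)} {a : Fin m → Fin (m + 1) → ℝ} (h : RF K a)
    {U : Matrix (Fin (m + 1)) (Fin (m + 1)) ℝ} (hU : U * Uᵀ = 1) (hU0 : ∀ j, (U *ᵥ a j) 0 = 0)
    (s : ℝ) : RS (Fib.fib (orthH hU '' K) s) (fun j => tl (U *ᵥ a j)) := by
  refine ⟨fun j => ?_, ?_, fun k hk => ?_, fun j y hy => ?_⟩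
  · rw [← dot_tl (hU0 j), dot_orth hU, h.unit]
  · have h1 : LinearIndependent ℝ fun j : Fin m => U *ᵥ a j := by
      have h3 : LinearMap.ker U.mulVecLin = ⊥ := by
        rw [LinearMap.ker_eq_bot]
        exact (orthH hU).injective
      exact h.indep.map' U.mulVecLin h3
    let ι : (Fin m → ℝ) →ₗ[ℝ] (Fin (m + 1) → ℝ) :=
      { toFun := fun y => Fin.cons 0 y
        map_add' := fun y z => by
          funext j
          refine Fin.cases ?_ (fun j => ?_) j <;> simp
        map_smul' := fun c y => by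
          funext j
          refine Fin.cases ?_ (fun j => ?_) j <;> simp }
    have h2 : (ι ∘ fun j : Fin m => tl (U *ᵥ a j)) = fun j : Fin m => U *ᵥ a j := by
      funext j
      change (Fin.cons 0 (tl (U *ᵥ a j)) : Fin (m + 1) → ℝ) = _
      funext k
      refine Fin.cases ?_ (fun k => ?_) k
      · rw [Fin.cons_zero]; exact (hU0 j).symm
      · rw [Fin.cons_succ]; rfl
    exact LinearIndependent.of_comp ι (h2 ▸ h1)
  · obtain ⟨j, hj, hjk⟩ := h.conn k hk
    refine ⟨j, hj, ?_⟩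
    rw [← dot_tl (hU0 j), dot_orth hU]
    exact hjk
  · obtain ⟨x, hx, hxy⟩ := hy
    have h1 : rf (U *ᵥ a j) (Fin.cons s y) ∈ orthH hU '' K := by
      refine ⟨rf (a j) x, h.inv j x hx, ?_⟩
      rw [← hxy]
      exact (rf_orth hU (a j) x).symm
    have h2 : rf (U *ᵥ a j) (Fin.cons s y) =
        (Fin.cons s (rf (tl (U *ᵥ a j)) y) : Fin (m + 1) → ℝ) := by
      rw [rf, rf, dot_tl (hU0 j)]
      have e : tl (Fin.cons s y : Fin (m + 1) → ℝ) = y := by
        funext k
        simp [tl]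
      rw [e]
      funext k
      refine Fin.cases ?_ (fun k => ?_) k
      · simp [hU0 j]
      · simp [tl]
    change (Fin.cons s (rf (tl (U *ᵥ a j)) y) : Fin (m + 1) → ℝ) ∈ orthH hU '' K
    rw [← h2]
    exact h1

theorem orth_eq_aff {n : ℕ} {U : Matrix (Fin n) (Fin n) ℝ} (hU : U * Uᵀ = 1)
    (K : Set (Fin n → ℝ)) : orthH hU '' K = aff U 0 '' K := by
  refine image_congr fun x _ => ?_
  simp [orthH_apply, aff]

theorem det_ne {n : ℕ} {U : Matrix (Fin n) (Fin n) ℝ} (hU : U * Uᵀ = 1) : U.det ≠ 0 := by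
  intro h
  have h1 := congrArg Matrix.det hU
  rw [det_mul, h, zero_mul, det_one] at h1
  exact zero_ne_one h1

theorem good_back {n : ℕ} {U : Matrix (Fin n) (Fin n) ℝ} (hU : U * Uᵀ = 1)
    {K : Set (Fin n → ℝ)} (h : Good (orthH hU '' K)) : Good K := by
  have hU' : Uᵀ * Uᵀᵀ = 1 := by rw [transpose_transpose]; exact tmul hU
  have h1 := h.aff (det_ne hU') 0
  have h2 : aff Uᵀ 0 '' (orthH hU '' K) = K := by
    rw [image_image]
    have e : ∀ x, aff Uᵀ 0 (orthH hU x) = x := by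
      intro x
      simp [aff, orthH_apply, mulVec_mulVec, tmul hU]
    simp only [e, image_id']
  rwa [h2] at h1

theorem good_free_of {m : ℕ} (hm : 1 ≤ m)
    (ih : ∀ (K : Set (Fin m → ℝ)) (a : Fin m → Fin m → ℝ), IsConvexBody K → RS K a → Good K)
    {K : Set (Fin (m + 1) → ℝ)} (hK : IsConvexBody K) {a : Fin m → Fin (m + 1) → ℝ}
    (h : RF K a) : Good K := by
  obtain ⟨U, hU, hU0⟩ := exists_frame a
  have hK' : IsConvexBody (orthH hU '' K) := by
    rw [orth_eq_aff]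
    exact isConvexBody_aff_image (det_ne hU) 0 hK
  refine good_back hU ?_
  have hcp : ∀ s, IsCompact (Fib.fib (orthH hU '' K) s) := fun s =>
    Perm.isCompact_slice (Rev.sp_compact hK'.2.1) s
  have hcv : ∀ s, Convex ℝ (Fib.fib (orthH hU '' K) s) := fun s =>
    Perm.convex_slice (Rev.sp_convex hK'.1) s
  refine Fib.good0 hm hK' 1 (fun s hs => ?_) (fun s hs => ?_) (fun s hs => ?_)
  · exact ih _ _ (FV.body_of_vol (hcv s) (hcp s) hs.ne') (h.slice hU hU0 s)
  · exact centroid_zero (hcp s) (h.slice hU hU0 s)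
  · exact cov_scalar (hcp s) (h.slice hU hU0 s)

theorem good_rs (m : ℕ) (hm : 1 ≤ m) : ∀ (K : Set (Fin m → ℝ)) (a : Fin m → Fin m → ℝ),
    IsConvexBody K → RS K a → Good K := by
  induction m, hm using Nat.le_induction with
  | base =>
    intro K a hK _
    have hs := isSimplex_of_dim_one hK
    refine FV.good_of le_rfl hK fun S hS => ?_
    rw [isoConst_simplex hs, isoConst_simplex hS]
    exact ⟨le_rfl, fun _ => hs, fun _ => rfl⟩
  | succ m hm ih =>
    intro K a hK h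
    refine good_free_of hm ih hK (a := fun j => a j.castSucc) ⟨fun i => h.unit _, ?_, ?_, ?_⟩
    · exact h.indep.comp _ (Fin.castSucc_injective m)
    · intro k hk
      obtain ⟨j, hj, hjk⟩ := h.conn k.castSucc (by simpa using hk)
      have hjm : j.1 < m := lt_trans hj k.2
      exact ⟨⟨j.1, hjm⟩, hj, hjk⟩
    · exact fun i => h.inv _

/-- a connected system, listed in a connected order and normalised -/
theorem exists_list {m n : ℕ} (hm : 1 ≤ m) {a : Fin m → Fin n → ℝ} (ha : LinearIndependent ℝ a)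
    (hC : ∀ i j, Lk a i j) {K : Set (Fin n → ℝ)} (hR : RInv a K) :
    ∃ b : Fin m → Fin n → ℝ, (∀ i, b i ⬝ᵥ b i = 1) ∧ LinearIndependent ℝ b ∧
      (∀ k : Fin m, k.1 ≠ 0 → ∃ j, j < k ∧ b j ⬝ᵥ b k ≠ 0) ∧ ∀ i, ∀ x ∈ K, rf (b i) x ∈ K := by
  obtain ⟨f, hf, hr⟩ := exists_order hm hC m le_rfl
  have hne : ∀ k, a k ≠ 0 := fun k => ha.ne_zero k
  have hpos : ∀ k, 0 < a k ⬝ᵥ a k := fun k => by
    have h1 : 0 ≤ a k ⬝ᵥ a k := Finset.sum_nonneg fun i _ => mul_self_nonneg _
    refine lt_of_le_of_ne h1 fun h2 => hne k ?_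
    exact dotProduct_self_eq_zero.1 h2.symm
  set c : Fin m → ℝ := fun k => (Real.sqrt (a (f k) ⬝ᵥ a (f k)))⁻¹ with hcdef
  have hc0 : ∀ k, 0 < c k := fun k => inv_pos.2 (Real.sqrt_pos.2 (hpos _))
  have hc2 : ∀ k, c k * c k * (a (f k) ⬝ᵥ a (f k)) = 1 := by
    intro k
    have h1 := Real.mul_self_sqrt (hpos (f k)).le
    simp only [hcdef]
    rw [← mul_inv, h1, inv_mul_cancel₀ (hpos _).ne']
  refine ⟨fun k => c k • a (f k), fun k => ?_, ?_, fun k hk => ?_, fun k x hx => ?_⟩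
  · rw [smul_dotProduct, dotProduct_smul, smul_eq_mul, smul_eq_mul, ← mul_assoc]
    exact hc2 k
  · have h1 : LinearIndependent ℝ fun k => a (f k) := ha.comp f hf
    exact h1.units_smul fun k => Units.mk0 (c k) (hc0 k).ne'
  · obtain ⟨j, hj, hjk⟩ := hr k hk
    refine ⟨j, hj, ?_⟩
    rw [smul_dotProduct, dotProduct_smul, smul_eq_mul, smul_eq_mul]
    exact mul_ne_zero (hc0 j).ne' (mul_ne_zero (hc0 k).ne' hjk)
  · have h1 := hR (f k) x hx
    have h2 : I769.rf (c k • a (f k)) x = Refl.rf (a (f k)) x := by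
      have hp := (hpos (f k)).ne'
      rw [I769.rf, Refl.rf, smul_dotProduct, smul_eq_mul, smul_smul]
      congr 2
      rw [eq_div_iff hp]
      linear_combination (2 * (a (f k) ⬝ᵥ x)) * hc2 k
    rw [h2]
    exact h1

end I769

open I769

/-- `n` reflections, connected system. -/
theorem irr_good {m : ℕ} (hm : 1 ≤ m) {K : Set (Fin m → ℝ)} (hK : IsConvexBody K)
    {a : Fin m → Fin m → ℝ} (ha : LinearIndependent ℝ a) (hC : ∀ i j, Lk a i j)
    (hR : RInv a K) : FV.Good K := by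
  obtain ⟨b, h1, h2, h3, h4⟩ := exists_list hm ha hC hR
  exact good_rs m hm K b hK ⟨h1, h2, h3, h4⟩

/-- `n - 1` reflections, connected system (one free direction). -/
theorem free_good {m : ℕ} (hm : 1 ≤ m) {K : Set (Fin (m + 1) → ℝ)} (hK : IsConvexBody K)
    {a : Fin m → Fin (m + 1) → ℝ} (ha : LinearIndependent ℝ a) (hC : ∀ i j, Lk a i j)
    (hR : RInv a K) : FV.Good K := by
  obtain ⟨b, h1, h2, h3, h4⟩ := exists_list hm ha hC hR
  exact good_free_of hm (good_rs m hm) hK ⟨h1, h2, h3, h4⟩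

end Vale.Agent.P254.Refl
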