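import Vale.Agent.P254.Refl.B1x103

/-!
P254/Refl [B2]: transfer of the cube symmetrization to `Fin n → ℝ` (helper898).
-/

open MeasureTheory Set Matrix

namespace Vale.Agent.P254.Refl.B2h

variable {n m p : ℕ} (e : Fin m ⊕ Fin p ≃ Fin n)

/-- the coordinates as a measurable equivalence -/
noncomputable def F : (Fin m → ℝ) × (Fin p → ℝ) ≃ᵐ (Fin n → ℝ) :=
  (MeasurableEquiv.sumPiEquivProdPi (fun _ : Fin m ⊕ Fin p => ℝ)).symm.trans
    (MeasurableEquiv.piCongrLeft (fun _ : Fin n => ℝ) e)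

theorem F_apply (q : (Fin m → ℝ) × (Fin p → ℝ)) : F e q = cmb e q.1 q.2 := by
  funext i
  obtain ⟨j, rfl⟩ := e.surjective i
  cases j with
  | inl j =>
    exact (Equiv.piCongrLeft_sumInl (fun _ => ℝ) e q.1 q.2 j).trans (by simp [cmb])
  | inr j =>
    exact (Equiv.piCongrLeft_sumInr (fun _ => ℝ) e q.1 q.2 j).trans (by simp [cmb])

theorem F_mp : MeasurePreserving (F e) (volume.prod volume) volume :=
  (volume_measurePreserving_sumPiEquivProdPi_symm (fun _ : Fin m ⊕ Fin p => ℝ)).trans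
    (volume_measurePreserving_piCongrLeft (fun _ : Fin n => ℝ) e)

@[simp] theorem cmb_inl (y : Fin m → ℝ) (z : Fin p → ℝ) (i : Fin m) :
    cmb e y z (e (Sum.inl i)) = y i := by simp [cmb]

@[simp] theorem cmb_inr (y : Fin m → ℝ) (z : Fin p → ℝ) (i : Fin p) :
    cmb e y z (e (Sum.inr i)) = z i := by simp [cmb]

/-- the inverse -/
def G (x : Fin n → ℝ) : (Fin m → ℝ) × (Fin p → ℝ) :=
  (fun i => x (e (Sum.inl i)), fun i => x (e (Sum.inr i)))

theorem cmb_G (x : Fin n → ℝ) : cmb e (G e x).1 (G e x).2 = x := by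
  funext i
  obtain ⟨j, rfl⟩ := e.surjective i
  cases j <;> simp [G]

theorem G_cmb (q : (Fin m → ℝ) × (Fin p → ℝ)) : G e (cmb e q.1 q.2) = q := by
  ext i <;> simp [G]

theorem G_cont : Continuous (G e) := by unfold G; fun_prop

theorem cmb_cont : Continuous (fun q : (Fin m → ℝ) × (Fin p → ℝ) => cmb e q.1 q.2) := by
  refine continuous_pi fun i => ?_
  obtain ⟨j, rfl⟩ := e.surjective i
  cases j with
  | inl j => simp only [cmb_inl]; fun_prop
  | inr j => simp only [cmb_inr]; fun_prop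

theorem cmb_comb (a b : ℝ) (y y' : Fin m → ℝ) (z z' : Fin p → ℝ) :
    cmb e (a • y + b • y') (a • z + b • z') = a • cmb e y z + b • cmb e y' z' := by
  funext i
  obtain ⟨j, rfl⟩ := e.surjective i
  cases j <;> simp

/-- the preimage -/
def pre (K : Set (Fin n → ℝ)) : Set ((Fin m → ℝ) × (Fin p → ℝ)) := {q | cmb e q.1 q.2 ∈ K}

/-- the image -/
def img (L : Set ((Fin m → ℝ) × (Fin p → ℝ))) : Set (Fin n → ℝ) := {x | G e x ∈ L}

theorem pre_eq (K : Set (Fin n → ℝ)) : pre e K = F e ⁻¹' K := by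
  ext q
  simp [pre, F_apply]

theorem pre_eq_image (K : Set (Fin n → ℝ)) : pre e K = G e '' K := by
  ext q
  constructor
  · intro h
    exact ⟨_, h, G_cmb e q⟩
  · rintro ⟨x, hx, rfl⟩
    change cmb e (G e x).1 (G e x).2 ∈ K
    rwa [cmb_G]

theorem img_eq_image (L : Set ((Fin m → ℝ) × (Fin p → ℝ))) :
    img e L = (fun q : (Fin m → ℝ) × (Fin p → ℝ) => cmb e q.1 q.2) '' L := by
  ext x
  constructor
  · intro h
    exact ⟨_, h, cmb_G e x⟩
  · rintro ⟨q, hq, rfl⟩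
    change G e (cmb e q.1 q.2) ∈ L
    rwa [G_cmb]

theorem pre_img (L : Set ((Fin m → ℝ) × (Fin p → ℝ))) : pre e (img e L) = L := by
  ext q
  change G e (cmb e q.1 q.2) ∈ L ↔ _
  rw [G_cmb]

theorem pre_convex {K : Set (Fin n → ℝ)} (hc : Convex ℝ K) : Convex ℝ (pre e K) := by
  intro q hq r hr a b ha hb hab
  change cmb e (a • q.1 + b • r.1) (a • q.2 + b • r.2) ∈ K
  rw [cmb_comb]
  exact hc hq hr ha hb hab

theorem pre_compact {K : Set (Fin n → ℝ)} (hK : IsCompact K) : IsCompact (pre e K) := by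
  rw [pre_eq_image]
  exact hK.image (G_cont e)

theorem img_convex {L : Set ((Fin m → ℝ) × (Fin p → ℝ))} (hc : Convex ℝ L) :
    Convex ℝ (img e L) := by
  intro x hx y hy a b ha hb hab
  change G e (a • x + b • y) ∈ L
  have : G e (a • x + b • y) = a • G e x + b • G e y := by ext i <;> simp [G]
  rw [this]
  exact hc hx hy ha hb hab

theorem img_compact {L : Set ((Fin m → ℝ) × (Fin p → ℝ))} (hL : IsCompact L) :
    IsCompact (img e L) := by
  rw [img_eq_image]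
  exact hL.image (cmb_cont e)

theorem int_pre (K : Set (Fin n → ℝ)) (f : (Fin n → ℝ) → ℝ) :
    ∫ q in pre e K, f (cmb e q.1 q.2) = ∫ x in K, f x := by
  rw [pre_eq, ← (F_mp e).setIntegral_preimage_emb (F e).measurableEmbedding f K]
  simp only [F_apply]
  rfl

theorem int_img (L : Set ((Fin m → ℝ) × (Fin p → ℝ))) (f : (Fin n → ℝ) → ℝ) :
    ∫ x in img e L, f x = ∫ q in L, f (cmb e q.1 q.2) := by
  rw [← int_pre e (img e L) f, pre_img]

theorem vol_pre (K : Set (Fin n → ℝ)) : volume (pre e K) = volume K := by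
  rw [pre_eq]
  exact (F_mp e).measure_preimage_emb (F e).measurableEmbedding K

theorem rf_rf {κ : Type} [Fintype κ] (a x : κ → ℝ) : rf a (rf a x) = x := by
  unfold rf
  by_cases h : a ⬝ᵥ a = 0
  · simp [h]
  · rw [dotProduct_sub, dotProduct_smul, smul_eq_mul, div_mul_cancel₀ _ h]
    ext i
    simp only [Pi.sub_apply, Pi.smul_apply, smul_eq_mul]
    ring

theorem rf_cont {κ : Type} [Fintype κ] (a : κ → ℝ) : Continuous (rf a) := by
  unfold rf
  simp only [dotProduct]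
  fun_prop

theorem dot_eq (a x : Fin n → ℝ) :
    a ⬝ᵥ x = (G e a).1 ⬝ᵥ (G e x).1 + (G e a).2 ⬝ᵥ (G e x).2 := by
  simp only [dotProduct, G]
  rw [← e.sum_comp, Fintype.sum_sum_type]

theorem rf_cmb {a : Fin n → ℝ} (ha : ∀ i : Fin m, a (e (Sum.inl i)) = 0) (y : Fin m → ℝ)
    (z : Fin p → ℝ) : rf a (cmb e y z) = cmb e y (rf (G e a).2 z) := by
  have h1 : (G e a).1 = 0 := funext ha
  have h2 : a ⬝ᵥ cmb e y z = (G e a).2 ⬝ᵥ z := by
    rw [dot_eq e, h1, G_cmb e (y, z)]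
    simp
  have h3 : a ⬝ᵥ a = (G e a).2 ⬝ᵥ (G e a).2 := by
    rw [dot_eq e, h1]
    simp
  unfold rf
  rw [h2, h3]
  funext i
  obtain ⟨j, rfl⟩ := e.surjective i
  cases j with
  | inl j => simp [ha j]
  | inr j => simp [G]

theorem rf_single (k : Fin n) (x : Fin n → ℝ) :
    rf (Pi.single k 1) x = Function.update x k (-x k) := by
  unfold rf
  simp only [single_one_dotProduct, Pi.single_eq_same, div_one]
  funext i
  by_cases h : i = k
  · subst h
    simp
    ring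
  · simp [h]

theorem cmb_update (y : Fin m → ℝ) (z : Fin p → ℝ) (i : Fin m) (t : ℝ) :
    cmb e (Function.update y i t) z = Function.update (cmb e y z) (e (Sum.inl i)) t := by
  funext k
  obtain ⟨j, rfl⟩ := e.surjective k
  cases j with
  | inl j =>
    by_cases h : j = i
    · subst h; simp
    · have : e (Sum.inl j) ≠ e (Sum.inl i) := by simpa using h
      simp [h, this]
  | inr j =>
    have : e (Sum.inr j) ≠ e (Sum.inl i) := by simp
    simp [this]

include e in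
theorem card_eq : n = m + p := by
  have := Fintype.card_congr e
  simpa using this.symm

/-- the statement B1 for one pair `m, p` -/
def PS (m p : ℕ) (D : ℝ) : Prop :=
  ∀ {L : Set ((Fin m → ℝ) × (Fin p → ℝ))}, Convex ℝ L → IsCompact L →
    (∀ (z : Fin p → ℝ) (i : Fin m), (∫ y in {y : Fin m → ℝ | (y, z) ∈ L}, y i ^ 2) ^ m ≤
      cst m * (volume {y : Fin m → ℝ | (y, z) ∈ L}).toReal ^ (m + 2)) →
    ∃ L' : Set ((Fin m → ℝ) × (Fin p → ℝ)), Convex ℝ L' ∧ IsCompact L' ∧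
      (∀ φ : (Fin p → ℝ) → ℝ, Continuous φ → ∫ q in L', φ q.2 = ∫ q in L, φ q.2) ∧
      (∀ i : Fin m, (volume L).toReal * ∫ q in L, q.1 i ^ 2 ≤
        16 * D * (∫ q in L', |q.1 i|) ^ 2) ∧
      (∀ i : Fin m, ∀ q ∈ L', (Function.update q.1 i (-q.1 i), q.2) ∈ L') ∧
      ∀ T : (Fin p → ℝ) → (Fin p → ℝ), Continuous T → (∀ z, T (T z) = z) →
        (∀ q ∈ L, (q.1, T q.2) ∈ L) → ∀ q ∈ L', (q.1, T q.2) ∈ L'

/-- [B2] from [B1] -/
theorem sym_step_of {D : ℝ} (hB1 : PS m p D) {K : Set (Fin n → ℝ)}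
    (hc : Convex ℝ K) (hK : IsCompact K)
    (hfib : ∀ (z : Fin p → ℝ) (i : Fin m), (∫ y in {y : Fin m → ℝ | cmb e y z ∈ K}, y i ^ 2) ^ m ≤
      cst m * (volume {y : Fin m → ℝ | cmb e y z ∈ K}).toReal ^ (m + 2)) :
    ∃ K' : Set (Fin n → ℝ), Convex ℝ K' ∧ IsCompact K' ∧
      (∀ φ : (Fin n → ℝ) → ℝ, Continuous φ → (∀ y y' z, φ (cmb e y z) = φ (cmb e y' z)) →
        ∫ x in K', φ x = ∫ x in K, φ x) ∧
      (∀ i : Fin m, (volume K).toReal * ∫ x in K, x (e (Sum.inl i)) ^ 2 ≤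
        16 * D * (∫ x in K', |x (e (Sum.inl i))|) ^ 2) ∧
      (∀ i : Fin m, ∀ x ∈ K', rf (Pi.single (e (Sum.inl i)) 1) x ∈ K') ∧
      ∀ a : Fin n → ℝ, (∀ i : Fin m, a (e (Sum.inl i)) = 0) → (∀ x ∈ K, rf a x ∈ K) →
        ∀ x ∈ K', rf a x ∈ K' := by
  obtain ⟨L', h1, h2, h3, h4, h5, h6⟩ := hB1 (pre_convex e hc) (pre_compact e hK) hfib
  refine ⟨img e L', img_convex e h1, img_compact e h2, ?_, ?_, ?_, ?_⟩
  · intro φ hφ hy
    rw [int_img, ← int_pre e K φ]
    have h := h3 (fun z => φ (cmb e 0 z))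
      (hφ.comp ((cmb_cont e).comp (continuous_const.prodMk continuous_id)))
    have h' : ∀ q : (Fin m → ℝ) × (Fin p → ℝ), φ (cmb e q.1 q.2) = φ (cmb e 0 q.2) :=
      fun q => hy _ _ _
    simp only [h']
    exact h
  · intro i
    have h := h4 i
    rw [vol_pre] at h
    have e1 := int_pre e K (fun x => x (e (Sum.inl i)) ^ 2)
    have e2 := int_img e L' (fun x => |x (e (Sum.inl i))|)
    simp only [cmb_inl] at e1 e2
    rw [← e1, e2]
    exact h
  · intro i x hx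
    rw [rf_single]
    have h := h5 i _ hx
    change G e (Function.update x (e (Sum.inl i)) (-x (e (Sum.inl i)))) ∈ L'
    have hx' : Function.update x (e (Sum.inl i)) (-x (e (Sum.inl i))) =
        cmb e (Function.update (G e x).1 i (-(G e x).1 i)) (G e x).2 := by
      rw [cmb_update, cmb_G]
      rfl
    rw [hx', G_cmb e (_, _)]
    exact h
  · intro a ha hR x hx
    have h := h6 (rf (G e a).2) (rf_cont _) (rf_rf _) (fun q hq => by
      change cmb e q.1 (rf (G e a).2 q.2) ∈ K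
      rw [← rf_cmb e ha]
      exact hR _ hq) _ hx
    change G e (rf a x) ∈ L'
    have hg : G e (cmb e (G e x).1 (rf (G e a).2 (G e x).2)) =
        ((G e x).1, rf (G e a).2 (G e x).2) :=
      G_cmb e ((G e x).1, rf (G e a).2 (G e x).2)
    have hr : rf a x = cmb e (G e x).1 (rf (G e a).2 (G e x).2) := by
      rw [← rf_cmb e ha, cmb_G]
    rw [hr, hg]
    exact h

/-- [B2], D-form -/
theorem sym_step_D {n m p : ℕ} (hm : 1 ≤ m) (e : Fin m ⊕ Fin p ≃ Fin n) {K : Set (Fin n → ℝ)}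
    (hc : Convex ℝ K) (hK : IsCompact K) {D : ℝ}
    (hD : cst m ^ (1 / (m : ℝ)) *
        (((m : ℝ) + 2) * ((n : ℝ) + 1) / (((m : ℝ) + 1) * ((n : ℝ) + 2))) ≤ D)
    (hfib : ∀ (z : Fin p → ℝ) (i : Fin m), (∫ y in {y : Fin m → ℝ | cmb e y z ∈ K}, y i ^ 2) ^ m ≤
      cst m * (volume {y : Fin m → ℝ | cmb e y z ∈ K}).toReal ^ (m + 2)) :
    ∃ K' : Set (Fin n → ℝ), Convex ℝ K' ∧ IsCompact K' ∧
      (∀ φ : (Fin n → ℝ) → ℝ, Continuous φ → (∀ y y' z, φ (cmb e y z) = φ (cmb e y' z)) →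
        ∫ x in K', φ x = ∫ x in K, φ x) ∧
      (∀ i : Fin m, (volume K).toReal * ∫ x in K, x (e (Sum.inl i)) ^ 2 ≤
        16 * D * (∫ x in K', |x (e (Sum.inl i))|) ^ 2) ∧
      (∀ i : Fin m, ∀ x ∈ K', rf (Pi.single (e (Sum.inl i)) 1) x ∈ K') ∧
      ∀ a : Fin n → ℝ, (∀ i : Fin m, a (e (Sum.inl i)) = 0) → (∀ x ∈ K, rf a x ∈ K) →
        ∀ x ∈ K', rf a x ∈ K' := by
  refine sym_step_of e (fun {L} hc hL hf => H103.prod_step_D hm hc hL ?_ hf) hc hK hfib
  have hn : (n : ℝ) = (m : ℝ) + p := by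
    rw [card_eq e]
    push_cast
    ring
  rw [hn] at hD
  exact hD

end Vale.Agent.P254.Refl.B2h
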