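import Vale.Agent.P254.Refl.Defs

/-!
P254/Refl: [C1] the fibres of a block satisfy the irreducible bound (hedge of helper545).
-/

open MeasureTheory Set Matrix

namespace Vale.Agent.P254.Refl.C1H

variable {n m p : ℕ} {β : Type}

theorem cmb_inl (e : Fin m ⊕ Fin p ≃ Fin n) (y : Fin m → ℝ) (z : Fin p → ℝ) (i : Fin m) :
    cmb e y z (e (Sum.inl i)) = y i := by
  simp [cmb]

theorem cmb_inr (e : Fin m ⊕ Fin p ≃ Fin n) (y : Fin m → ℝ) (z : Fin p → ℝ) (j : Fin p) :
    cmb e y z (e (Sum.inr j)) = z j := by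
  simp [cmb]

theorem dot_split (e : Fin m ⊕ Fin p ≃ Fin n) (u v : Fin n → ℝ) :
    u ⬝ᵥ v = (∑ k : Fin m, u (e (Sum.inl k)) * v (e (Sum.inl k))) +
      ∑ j : Fin p, u (e (Sum.inr j)) * v (e (Sum.inr j)) := by
  unfold dotProduct
  rw [← Equiv.sum_comp e (fun i => u i * v i), Fintype.sum_sum_type]

theorem orth {a : Fin n → Fin n → ℝ} {lab : Fin n → β} (hB : Blk a lab) {i j : Fin n}
    (h : lab i ≠ lab j) : a i ⬝ᵥ a j = 0 := by
  unfold dotProduct
  refine Finset.sum_eq_zero fun k _ => ?_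
  by_cases hk : lab k = lab i
  · rw [hB.zero k j (by rw [hk]; exact h), mul_zero]
  · rw [hB.zero k i hk, zero_mul]

theorem lk_blk {a : Fin n → Fin n → ℝ} {lab : Fin n → β} (hB : Blk a lab) {b : β}
    {e : Fin m ⊕ Fin p ≃ Fin n} (h2 : ∀ j, lab (e (Sum.inr j)) ≠ b)
    {i : Fin m} (hi : lab (e (Sum.inl i)) = b) {x : Fin n} (h : Lk a (e (Sum.inl i)) x) :
    ∃ k : Fin m, x = e (Sum.inl k) ∧ lab x = b ∧
      Lk (fun (i k : Fin m) => a (e (Sum.inl i)) (e (Sum.inl k))) i k := by
  unfold Lk at h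
  induction h with
  | refl => exact ⟨i, rfl, hi, Relation.ReflTransGen.refl⟩
  | @tail x y _ hxy ih =>
    obtain ⟨k, hk, hl, hL⟩ := ih
    have hly : lab y = b := by
      by_contra hne
      exact hxy (orth hB (by rw [hl]; exact fun h => hne h.symm))
    obtain ⟨s, hs⟩ := e.surjective y
    rcases s with k' | j'
    · refine ⟨k', hs.symm, hly, Relation.ReflTransGen.tail hL ?_⟩
      show (fun c => a (e (Sum.inl k)) (e (Sum.inl c))) ⬝ᵥ
        (fun c => a (e (Sum.inl k')) (e (Sum.inl c))) ≠ 0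
      have h0 := dot_split e (a x) (a y)
      have h3 : ∑ j : Fin p, a x (e (Sum.inr j)) * a y (e (Sum.inr j)) = 0 := by
        refine Finset.sum_eq_zero fun j _ => ?_
        rw [hB.zero (e (Sum.inr j)) x (by rw [hl]; exact h2 j), zero_mul]
      rw [h3, add_zero] at h0
      rw [hk, ← hs] at h0
      intro h4
      apply hxy
      rw [hk, ← hs, h0]
      exact h4
    · exact absurd hly (by rw [← hs]; exact h2 j')

/-- [C1] the fibres of a block satisfy the irreducible bound -/
theorem fib_bd {n m p : ℕ} {β : Type} (hI : IrrBd m) {a : Fin n → Fin n → ℝ} {lab : Fin n → β}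
    (hB : Blk a lab) (b : β) (e : Fin m ⊕ Fin p ≃ Fin n) (h1 : ∀ i, lab (e (Sum.inl i)) = b)
    (h2 : ∀ j, lab (e (Sum.inr j)) ≠ b) {K : Set (Fin n → ℝ)} (hc : Convex ℝ K)
    (hK : IsCompact K) (hR : ∀ i : Fin m, ∀ x ∈ K, rf (a (e (Sum.inl i))) x ∈ K)
    (z : Fin p → ℝ) (i : Fin m) :
    (∫ y in {y : Fin m → ℝ | cmb e y z ∈ K}, y i ^ 2) ^ m ≤
      cst m * (volume {y : Fin m → ℝ | cmb e y z ∈ K}).toReal ^ (m + 2) := by
  have hz : ∀ (i : Fin m) (j : Fin p), a (e (Sum.inl i)) (e (Sum.inr j)) = 0 := fun i j =>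
    hB.zero _ _ (by rw [h1]; exact h2 j)
  refine hI (fun (i k : Fin m) => a (e (Sum.inl i)) (e (Sum.inl k)))
    {y : Fin m → ℝ | cmb e y z ∈ K} ?_ ?_ ?_ ?_ ?_ i
  · -- linear independence
    have hli : LinearIndependent ℝ (fun i : Fin m => a (e (Sum.inl i))) :=
      hB.li.comp (fun i : Fin m => e (Sum.inl i)) (e.injective.comp Sum.inl_injective)
    rw [Fintype.linearIndependent_iff] at hli ⊢
    intro g hg
    apply hli g
    funext x
    obtain ⟨s, hs⟩ := e.surjective x
    rw [← hs]
    rcases s with k | j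
    · have := congrFun hg k
      simpa [Finset.sum_apply] using this
    · simp [Finset.sum_apply, hz]
  · -- connectedness
    intro i j
    obtain ⟨k, hk, -, hL⟩ := lk_blk hB h2 (h1 i) (hB.conn (e (Sum.inl i)) (e (Sum.inl j))
      (by rw [h1, h1]))
    have : j = k := Sum.inl_injective (e.injective hk)
    rw [this]
    exact hL
  · -- convexity
    intro y hy y' hy' s t hs ht hst
    have := hc hy hy' hs ht hst
    have h : s • cmb e y z + t • cmb e y' z = cmb e (s • y + t • y') z := by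
      funext x
      obtain ⟨u, hu⟩ := e.surjective x
      rw [← hu]
      rcases u with k | j
      · simp [cmb_inl]
      · simp only [Pi.add_apply, Pi.smul_apply, cmb_inr, smul_eq_mul]
        rw [← add_mul, hst, one_mul]
    rw [h] at this
    exact this
  · -- compactness
    have hcl : IsCompact (K ∩ {x | ∀ j : Fin p, x (e (Sum.inr j)) = z j}) := by
      refine hK.inter_right ?_
      simp only [Set.ofPred_forall]
      exact isClosed_iInter fun j => isClosed_eq (continuous_apply _) continuous_const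
    have h := hcl.image (f := fun (x : Fin n → ℝ) (i : Fin m) => x (e (Sum.inl i)))
      (continuous_pi fun i => continuous_apply _)
    convert h using 1
    ext y
    constructor
    · intro hy
      refine ⟨cmb e y z, ⟨hy, fun j => cmb_inr e y z j⟩, ?_⟩
      funext i
      exact cmb_inl e y z i
    · rintro ⟨x, ⟨hx, hx2⟩, rfl⟩
      show cmb e (fun i => x (e (Sum.inl i))) z ∈ K
      have : cmb e (fun i => x (e (Sum.inl i))) z = x := by
        funext u
        obtain ⟨s, hs⟩ := e.surjective u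
        rw [← hs]
        rcases s with k | j
        · rw [cmb_inl]
        · rw [cmb_inr, hx2 j]
      rw [this]
      exact hx
  · -- reflections
    intro i y hy
    have h := hR i _ hy
    show cmb e (rf (fun k : Fin m => a (e (Sum.inl i)) (e (Sum.inl k))) y) z ∈ K
    have hd1 : a (e (Sum.inl i)) ⬝ᵥ cmb e y z =
        (fun k : Fin m => a (e (Sum.inl i)) (e (Sum.inl k))) ⬝ᵥ y := by
      rw [dot_split e]
      simp [hz, cmb_inl, dotProduct]
    have hd2 : a (e (Sum.inl i)) ⬝ᵥ a (e (Sum.inl i)) =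
        (fun k : Fin m => a (e (Sum.inl i)) (e (Sum.inl k))) ⬝ᵥ
          (fun k : Fin m => a (e (Sum.inl i)) (e (Sum.inl k))) := by
      rw [dot_split e]
      simp [hz, dotProduct]
    have : cmb e (rf (fun k : Fin m => a (e (Sum.inl i)) (e (Sum.inl k))) y) z =
        rf (a (e (Sum.inl i))) (cmb e y z) := by
      funext u
      obtain ⟨s, hs⟩ := e.surjective u
      rw [← hs]
      rcases s with k | j
      · rw [cmb_inl]
        simp only [rf, Pi.sub_apply, Pi.smul_apply, smul_eq_mul, cmb_inl, hd1, hd2]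
      · rw [cmb_inr]
        simp only [rf, Pi.sub_apply, Pi.smul_apply, smul_eq_mul, cmb_inr, hz, mul_zero, sub_zero]
    rw [this]
    exact h

end Vale.Agent.P254.Refl.C1H
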