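import Vale.Agent.P254.Refl.Defs
import Vale.Agent.P254.Unc.FinDefs

/-! # P254/Refl, leaf C2: all blocks, one after the other (helper700) -/

open MeasureTheory Set Matrix

namespace Vale.Agent.P254.Refl.C2h700

/-- One block step, with the constant `D`. -/
def Stp {n : ℕ} {β : Type} (lab : Fin n → β) (a : Fin n → Fin n → ℝ) (D : ℝ) (b : β) : Prop :=
  ∀ K : Set (Fin n → ℝ), Convex ℝ K → IsCompact K → (∀ i, lab i = b → ∀ x ∈ K, rf (a i) x ∈ K) →
    ∃ K' : Set (Fin n → ℝ), Convex ℝ K' ∧ IsCompact K' ∧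
      (∀ φ : (Fin n → ℝ) → ℝ, Continuous φ → (∀ x y, (∀ i, lab i ≠ b → x i = y i) → φ x = φ y) →
        ∫ x in K', φ x = ∫ x in K, φ x) ∧
      (∀ i, lab i = b → (volume K).toReal * ∫ x in K, x i ^ 2 ≤
        16 * D * (∫ x in K', |x i|) ^ 2) ∧
      (∀ i, lab i = b → ∀ x ∈ K', rf (Pi.single i 1) x ∈ K') ∧
      ∀ c : Fin n → ℝ, (∀ i, lab i = b → c i = 0) → (∀ x ∈ K, rf c x ∈ K) → ∀ x ∈ K', rf c x ∈ K'

theorem blocks_ind {n : ℕ} {β : Type} [DecidableEq β] {D : ℝ} {a : Fin n → Fin n → ℝ}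
    {lab : Fin n → β} (hB : Blk a lab) (hs : ∀ b, (∃ i, lab i = b) → Stp lab a D b)
    {K : Set (Fin n → ℝ)} (hc : Convex ℝ K) (hK : IsCompact K) (hR : RInv a K) (S : Finset β)
    (hS : ∀ b ∈ S, ∃ i, lab i = b) :
    ∃ K' : Set (Fin n → ℝ), Convex ℝ K' ∧ IsCompact K' ∧
      (volume K').toReal = (volume K).toReal ∧
      (∀ i, lab i ∉ S → ∫ x in K', x i ^ 2 = ∫ x in K, x i ^ 2) ∧
      (∀ i, lab i ∈ S → (volume K).toReal * ∫ x in K, x i ^ 2 ≤
        16 * D * (∫ x in K', |x i|) ^ 2) ∧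
      (∀ i, lab i ∉ S → ∀ x ∈ K', rf (a i) x ∈ K') ∧
      (∀ i, lab i ∈ S → ∀ x ∈ K', rf (Pi.single i 1) x ∈ K') := by
  induction S using Finset.induction_on with
  | empty =>
    refine ⟨K, hc, hK, rfl, fun i _ => rfl, fun i hi => absurd hi (Finset.notMem_empty _),
      fun i _ => hR i, fun i hi => absurd hi (Finset.notMem_empty _)⟩
  | @insert b S hb ih =>
    obtain ⟨K₁, hc₁, hK₁, hv₁, hq₁, hm₁, hr₁, hu₁⟩ :=
      ih (fun b' hb' => hS b' (Finset.mem_insert_of_mem hb'))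
    obtain ⟨K', hc', hK', hφ, hm', hu', hr'⟩ :=
      hs b (hS b (Finset.mem_insert_self b S)) K₁ hc₁ hK₁ (fun i hi => hr₁ i (by rw [hi]; exact hb))
    refine ⟨K', hc', hK', ?_, ?_, ?_, ?_, ?_⟩
    · rw [← hv₁]
      have h := hφ (fun _ => 1) continuous_const (fun _ _ _ => rfl)
      rw [setIntegral_const, setIntegral_const] at h
      simpa [Measure.real] using h
    · intro i hi
      rw [Finset.mem_insert, not_or] at hi
      rw [← hq₁ i hi.2]
      exact hφ (fun x => x i ^ 2) (by fun_prop) (fun x y hxy => by simp only [hxy i hi.1])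
    · intro i hi
      rw [Finset.mem_insert] at hi
      by_cases hib : lab i = b
      · have h := hm' i hib
        rw [hv₁, hq₁ i (by rw [hib]; exact hb)] at h
        exact h
      · have hiS : lab i ∈ S := hi.resolve_left hib
        have h := hφ (fun x => |x i|) (by fun_prop) (fun x y hxy => by simp only [hxy i hib])
        rw [h]
        exact hm₁ i hiS
    · intro i hi
      rw [Finset.mem_insert, not_or] at hi
      exact hr' (a i) (fun j hj => hB.zero j i (by rw [hj]; exact fun h => hi.1 h.symm)) (hr₁ i hi.2)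
    · intro i hi
      rw [Finset.mem_insert] at hi
      by_cases hib : lab i = b
      · exact hu' i hib
      · have hiS : lab i ∈ S := hi.resolve_left hib
        refine hr' (Pi.single i 1) (fun j hj => ?_) (hu₁ i hiS)
        have : j ≠ i := fun h => hib (by rw [← h]; exact hj)
        rw [Pi.single_eq_of_ne this]

theorem rf_single {n : ℕ} (i : Fin n) (x : Fin n → ℝ) :
    rf (Pi.single i 1) x = Function.update x i (-x i) := by
  unfold rf
  funext j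
  by_cases h : j = i
  · subst h
    simp
    ring
  · simp [h]

theorem uncond_of {n : ℕ} {K : Set (Fin n → ℝ)} (h : ∀ i, ∀ x ∈ K, rf (Pi.single i 1) x ∈ K) :
    Unc.Uncond K := by
  intro x hx y hy
  have key : ∀ T : Finset (Fin n), (fun i => if i ∈ T then y i else x i) ∈ K := by
    intro T
    induction T using Finset.induction_on with
    | empty => simpa using hx
    | @insert j T hj ih =>
      rcases abs_eq_abs.1 (hy j) with h1 | h1
      · have e : (fun i => if i ∈ insert j T then y i else x i) =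
            fun i => if i ∈ T then y i else x i := by
          funext i
          by_cases hij : i = j
          · subst hij
            simp [hj, h1]
          · simp [Finset.mem_insert, hij]
        rw [e]
        exact ih
      · have h2 := h j _ ih
        rw [rf_single] at h2
        have e : (fun i => if i ∈ insert j T then y i else x i) =
            Function.update (fun i => if i ∈ T then y i else x i) j
              (-(fun i => if i ∈ T then y i else x i) j) := by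
          funext i
          by_cases hij : i = j
          · subst hij
            simp [hj, h1]
          · simp [Finset.mem_insert, hij]
        rw [e]
        exact h2
  have := key Finset.univ
  simpa using this

theorem all_blocks_of {n : ℕ} {β : Type} {D : ℝ} {a : Fin n → Fin n → ℝ} {lab : Fin n → β}
    (hB : Blk a lab) (hs : ∀ b, (∃ i, lab i = b) → Stp lab a D b) {K : Set (Fin n → ℝ)}
    (hc : Convex ℝ K) (hK : IsCompact K) (hR : RInv a K) :
    ∃ K' : Set (Fin n → ℝ), Convex ℝ K' ∧ IsCompact K' ∧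
      (volume K').toReal = (volume K).toReal ∧ Unc.Uncond K' ∧
      ∀ i, (volume K).toReal * ∫ x in K, x i ^ 2 ≤ 16 * D * (∫ x in K', |x i|) ^ 2 := by
  classical
  obtain ⟨K', h1, h2, h3, -, h5, -, h7⟩ := blocks_ind hB hs hc hK hR (Finset.univ.image lab)
    (fun b hb => by
      obtain ⟨i, -, hi⟩ := Finset.mem_image.1 hb
      exact ⟨i, hi⟩)
  have hm : ∀ i, lab i ∈ Finset.univ.image lab := fun i => Finset.mem_image_of_mem _ (Finset.mem_univ i)
  exact ⟨K', h1, h2, h3, uncond_of fun i => h7 i (hm i), fun i => h5 i (hm i)⟩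

/-- The enumeration of a block and of its complement. -/
theorem exists_enum {n : ℕ} {β : Type} (lab : Fin n → β) {b : β} (hb : ∃ i, lab i = b) :
    ∃ (m p : ℕ) (e : Fin m ⊕ Fin p ≃ Fin n), 1 ≤ m ∧ m + p = n ∧
      (∃ F : Finset (Fin n), (∀ i, i ∈ F ↔ lab i = b) ∧ F.card = m) ∧
      (∀ i, lab (e (Sum.inl i)) = b) ∧ ∀ j, lab (e (Sum.inr j)) ≠ b := by
  classical
  let e : Fin (Fintype.card {i // lab i = b}) ⊕ Fin (Fintype.card {i // ¬ lab i = b}) ≃ Fin n :=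
    (Equiv.sumCongr (Fintype.equivFin _).symm (Fintype.equivFin _).symm).trans
      (Equiv.sumCompl fun i => lab i = b)
  refine ⟨_, _, e, ?_, ?_, ⟨Finset.univ.filter fun i => lab i = b, fun i => by simp, ?_⟩, ?_, ?_⟩
  · obtain ⟨i, hi⟩ := hb
    exact Fintype.card_pos_iff.2 ⟨⟨i, hi⟩⟩
  · have := Fintype.card_congr e
    simpa using this
  · rw [Fintype.card_subtype]
  · intro i
    exact ((Fintype.equivFin {i // lab i = b}).symm i).2
  · intro j
    exact ((Fintype.equivFin {i // ¬ lab i = b}).symm j).2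

theorem cmb_inl {n m p : ℕ} (e : Fin m ⊕ Fin p ≃ Fin n) (y : Fin m → ℝ) (z : Fin p → ℝ) (i : Fin m) :
    cmb e y z (e (Sum.inl i)) = y i := by simp [cmb]

theorem cmb_inr {n m p : ℕ} (e : Fin m ⊕ Fin p ≃ Fin n) (y : Fin m → ℝ) (z : Fin p → ℝ) (j : Fin p) :
    cmb e y z (e (Sum.inr j)) = z j := by simp [cmb]

/-- The form of the conclusion of `sym_step` with the constant `D`. -/
def SymC {n m p : ℕ} (e : Fin m ⊕ Fin p ≃ Fin n) (K : Set (Fin n → ℝ)) (D : ℝ) : Prop :=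
  ∃ K' : Set (Fin n → ℝ), Convex ℝ K' ∧ IsCompact K' ∧
      (∀ φ : (Fin n → ℝ) → ℝ, Continuous φ → (∀ y y' z, φ (cmb e y z) = φ (cmb e y' z)) →
        ∫ x in K', φ x = ∫ x in K, φ x) ∧
      (∀ i : Fin m, (volume K).toReal * ∫ x in K, x (e (Sum.inl i)) ^ 2 ≤
        16 * D * (∫ x in K', |x (e (Sum.inl i))|) ^ 2) ∧
      (∀ i : Fin m, ∀ x ∈ K', rf (Pi.single (e (Sum.inl i)) 1) x ∈ K') ∧
      ∀ a : Fin n → ℝ, (∀ i : Fin m, a (e (Sum.inl i)) = 0) → (∀ x ∈ K, rf a x ∈ K) →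
        ∀ x ∈ K', rf a x ∈ K'

theorem stp_of {n : ℕ} {β : Type} {D : ℝ} {a : Fin n → Fin n → ℝ} {lab : Fin n → β} {b : β}
    {m p : ℕ} (e : Fin m ⊕ Fin p ≃ Fin n) (h1 : ∀ i, lab (e (Sum.inl i)) = b)
    (h2 : ∀ j, lab (e (Sum.inr j)) ≠ b)
    (h : ∀ K : Set (Fin n → ℝ), Convex ℝ K → IsCompact K →
      (∀ i : Fin m, ∀ x ∈ K, rf (a (e (Sum.inl i))) x ∈ K) → SymC e K D) : Stp lab a D b := by
  intro K hc hK hR
  obtain ⟨K', hc', hK', hφ, hm, hu, hr⟩ := h K hc hK fun i => hR _ (h1 i)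
  have hinl : ∀ i, lab i = b → ∃ k, e (Sum.inl k) = i := by
    intro i hi
    obtain ⟨s, rfl⟩ := e.surjective i
    rcases s with k | j
    · exact ⟨k, rfl⟩
    · exact absurd hi (h2 j)
  refine ⟨K', hc', hK', fun φ hφc hφi => hφ φ hφc fun y y' z => hφi _ _ fun i hi => ?_, ?_, ?_, ?_⟩
  · obtain ⟨s, rfl⟩ := e.surjective i
    rcases s with k | j
    · exact absurd (h1 k) hi
    · rw [cmb_inr, cmb_inr]
  · intro i hi
    obtain ⟨k, rfl⟩ := hinl i hi
    exact hm k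
  · intro i hi
    obtain ⟨k, rfl⟩ := hinl i hi
    exact hu k
  · intro c hc0 hcK
    exact hr c (fun k => hc0 _ (h1 k)) hcK

/-- The statement of `sym_step` (B2 of the plan). -/
def SymStep : Prop :=
  ∀ {n m p : ℕ} (_ : 1 ≤ m) (e : Fin m ⊕ Fin p ≃ Fin n) {K : Set (Fin n → ℝ)}
    (_ : Convex ℝ K) (_ : IsCompact K)
    (_ : ∀ (z : Fin p → ℝ) (i : Fin m), (∫ y in {y : Fin m → ℝ | cmb e y z ∈ K}, y i ^ 2) ^ m ≤
      cst m * (volume {y : Fin m → ℝ | cmb e y z ∈ K}).toReal ^ (m + 2)),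
    ∃ K' : Set (Fin n → ℝ), Convex ℝ K' ∧ IsCompact K' ∧
      (∀ φ : (Fin n → ℝ) → ℝ, Continuous φ → (∀ y y' z, φ (cmb e y z) = φ (cmb e y' z)) →
        ∫ x in K', φ x = ∫ x in K, φ x) ∧
      (∀ i : Fin m, (volume K).toReal * ∫ x in K, x (e (Sum.inl i)) ^ 2 ≤
        16 * cst n ^ (1 / (n : ℝ)) * (∫ x in K', |x (e (Sum.inl i))|) ^ 2) ∧
      (∀ i : Fin m, ∀ x ∈ K', rf (Pi.single (e (Sum.inl i)) 1) x ∈ K') ∧
      ∀ a : Fin n → ℝ, (∀ i : Fin m, a (e (Sum.inl i)) = 0) → (∀ x ∈ K, rf a x ∈ K) →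
        ∀ x ∈ K', rf a x ∈ K'

/-- The statement of `sym_step_D` (B2 with a free constant). -/
def SymStepD : Prop :=
  ∀ {n m p : ℕ} (_ : 1 ≤ m) (e : Fin m ⊕ Fin p ≃ Fin n) {K : Set (Fin n → ℝ)}
    (_ : Convex ℝ K) (_ : IsCompact K)
    (_ : ∀ (z : Fin p → ℝ) (i : Fin m), (∫ y in {y : Fin m → ℝ | cmb e y z ∈ K}, y i ^ 2) ^ m ≤
      cst m * (volume {y : Fin m → ℝ | cmb e y z ∈ K}).toReal ^ (m + 2))
    {D : ℝ} (_ : cst m ^ (1 / (m : ℝ)) *
      (((m : ℝ) + 2) * ((n : ℝ) + 1) / (((m : ℝ) + 1) * ((n : ℝ) + 2))) ≤ D),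
    ∃ K' : Set (Fin n → ℝ), Convex ℝ K' ∧ IsCompact K' ∧
      (∀ φ : (Fin n → ℝ) → ℝ, Continuous φ → (∀ y y' z, φ (cmb e y z) = φ (cmb e y' z)) →
        ∫ x in K', φ x = ∫ x in K, φ x) ∧
      (∀ i : Fin m, (volume K).toReal * ∫ x in K, x (e (Sum.inl i)) ^ 2 ≤
        16 * D * (∫ x in K', |x (e (Sum.inl i))|) ^ 2) ∧
      (∀ i : Fin m, ∀ x ∈ K', rf (Pi.single (e (Sum.inl i)) 1) x ∈ K') ∧
      ∀ a : Fin n → ℝ, (∀ i : Fin m, a (e (Sum.inl i)) = 0) → (∀ x ∈ K, rf a x ∈ K) →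
        ∀ x ∈ K', rf a x ∈ K'

/-- The statement of `fib_bd` (C1 of the plan). -/
def FibBd : Prop :=
  ∀ {n m p : ℕ} {β : Type} (_ : IrrBd m) {a : Fin n → Fin n → ℝ} {lab : Fin n → β}
    (_ : Blk a lab) (b : β) (e : Fin m ⊕ Fin p ≃ Fin n) (_ : ∀ i, lab (e (Sum.inl i)) = b)
    (_ : ∀ j, lab (e (Sum.inr j)) ≠ b) {K : Set (Fin n → ℝ)} (_ : Convex ℝ K)
    (_ : IsCompact K) (_ : ∀ i : Fin m, ∀ x ∈ K, rf (a (e (Sum.inl i))) x ∈ K)
    (z : Fin p → ℝ) (i : Fin m),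
    (∫ y in {y : Fin m → ℝ | cmb e y z ∈ K}, y i ^ 2) ^ m ≤
      cst m * (volume {y : Fin m → ℝ | cmb e y z ∈ K}).toReal ^ (m + 2)

/-- [C2] from `sym_step` and `fib_bd`. -/
theorem all_blocks (hsym : SymStep) (hfib : FibBd) {n : ℕ} {β : Type} (hI : ∀ m, 1 ≤ m → IrrBd m)
    {a : Fin n → Fin n → ℝ} {lab : Fin n → β} (hB : Blk a lab) {K : Set (Fin n → ℝ)}
    (hc : Convex ℝ K) (hK : IsCompact K) (hR : RInv a K) :
    ∃ K' : Set (Fin n → ℝ), Convex ℝ K' ∧ IsCompact K' ∧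
      (volume K').toReal = (volume K).toReal ∧ Unc.Uncond K' ∧
      ∀ i, (volume K).toReal * ∫ x in K, x i ^ 2 ≤
        16 * cst n ^ (1 / (n : ℝ)) * (∫ x in K', |x i|) ^ 2 := by
  refine all_blocks_of hB (fun b hb => ?_) hc hK hR
  obtain ⟨m, p, e, hm, -, -, h1, h2⟩ := exists_enum lab hb
  exact stp_of e h1 h2 fun K hc hK hR =>
    hsym hm e hc hK (hfib (hI m hm) hB b e h1 h2 hc hK hR)

/-- [C2] with a free constant, from `sym_step_D` and `fib_bd`. -/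
theorem all_blocks_D (hsym : SymStepD) (hfib : FibBd) {n : ℕ} {β : Type}
    (hI : ∀ m, 1 ≤ m → IrrBd m) {a : Fin n → Fin n → ℝ} {lab : Fin n → β} (hB : Blk a lab)
    {K : Set (Fin n → ℝ)} (hc : Convex ℝ K) (hK : IsCompact K) (hR : RInv a K) {D : ℝ}
    (hD : ∀ m, 1 ≤ m → (∃ (b : β) (F : Finset (Fin n)), (∀ i, i ∈ F ↔ lab i = b) ∧ F.card = m) →
      cst m ^ (1 / (m : ℝ)) *
        (((m : ℝ) + 2) * ((n : ℝ) + 1) / (((m : ℝ) + 1) * ((n : ℝ) + 2))) ≤ D) :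
    ∃ K' : Set (Fin n → ℝ), Convex ℝ K' ∧ IsCompact K' ∧
      (volume K').toReal = (volume K).toReal ∧ Unc.Uncond K' ∧
      ∀ i, (volume K).toReal * ∫ x in K, x i ^ 2 ≤ 16 * D * (∫ x in K', |x i|) ^ 2 := by
  refine all_blocks_of hB (fun b hb => ?_) hc hK hR
  obtain ⟨m, p, e, hm, -, ⟨F, hF, hFm⟩, h1, h2⟩ := exists_enum lab hb
  exact stp_of e h1 h2 fun K hc hK hR =>
    hsym hm e hc hK (hfib (hI m hm) hB b e h1 h2 hc hK hR) (hD m hm ⟨b, F, hF, hFm⟩)

/-- The form of helper989. -/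
theorem all_blocks_D' (hsym : SymStepD) (hfib : FibBd) {n : ℕ} {β : Type} [DecidableEq β]
    (hI : ∀ m, 1 ≤ m → IrrBd m) {a : Fin n → Fin n → ℝ} {lab : Fin n → β} (hB : Blk a lab)
    {K : Set (Fin n → ℝ)} (hc : Convex ℝ K) (hK : IsCompact K) (hR : RInv a K) {D : ℝ}
    (hD : ∀ m, 1 ≤ m → (∃ b, (Finset.univ.filter fun i => lab i = b).card = m) →
      cst m ^ (1 / (m : ℝ)) *
        (((m : ℝ) + 2) * ((n : ℝ) + 1) / (((m : ℝ) + 1) * ((n : ℝ) + 2))) ≤ D) :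
    ∃ K' : Set (Fin n → ℝ), Convex ℝ K' ∧ IsCompact K' ∧
      (volume K').toReal = (volume K).toReal ∧ Unc.Uncond K' ∧
      ∀ i, (volume K).toReal * ∫ x in K, x i ^ 2 ≤ 16 * D * (∫ x in K', |x i|) ^ 2 := by
  refine all_blocks_D hsym hfib hI hB hc hK hR fun m hm ⟨b, F, hF, hFm⟩ => hD m hm ⟨b, ?_⟩
  rw [← hFm]
  congr 1
  ext i
  simp [hF i]

end Vale.Agent.P254.Refl.C2h700
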