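import Vale.Agent.P254.Refl.Defs
import Vale.Agent.P254.Bdl.B4

/-!
P254, bodies with reflections, leaf C3: the product of the first absolute moments of an
unconditional convex compact set.
-/

open MeasureTheory Set

namespace Vale.Agent.P254.Refl.H895

open Vale.Agent.P254.Unc.FB

theorem unc_abs {n : ℕ} (hn : 1 ≤ n) (hU : Unc.UNCR n) {K : Set (Fin n → ℝ)} (hc : Convex ℝ K)
    (hK : IsCompact K) (hu : Unc.Uncond K) :
    ∏ i, (∫ x in K, |x i|) ≤ ((volume K).toReal / 4 ^ n) * (volume K).toReal ^ n := by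
  rcases K.eq_empty_or_nonempty with he | ⟨x0, hx0⟩
  · subst he
    have : (∏ i : Fin n, (∫ x in (∅ : Set (Fin n → ℝ)), |x i|)) = 0 := by
      simp only [Measure.restrict_empty, integral_zero_measure]
      exact Finset.prod_eq_zero (Finset.mem_univ (⟨0, hn⟩ : Fin n)) rfl
    rw [this]
    simp
  have hfin : volume K ≠ ⊤ := hK.measure_lt_top.ne
  set P : Set (Fin n → ℝ) := K ∩ {x | ∀ i, 0 ≤ x i} with hP
  have hPc : Convex ℝ P := hc.inter orth_convex
  have hPk : IsCompact P := hK.inter_right orth_closed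
  have hPd : Unc.Down P := down hc hu
  have hPne : P.Nonempty :=
    ⟨fun i => |x0 i|, hu _ hx0 _ fun i => abs_abs _, fun i => abs_nonneg _⟩
  have hVP : (volume K).toReal = 2 ^ n * (volume P).toReal := by
    have h := reduct_univ hu (f := fun _ => (1 : ℝ)) (integrableOn_const hfin) (fun _ _ => rfl)
    rw [setIntegral_const, setIntegral_const] at h
    simpa [Measure.real] using h
  have hcont : ∀ i : Fin n, Continuous fun x : Fin n → ℝ => |x i| := fun i => by fun_prop
  have hMP : ∀ i, ∫ x in K, |x i| = 2 ^ n * ∫ x in P, x i := by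
    intro i
    have h := reduct_univ hu (f := fun x => |x i|)
      ((hcont i).continuousOn.integrableOn_compact hK) (fun j x => refl_abs j i x)
    rw [h]
    congr 1
    refine setIntegral_congr_fun hPk.measurableSet fun x hx => ?_
    exact abs_of_nonneg (hx.2 i)
  have h := hU P hPc hPk hPne hPd
  rw [Finset.prod_mul_distrib, Finset.prod_const, Finset.card_univ, Fintype.card_fin] at h
  simp_rw [hMP]
  rw [Finset.prod_mul_distrib, Finset.prod_const, Finset.card_univ, Fintype.card_fin, hVP]
  set V : ℝ := (volume P).toReal with hVdef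
  set M : ℝ := ∏ i : Fin n, ∫ x in P, x i with hM
  have h2 : (0 : ℝ) < 2 ^ n := by positivity
  have e4 : (4 : ℝ) ^ n = 2 ^ n * 2 ^ n := by
    rw [← mul_pow]; norm_num
  have e : 2 ^ n * V / 4 ^ n * (2 ^ n * V) ^ n = (2 ^ n) ^ n * (V ^ (n + 1) / 2 ^ n) := by
    rw [e4, mul_pow, pow_succ V]
    field_simp
  rw [e]
  refine mul_le_mul_of_nonneg_left ?_ (by positivity)
  rw [le_div_iff₀ h2]
  linarith

end Vale.Agent.P254.Refl.H895
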