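import Vale.Agent.P254.Refl.Defs

/-!
P254/Refl C6: coordinates adapted to the components (Gram-Schmidt).
-/

open MeasureTheory Set Matrix

namespace Vale.Agent.P254.Refl.H120

open InnerProductSpace

lemma lk_symm {n : ℕ} {a : Fin n → Fin n → ℝ} {i j : Fin n} (h : Lk a i j) : Lk a j i := by
  induction h with
  | refl => exact Relation.ReflTransGen.refl
  | tail _ h2 ih =>
    refine Relation.ReflTransGen.head ?_ ih
    rwa [dotProduct_comm]

/-- the vectors in the Euclidean space -/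
noncomputable def ev {n : ℕ} (a : Fin n → Fin n → ℝ) (i : Fin n) : EuclideanSpace ℝ (Fin n) :=
  WithLp.toLp 2 (a i)

lemma inner_eq {n : ℕ} (u v : EuclideanSpace ℝ (Fin n)) :
    inner ℝ u v = (u.ofLp) ⬝ᵥ (v.ofLp) := by
  rw [PiLp.inner_apply, dotProduct]
  refine Finset.sum_congr rfl fun k _ => ?_
  simp [mul_comm]

lemma inner_ev {n : ℕ} (a : Fin n → Fin n → ℝ) (i j : Fin n) :
    inner ℝ (ev a i) (ev a j) = a i ⬝ᵥ a j := inner_eq _ _

/-- the span of the vectors of the component of `i` -/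
noncomputable def sp {n : ℕ} (a : Fin n → Fin n → ℝ) (i : Fin n) :
    Submodule ℝ (EuclideanSpace ℝ (Fin n)) := Submodule.span ℝ (ev a '' {j | Lk a i j})

lemma sp_orth {n : ℕ} {a : Fin n → Fin n → ℝ} {i j : Fin n} (hij : ¬ Lk a i j)
    {u : EuclideanSpace ℝ (Fin n)} (hu : u ∈ sp a i) : inner ℝ u (ev a j) = 0 := by
  induction hu using Submodule.span_induction with
  | mem x hx =>
    obtain ⟨k, hk, rfl⟩ := hx
    rw [inner_ev]
    by_contra h
    exact hij (Relation.ReflTransGen.tail hk h)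
  | zero => exact inner_zero_left _
  | add x y _ _ h1 h2 => rw [inner_add_left, h1, h2, add_zero]
  | smul c x _ h1 => rw [inner_smul_left, h1, mul_zero]

lemma sp_eq {n : ℕ} {a : Fin n → Fin n → ℝ} {i j : Fin n} (hij : Lk a i j) :
    sp a j ≤ sp a i := by
  refine Submodule.span_mono (image_mono ?_)
  intro k hk
  exact Relation.ReflTransGen.trans hij hk

lemma gs_mem {n : ℕ} (a : Fin n → Fin n → ℝ) (i : Fin n) : gramSchmidt ℝ (ev a) i ∈ sp a i := by
  induction i using WellFoundedLT.induction with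
  | ind i ih =>
    rw [gramSchmidt_def]
    refine Submodule.sub_mem _ (Submodule.subset_span ⟨i, Relation.ReflTransGen.refl, rfl⟩) ?_
    refine Submodule.sum_mem _ fun j hj => ?_
    rw [Submodule.starProjection_singleton]
    have hj' := ih j (Finset.mem_Iio.1 hj)
    by_cases h : Lk a i j
    · exact Submodule.smul_mem _ _ (sp_eq h hj')
    · rw [sp_orth (fun h' => h (lk_symm h')) hj', zero_div, zero_smul]
      exact Submodule.zero_mem _

lemma gsn_mem {n : ℕ} (a : Fin n → Fin n → ℝ) (i : Fin n) :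
    gramSchmidtNormed ℝ (ev a) i ∈ sp a i := by
  unfold gramSchmidtNormed
  exact Submodule.smul_mem _ _ (gs_mem a i)

lemma ev_li {n : ℕ} {a : Fin n → Fin n → ℝ} (ha : LinearIndependent ℝ a) :
    LinearIndependent ℝ (ev a) :=
  ha.map' (WithLp.linearEquiv 2 ℝ (Fin n → ℝ)).symm.toLinearMap (LinearEquiv.ker _)

/-- the orthogonal matrix -/
noncomputable def om {n : ℕ} (a : Fin n → Fin n → ℝ) : Matrix (Fin n) (Fin n) ℝ :=
  Matrix.of fun i => (gramSchmidtNormed ℝ (ev a) i).ofLp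

lemma om_mulVec {n : ℕ} (a : Fin n → Fin n → ℝ) (i j : Fin n) :
    (om a *ᵥ a j) i = inner ℝ (gramSchmidtNormed ℝ (ev a) i) (ev a j) := by
  rw [inner_eq]
  rfl

lemma om_mul {n : ℕ} {a : Fin n → Fin n → ℝ} (ha : LinearIndependent ℝ a) :
    om a * (om a)ᵀ = 1 := by
  ext i j
  have h := orthonormal_iff_ite.1 (gramSchmidtNormed_orthonormal (𝕜 := ℝ) (ev_li ha)) i j
  rw [inner_eq] at h
  rw [Matrix.one_apply, Matrix.mul_apply']
  exact h

lemma dot_om {n : ℕ} {O : Matrix (Fin n) (Fin n) ℝ} (hO : Oᵀ * O = 1) (u v : Fin n → ℝ) :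
    (O *ᵥ u) ⬝ᵥ (O *ᵥ v) = u ⬝ᵥ v := by
  rw [Matrix.dotProduct_mulVec, ← Matrix.mulVec_transpose, Matrix.mulVec_mulVec, hO,
    Matrix.one_mulVec]

/-- [C6] adapted coordinates (Gram-Schmidt) -/
theorem exists_blk {n : ℕ} {a : Fin n → Fin n → ℝ} (ha : LinearIndependent ℝ a) :
    ∃ (O : Matrix (Fin n) (Fin n) ℝ) (β : Type) (lab : Fin n → β), O * Oᵀ = 1 ∧ Oᵀ * O = 1 ∧
      Blk (fun i => O *ᵥ a i) lab := by
  have h1 := om_mul ha
  have h2 : (om a)ᵀ * om a = 1 := mul_eq_one_comm.1 h1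
  have hlab : ∀ i j, ({k | Lk a i k} : Set (Fin n)) = {k | Lk a j k} ↔ Lk a i j := by
    intro i j
    constructor
    · intro h
      have : j ∈ ({k | Lk a j k} : Set (Fin n)) := Relation.ReflTransGen.refl
      rw [← h] at this
      exact this
    · intro h
      ext k
      exact ⟨fun h' => Relation.ReflTransGen.trans (lk_symm h) h',
        fun h' => Relation.ReflTransGen.trans h h'⟩
  refine ⟨om a, Set (Fin n), fun i => {k | Lk a i k}, h1, h2, ?_, ?_, ?_⟩
  · have hinj : Function.Injective (om a).mulVecLin := by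
      intro u v huv
      have h3 : om a *ᵥ u = om a *ᵥ v := huv
      have h4 := congrArg (fun w => (om a)ᵀ *ᵥ w) h3
      simpa only [Matrix.mulVec_mulVec, h2, Matrix.one_mulVec] using h4
    exact ha.map' (om a).mulVecLin (LinearMap.ker_eq_bot.2 hinj)
  · intro i j hij
    rw [Ne, hlab] at hij
    show (om a *ᵥ a j) i = 0
    rw [om_mulVec]
    exact sp_orth hij (gsn_mem a i)
  · intro i j hij
    rw [hlab] at hij
    refine Relation.ReflTransGen.mono (r := fun i j => a i ⬝ᵥ a j ≠ 0) (p := fun i j => (om a *ᵥ a i) ⬝ᵥ (om a *ᵥ a j) ≠ 0) ?_ _ _ hij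
    intro k l hkl
    show (om a *ᵥ a k) ⬝ᵥ (om a *ᵥ a l) ≠ 0
    rwa [dot_om h2]

end Vale.Agent.P254.Refl.H120
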