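import Vale.Agent.P254.Refl.Defs
import Vale.Agent.P254.Bdl.B2
import Vale.Agent.P254.Bdl.B17
import Vale.Agent.P254.Fib.Transfer863

/-!
P254/Refl: reduction of oblique affine reflections to orthogonal ones.
-/

open MeasureTheory Set Matrix

namespace Vale.Agent.P254.Refl

namespace C8

variable {n : ℕ}

/-- The matrix of the oblique reflection. -/
def R (a w : Fin n → ℝ) : Matrix (Fin n) (Fin n) ℝ := 1 - vecMulVec a w

theorem R_mulVec (a w x : Fin n → ℝ) : R a w *ᵥ x = x - (w ⬝ᵥ x) • a := by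
  rw [R, sub_mulVec, one_mulVec, vecMulVec_mulVec]
  simp

theorem R_invol {a w : Fin n → ℝ} (h : w ⬝ᵥ a = 2) (x : Fin n → ℝ) :
    R a w *ᵥ (R a w *ᵥ x) = x := by
  rw [R_mulVec, R_mulVec, dotProduct_sub, dotProduct_smul, h]
  ext i
  simp only [Pi.sub_apply, Pi.smul_apply, smul_eq_mul]
  ring

theorem R_sq {a w : Fin n → ℝ} (h : w ⬝ᵥ a = 2) : R a w * R a w = 1 := by
  ext i j
  have h1 := congrFun (R_invol h (Pi.single j 1)) i
  rw [mulVec_mulVec] at h1
  simpa [mulVec_single, Matrix.one_apply, Pi.single_apply] using h1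

theorem R_det {a w : Fin n → ℝ} (h : w ⬝ᵥ a = 2) : (R a w).det ≠ 0 := by
  intro h0
  have h1 := congrArg Matrix.det (R_sq h)
  rw [det_mul, h0, zero_mul, det_one] at h1
  exact zero_ne_one h1

theorem aff_R {a w : Fin n → ℝ} {c : ℝ} (x : Fin n → ℝ) :
    aff (R a w) (c • a) x = x - (w ⬝ᵥ x - c) • a := by
  rw [aff, R_mulVec, sub_smul]
  abel

theorem aff_R_invol {a w : Fin n → ℝ} {c : ℝ} (h : w ⬝ᵥ a = 2) (x : Fin n → ℝ) :
    aff (R a w) (c • a) (aff (R a w) (c • a) x) = x := by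
  rw [aff_R, aff_R, dotProduct_sub, dotProduct_smul, h]
  ext i
  simp only [Pi.sub_apply, Pi.smul_apply, smul_eq_mul]
  ring

theorem image_eq {K : Set (Fin n → ℝ)} {a w : Fin n → ℝ} {c : ℝ} (h : w ⬝ᵥ a = 2)
    (hR : ∀ x ∈ K, x - (w ⬝ᵥ x - c) • a ∈ K) : aff (R a w) (c • a) '' K = K := by
  have h1 : ∀ x ∈ K, aff (R a w) (c • a) x ∈ K := fun x hx => by
    rw [aff_R]; exact hR x hx
  apply Subset.antisymm
  · rintro _ ⟨x, hx, rfl⟩
    exact h1 x hx
  · intro x hx
    exact ⟨_, h1 x hx, aff_R_invol h x⟩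

/-- The covariance matrix sends `w` to a multiple of `a`. -/
theorem cov_w {K : Set (Fin n → ℝ)} (hK : IsConvexBody K) (hV : (volume K).toReal ≠ 0)
    {a w : Fin n → ℝ} {c : ℝ} (h : w ⬝ᵥ a = 2) (hR : ∀ x ∈ K, x - (w ⬝ᵥ x - c) • a ∈ K) :
    (2 : ℝ) • (covMatrix K *ᵥ w) = (w ⬝ᵥ (covMatrix K *ᵥ w)) • a := by
  have h1 := cov_aff_image (R_det h) (c • a) hK.2.1 hV
  rw [image_eq h hR] at h1
  set S := covMatrix K with hS
  have hRT : ∀ x : Fin n → ℝ, (R a w)ᵀ *ᵥ x = x - (a ⬝ᵥ x) • w := by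
    intro x
    rw [R, transpose_sub, transpose_one, transpose_vecMulVec, sub_mulVec, one_mulVec,
      vecMulVec_mulVec]
    simp
  have h2 : S *ᵥ w = R a w *ᵥ (S *ᵥ ((R a w)ᵀ *ᵥ w)) := by
    rw [mulVec_mulVec, mulVec_mulVec]
    exact congrArg (fun M => M *ᵥ w) h1
  rw [hRT, dotProduct_comm a w, h] at h2
  have h3 : w - (2 : ℝ) • w = -w := by
    ext i
    simp only [Pi.sub_apply, Pi.smul_apply, smul_eq_mul, Pi.neg_apply]
    ring
  rw [h3, mulVec_neg, mulVec_neg, R_mulVec] at h2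
  ext i
  have h4 := congrFun h2 i
  simp only [Pi.neg_apply, Pi.sub_apply, Pi.smul_apply, smul_eq_mul] at h4 ⊢
  linarith

/-- A positive definite matrix is `Bᵀ * B`. -/
theorem exists_sqrt {S : Matrix (Fin n) (Fin n) ℝ} (hA : S.PosDef) :
    ∃ B : Matrix (Fin n) (Fin n) ℝ, S = Bᵀ * B := by
  have hH : S.IsHermitian := hA.isHermitian
  set U : Matrix (Fin n) (Fin n) ℝ := (hH.eigenvectorUnitary : Matrix (Fin n) (Fin n) ℝ) with hU
  have hspec : S = U * diagonal hH.eigenvalues * Uᵀ := by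
    have h := hH.spectral_theorem
    rw [Unitary.conjStarAlgAut_apply] at h
    simpa [star_eq_conjTranspose, Function.comp_def] using h
  have hpos : ∀ i, 0 < hH.eigenvalues i := fun i => hA.eigenvalues_pos i
  have hA2 : S = (U * diagonal fun i => √(hH.eigenvalues i)) *
      (U * diagonal fun i => √(hH.eigenvalues i))ᵀ := by
    rw [transpose_mul, diagonal_transpose, Matrix.mul_assoc, ← Matrix.mul_assoc (diagonal _),
      diagonal_mul_diagonal, ← Matrix.mul_assoc]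
    conv_lhs => rw [hspec]
    congr 3
    funext i
    exact (Real.mul_self_sqrt (hpos i).le).symm
  exact ⟨(U * diagonal fun i => √(hH.eigenvalues i))ᵀ, by rw [transpose_transpose]; exact hA2⟩

end C8

open C8

/-- [C8] reduction of oblique affine reflections to orthogonal ones -/
theorem exists_pos {n : ℕ} {K : Set (Fin n → ℝ)} (hK : IsConvexBody K)
    {a w : Fin n → Fin n → ℝ} {c : Fin n → ℝ} (ha : LinearIndependent ℝ a)
    (hw : ∀ i, w i ⬝ᵥ a i = 2) (hR : ∀ i, ∀ x ∈ K, x - (w i ⬝ᵥ x - c i) • a i ∈ K) :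
    ∃ (A : Matrix (Fin n) (Fin n) ℝ) (b : Fin n → ℝ) (a' : Fin n → Fin n → ℝ), A.det ≠ 0 ∧
      LinearIndependent ℝ a' ∧ RInv a' ((fun x => A *ᵥ x + b) '' K) := by
  have hV : (volume K).toReal ≠ 0 := by
    have h1 : 0 < volume K :=
      (isOpen_interior.measure_pos volume hK.2.2).trans_le (measure_mono interior_subset)
    exact (ENNReal.toReal_pos h1.ne' hK.2.1.measure_lt_top.ne).ne'
  have hpd := Fib.H863.cov_posDef hK
  obtain ⟨B, hB⟩ := exists_sqrt hpd
  set S := covMatrix K with hS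
  have hBdet : B.det ≠ 0 := by
    intro h0
    have h1 := hpd.det_pos
    rw [hB, det_mul, h0, mul_zero] at h1
    exact lt_irrefl _ h1
  have hBu : IsUnit B.det := isUnit_iff_ne_zero.2 hBdet
  have hBTu : IsUnit Bᵀ.det := by rw [det_transpose]; exact hBu
  set A := (Bᵀ)⁻¹ with hA
  have hAdet : A.det ≠ 0 := by
    rw [hA, det_nonsing_inv, Ring.inverse_eq_inv']
    exact inv_ne_zero (by rw [det_transpose]; exact hBdet)
  have hATA : Aᵀ * A * S = 1 := by
    rw [hB, hA, Matrix.mul_assoc, ← Matrix.mul_assoc (Bᵀ)⁻¹, nonsing_inv_mul _ hBTu,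
      Matrix.one_mul, transpose_nonsing_inv, transpose_transpose, nonsing_inv_mul _ hBu]
  refine ⟨A, -(A *ᵥ centroid K), fun i => A *ᵥ a i, hAdet, ?_, ?_⟩
  · have hinj : LinearMap.ker A.mulVecLin = ⊥ := by
      rw [LinearMap.ker_eq_bot]
      exact mulVec_injective_iff_isUnit.2 ((isUnit_iff_isUnit_det A).2 (isUnit_iff_ne_zero.2 hAdet))
    exact ha.map' A.mulVecLin hinj
  · rintro i _ ⟨x, hx, rfl⟩
    refine ⟨x - (w i ⬝ᵥ x - c i) • a i, hR i x hx, ?_⟩
    simp only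
    -- the quadratic form
    have hcw := cov_w hK hV (hw i) (hR i)
    rw [← hS] at hcw
    set q := w i ⬝ᵥ (S *ᵥ w i) with hq
    have hwne : w i ≠ 0 := by
      intro h0
      have := hw i
      rw [h0, zero_dotProduct] at this
      norm_num at this
    have hq0 : 0 < q := by
      have := (posDef_iff_dotProduct_mulVec.1 hpd).2 hwne
      simpa using this
    have hform : ∀ y : Fin n → ℝ, (A *ᵥ a i) ⬝ᵥ (A *ᵥ y) = 2 / q * (w i ⬝ᵥ y) := by
      intro y
      have e1 : (A *ᵥ a i) ⬝ᵥ (A *ᵥ y) = ((Aᵀ * A) *ᵥ a i) ⬝ᵥ y := by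
        rw [← mulVec_mulVec, mulVec_transpose, dotProduct_mulVec]
      have e2 : a i = (2 / q) • (S *ᵥ w i) := by
        have e3 : (q : ℝ)⁻¹ • ((2 : ℝ) • (S *ᵥ w i)) = a i := by
          rw [hcw, smul_smul, inv_mul_cancel₀ hq0.ne', one_smul]
        rw [← e3, smul_smul]
        congr 1
        ring
      rw [e1]
      conv_lhs => rw [e2]
      rw [mulVec_smul, mulVec_mulVec, hATA, one_mulVec, smul_dotProduct, smul_eq_mul]
    have hcen : centroid K = aff (R (a i) (w i)) (c i • a i) (centroid K) := by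
      have h1 := centroid_aff_image (R_det (hw i)) (c i • a i) hK.2.1 hV
      rw [image_eq (hw i) (hR i)] at h1
      exact h1
    rw [aff_R] at hcen
    have hcen2 : w i ⬝ᵥ centroid K = c i := by
      have h1 := congrArg (fun z => w i ⬝ᵥ z) hcen
      simp only [dotProduct_sub, dotProduct_smul, hw i, smul_eq_mul] at h1
      linarith
    have hy : A *ᵥ x + -(A *ᵥ centroid K) = A *ᵥ (x - centroid K) := by
      rw [mulVec_sub, sub_eq_add_neg]
    rw [rf, hy, hform, hform, hw i, dotProduct_sub, hcen2]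
    have hk : 2 * (2 / q * (w i ⬝ᵥ x - c i)) / (2 / q * 2) = w i ⬝ᵥ x - c i := by
      field_simp
    rw [hk, mulVec_sub, mulVec_sub, mulVec_smul]
    abel

end Vale.Agent.P254.Refl
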