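import Mathlib.Analysis.SpecialFunctions.Stirling

/-!
P254: `d n = (n!)² / (n+1)^(2n+1)` is supermultiplicative (helper898).
-/

open Real

namespace Vale.Agent.P254.Refl.D898

/-- `(n!)² / (n+1)^(2n+1)` -/
noncomputable def dd (n : ℕ) : ℝ := (n.factorial : ℝ) ^ 2 / ((n : ℝ) + 1) ^ (2 * n + 1)

theorem dd_pos (n : ℕ) : 0 < dd n := by
  unfold dd
  positivity

theorem dd_zero : dd 0 = 1 := by simp [dd]

theorem dd_stirling (n : ℕ) :
    dd n = 2 * exp (-(2 * ((n : ℝ) + 1))) * Stirling.stirlingSeq (n + 1) ^ 2 := by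
  have h1 : (0 : ℝ) < (n : ℝ) + 1 := by positivity
  have h2 : (√(2 * ((n + 1 : ℕ) : ℝ))) ^ 2 = 2 * ((n : ℝ) + 1) := by
    rw [Real.sq_sqrt (by positivity)]; push_cast; ring
  rw [Stirling.stirlingSeq, div_pow, mul_pow, h2, dd]
  have h3 : (((n + 1 : ℕ) : ℝ) / exp 1) ^ (n + 1) = ((n : ℝ) + 1) ^ (n + 1) / exp ((n : ℝ) + 1) := by
    rw [div_pow, ← exp_nat_mul]
    push_cast
    ring_nf
  rw [h3, div_pow, ← pow_mul]
  have h4 : (((n + 1).factorial : ℕ) : ℝ) = ((n : ℝ) + 1) * (n.factorial : ℝ) := by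
    rw [Nat.factorial_succ]; push_cast; ring
  rw [h4]
  have h5 : exp (-(2 * ((n : ℝ) + 1))) = 1 / exp ((n : ℝ) + 1) ^ 2 := by
    rw [← exp_nat_mul, exp_neg]
    simp
  rw [h5]
  have h6 : exp ((n : ℝ) + 1) ≠ 0 := (exp_pos _).ne'
  have h7 : ((n : ℝ) + 1) ^ ((n + 1) * 2) = ((n : ℝ) + 1) ^ (2 * n + 1) * ((n : ℝ) + 1) := by
    ring
  rw [h7]
  field_simp

theorem diff_lt (m : ℕ) :
    log (Stirling.stirlingSeq (m + 2)) - log (Stirling.stirlingSeq (m + 3)) <
      log (Stirling.stirlingSeq (m + 1)) - log (Stirling.stirlingSeq (m + 2)) := by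
  have h1 := Stirling.log_stirlingSeq_sdiff_hasSum (m + 1)
  have h2 := Stirling.log_stirlingSeq_sdiff_hasSum m
  have hb : ∀ k : ℕ, ((1 : ℝ) / (2 * ↑(m + 1 + 1) + 1)) ^ 2 < (1 / (2 * ↑(m + 1) + 1)) ^ 2 := by
    intro k
    refine pow_lt_pow_left₀ ?_ (by positivity) (by norm_num)
    refine one_div_lt_one_div_of_lt (by positivity) ?_
    push_cast
    linarith
  refine hasSum_lt (i := 0) (fun k => ?_) ?_ h1 h2
  · refine mul_le_mul_of_nonneg_left ?_ (by positivity)
    exact pow_le_pow_left₀ (by positivity) (hb k).le _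
  · refine mul_lt_mul_of_pos_left ?_ (by positivity)
    exact pow_lt_pow_left₀ (hb 0) (by positivity) (by norm_num)

/-- increments of `log dd` -/
noncomputable def inc (n : ℕ) : ℝ := log (dd (n + 1)) - log (dd n)

theorem log_dd (n : ℕ) :
    log (dd n) = log 2 - 2 * ((n : ℝ) + 1) + 2 * log (Stirling.stirlingSeq (n + 1)) := by
  have hs : 0 < Stirling.stirlingSeq (n + 1) := Stirling.stirlingSeq'_pos n
  rw [dd_stirling, log_mul (by positivity) (by positivity), log_mul (by norm_num) (exp_pos _).ne',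
    log_exp, log_pow]
  push_cast
  ring

theorem inc_lt (n : ℕ) : inc n < inc (n + 1) := by
  have := diff_lt n
  rw [inc, inc, log_dd, log_dd, log_dd]
  push_cast
  rw [show n + 1 + 1 = n + 2 by ring, show n + 1 + 1 + 1 = n + 3 by ring]
  linarith

theorem inc_mono : StrictMono inc := strictMono_nat_of_lt_succ inc_lt

theorem log_add (m k : ℕ) : log (dd m) + log (dd k) ≤ log (dd (m + k)) := by
  induction k with
  | zero => simp [dd_zero]
  | succ k ih =>
    have h : inc k ≤ inc (m + k) := inc_mono.monotone (by omega)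
    rw [inc, inc] at h
    rw [← add_assoc]
    linarith

theorem log_add_lt (m k : ℕ) (hm : 1 ≤ m) (hk : 1 ≤ k) :
    log (dd m) + log (dd k) < log (dd (m + k)) := by
  obtain ⟨k, rfl⟩ : ∃ j, k = j + 1 := ⟨k - 1, by omega⟩
  have h : inc k < inc (m + k) := inc_mono (by omega)
  have h1 := log_add m k
  rw [inc, inc] at h
  rw [← add_assoc]
  linarith

/-- supermultiplicativity -/
theorem dd_mul_le (m k : ℕ) : dd m * dd k ≤ dd (m + k) := by
  have h := log_add m k
  rw [← log_mul (dd_pos m).ne' (dd_pos k).ne'] at h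
  exact (log_le_log_iff (mul_pos (dd_pos m) (dd_pos k)) (dd_pos _)).1 h

theorem dd_mul_lt (m k : ℕ) (hm : 1 ≤ m) (hk : 1 ≤ k) : dd m * dd k < dd (m + k) := by
  have h := log_add_lt m k hm hk
  rw [← log_mul (dd_pos m).ne' (dd_pos k).ne'] at h
  exact (log_lt_log_iff (mul_pos (dd_pos m) (dd_pos k)) (dd_pos _)).1 h

theorem dd_prod_le {ι : Type*} (s : Finset ι) (m : ι → ℕ) : ∏ j ∈ s, dd (m j) ≤ dd (∑ j ∈ s, m j) := by
  classical
  induction s using Finset.induction_on with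
  | empty => simp [dd_zero]
  | insert a s ha ih =>
    rw [Finset.prod_insert ha, Finset.sum_insert ha]
    exact (mul_le_mul_of_nonneg_left ih (dd_pos _).le).trans (dd_mul_le _ _)

end Vale.Agent.P254.Refl.D898
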