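import Vale.Agent.P254.Refl.Defs
import Vale.Agent.P254.Refl.DSup
import Vale.Agent.P254.Unc.FinDefs

/-!
P254/Refl, leaf E2: strictness for at least two blocks.
-/

open MeasureTheory Set Matrix

namespace Vale.Agent.P254.Refl.E2

open Refl.D898

theorem lt_inc (m : ℕ) (hm : 1 ≤ m) : Real.log (dd m) < m * inc m := by
  induction m, hm using Nat.le_induction with
  | base =>
    have h := inc_lt 0
    have h0 : Real.log (dd 0) = 0 := by rw [dd_zero, Real.log_one]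
    have h1 : inc 0 = Real.log (dd 1) := by rw [inc, h0, sub_zero]
    rw [← h1]
    simpa using h
  | succ m hm ih =>
    have h := inc_lt m
    have h1 : Real.log (dd (m + 1)) = Real.log (dd m) + inc m := by rw [inc]; ring
    have hm' : (0 : ℝ) ≤ m := by positivity
    rw [h1]
    push_cast
    nlinarith

theorem avg_lt (m : ℕ) (hm : 1 ≤ m) :
    Real.log (dd m) / m < Real.log (dd (m + 1)) / ((m + 1 : ℕ) : ℝ) := by
  have h := lt_inc m hm
  have h1 : Real.log (dd (m + 1)) = Real.log (dd m) + inc m := by rw [inc]; ring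
  have hm' : (0 : ℝ) < m := by exact_mod_cast hm
  rw [div_lt_div_iff₀ hm' (by positivity), h1]
  push_cast
  nlinarith

theorem avg_lt' (m p : ℕ) (hm : 1 ≤ m) (hp : 1 ≤ p) :
    Real.log (dd m) / m < Real.log (dd (m + p)) / ((m + p : ℕ) : ℝ) := by
  induction p, hp using Nat.le_induction with
  | base => exact avg_lt m hm
  | succ p hp ih => exact ih.trans (avg_lt (m + p) (by omega))

theorem cst_eq (n : ℕ) : cst n = dd n * (((n : ℝ) + 1) / ((n : ℝ) + 2)) ^ n := by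
  unfold cst dd
  have h1 : ((n : ℝ) + 1) ≠ 0 := by positivity
  have h2 : ((n : ℝ) + 2) ≠ 0 := by positivity
  rw [div_pow]
  field_simp
  ring

theorem cst_pos (n : ℕ) : 0 < cst n := by
  unfold cst
  positivity

theorem cst_rpow (n : ℕ) (hn : 1 ≤ n) :
    cst n ^ (1 / (n : ℝ)) = Real.exp (Real.log (dd n) / n) * (((n : ℝ) + 1) / ((n : ℝ) + 2)) := by
  have hn' : (n : ℝ) ≠ 0 := by
    have : (0 : ℝ) < n := by exact_mod_cast hn
    exact this.ne'
  have h0 : (0 : ℝ) ≤ ((n : ℝ) + 1) / ((n : ℝ) + 2) := by positivity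
  rw [cst_eq, Real.mul_rpow (dd_pos n).le (by positivity), ← Real.rpow_natCast, ← Real.rpow_mul h0,
    mul_one_div_cancel hn', Real.rpow_one, Real.rpow_def_of_pos (dd_pos n), mul_one_div]

/-- the constant of one block -/
noncomputable def fm (n m : ℕ) : ℝ :=
  cst m ^ (1 / (m : ℝ)) * (((m : ℝ) + 2) * ((n : ℝ) + 1) / (((m : ℝ) + 1) * ((n : ℝ) + 2)))

theorem fm_lt {n m : ℕ} (hm : 1 ≤ m) (hn : m < n) : fm n m < cst n ^ (1 / (n : ℝ)) := by
  obtain ⟨p, rfl⟩ : ∃ p, n = m + p := ⟨n - m, by omega⟩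
  have h := Real.exp_lt_exp.2 (avg_lt' m p hm (by omega))
  rw [fm, cst_rpow m hm, cst_rpow (m + p) (by omega)]
  have h1 : (0 : ℝ) < (((m + p : ℕ) : ℝ) + 1) / (((m + p : ℕ) : ℝ) + 2) := by positivity
  have h2 : Real.exp (Real.log (dd m) / m) * (((m : ℝ) + 1) / ((m : ℝ) + 2)) *
      (((m : ℝ) + 2) * (((m + p : ℕ) : ℝ) + 1) / (((m : ℝ) + 1) * (((m + p : ℕ) : ℝ) + 2))) =
      Real.exp (Real.log (dd m) / m) * ((((m + p : ℕ) : ℝ) + 1) / (((m + p : ℕ) : ℝ) + 2)) := by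
    have h3 : ((m : ℝ) + 1) ≠ 0 := by positivity
    have h4 : ((m : ℝ) + 2) ≠ 0 := by positivity
    have h5 : (((m + p : ℕ) : ℝ) + 2) ≠ 0 := by positivity
    field_simp
  rw [h2]
  exact mul_lt_mul_of_pos_right h h1

theorem fm_pos (n m : ℕ) : 0 < fm n m := by
  unfold fm
  have := Real.rpow_pos_of_pos (cst_pos m) (1 / (m : ℝ))
  positivity

/-- one constant for all blocks -/
theorem exists_D {n : ℕ} (hn : 2 ≤ n) :
    ∃ D : ℝ, 0 < D ∧ D < cst n ^ (1 / (n : ℝ)) ∧ ∀ m, 1 ≤ m → m < n → fm n m ≤ D := by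
  have hne : (Finset.Icc 1 (n - 1)).Nonempty := ⟨1, Finset.mem_Icc.2 ⟨le_rfl, by omega⟩⟩
  refine ⟨(Finset.Icc 1 (n - 1)).sup' hne (fm n), ?_, ?_, ?_⟩
  · exact lt_of_lt_of_le (fm_pos n 1)
      (Finset.le_sup' (fm n) (Finset.mem_Icc.2 ⟨le_rfl, by omega⟩))
  · rw [Finset.sup'_lt_iff]
    intro m hm
    rw [Finset.mem_Icc] at hm
    exact fm_lt hm.1 (by omega)
  · intro m h1 h2
    exact Finset.le_sup' (fm n) (Finset.mem_Icc.2 ⟨h1, by omega⟩)

/-- strictness from the form of `all_blocks` with a general constant -/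
theorem prod_lt_of {n : ℕ} {K : Set (Fin n → ℝ)} (hn : 1 ≤ n) {D : ℝ} (hD0 : 0 < D)
    (hD : D < cst n ^ (1 / (n : ℝ))) (hV : 0 < (volume K).toReal)
    {K' : Set (Fin n → ℝ)} (hv : (volume K').toReal = (volume K).toReal)
    (hp : ∏ i, (∫ x in K', |x i|) ≤ ((volume K').toReal / 4 ^ n) * (volume K').toReal ^ n)
    (h : ∀ i, (volume K).toReal * ∫ x in K, x i ^ 2 ≤ 16 * D * (∫ x in K', |x i|) ^ 2) :
    ∏ i, (∫ x in K, x i ^ 2) < cst n * (volume K).toReal ^ (n + 2) := by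
  set V := (volume K).toReal with hVd
  rw [hv] at hp
  have h1 : ∏ i : Fin n, (V * ∫ x in K, x i ^ 2) ≤ ∏ i : Fin n, (16 * D * (∫ x in K', |x i|) ^ 2) := by
    refine Finset.prod_le_prod (fun i _ => ?_) (fun i _ => h i)
    exact mul_nonneg hV.le (integral_nonneg fun x => sq_nonneg _)
  rw [Finset.prod_mul_distrib, Finset.prod_mul_distrib, Finset.prod_const, Finset.prod_const,
    Finset.prod_pow, Finset.card_univ, Fintype.card_fin] at h1
  have h0 : 0 ≤ ∏ i : Fin n, (∫ x in K', |x i|) :=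
    Finset.prod_nonneg fun i _ => integral_nonneg fun x => abs_nonneg _
  have h2 : (∏ i : Fin n, (∫ x in K', |x i|)) ^ 2 ≤ ((V / 4 ^ n) * V ^ n) ^ 2 :=
    pow_le_pow_left₀ h0 hp 2
  have h3 : (16 * D) ^ n * ((V / 4 ^ n) * V ^ n) ^ 2 = D ^ n * V ^ (n + 2) * V ^ n := by
    have h4 : (16 : ℝ) ^ n = (4 ^ n) ^ 2 := by
      rw [← pow_mul, mul_comm n 2, pow_mul]; norm_num
    rw [mul_pow, h4]
    field_simp
    ring
  have h5 : V ^ n * ∏ i : Fin n, (∫ x in K, x i ^ 2) ≤ D ^ n * V ^ (n + 2) * V ^ n := by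
    refine h1.trans ?_
    rw [← h3]
    exact mul_le_mul_of_nonneg_left h2 (by positivity)
  have hVn : 0 < V ^ n := pow_pos hV n
  have h6 : ∏ i : Fin n, (∫ x in K, x i ^ 2) ≤ D ^ n * V ^ (n + 2) := by
    rw [mul_comm] at h5
    exact le_of_mul_le_mul_right h5 hVn
  refine lt_of_le_of_lt h6 ?_
  have h7 : D ^ n < cst n := by
    have h8 := pow_lt_pow_left₀ hD hD0.le (by omega : n ≠ 0)
    rwa [one_div, Real.rpow_inv_natCast_pow (cst_pos n).le (by omega)] at h8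
  exact mul_lt_mul_of_pos_right h7 (pow_pos hV _)

open Classical in
theorem card_lt {n : ℕ} {β : Type} {lab : Fin n → β} (h2 : ∃ i j, lab i ≠ lab j) (b : β) :
    (Finset.univ.filter fun i => lab i = b).card < n := by
  obtain ⟨i, j, hij⟩ := h2
  have h : (Finset.univ.filter fun i => lab i = b) ⊂ (Finset.univ : Finset (Fin n)) := by
    rw [Finset.ssubset_univ_iff]
    intro he
    have h1 : i ∈ (Finset.univ.filter fun i => lab i = b) := by rw [he]; exact Finset.mem_univ i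
    have h2 : j ∈ (Finset.univ.filter fun i => lab i = b) := by rw [he]; exact Finset.mem_univ j
    rw [Finset.mem_filter] at h1 h2
    exact hij (h1.2.trans h2.2.symm)
  have := Finset.card_lt_card h
  simpa using this

open Classical in
/-- the form of `all_blocks_D` -/
def AllBlocksD : Prop :=
  ∀ {n : ℕ} {β : Type} (_ : ∀ m, 1 ≤ m → IrrBd m) {a : Fin n → Fin n → ℝ}
    {lab : Fin n → β} (_ : Blk a lab) {K : Set (Fin n → ℝ)} (_ : Convex ℝ K)
    (_ : IsCompact K) (_ : RInv a K) {D : ℝ}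
    (_ : ∀ m, 1 ≤ m → (∃ b, (Finset.univ.filter fun i => lab i = b).card = m) →
      cst m ^ (1 / (m : ℝ)) * (((m : ℝ) + 2) * ((n : ℝ) + 1) / (((m : ℝ) + 1) * ((n : ℝ) + 2))) ≤ D),
    ∃ K' : Set (Fin n → ℝ), Convex ℝ K' ∧ IsCompact K' ∧
      (volume K').toReal = (volume K).toReal ∧ Unc.Uncond K' ∧
      ∀ i, (volume K).toReal * ∫ x in K, x i ^ 2 ≤ 16 * D * (∫ x in K', |x i|) ^ 2

/-- the form of `unc_abs` -/
def UncAbs : Prop :=
  ∀ {n : ℕ} (_ : 1 ≤ n) (_ : Unc.UNCR n) {K : Set (Fin n → ℝ)} (_ : Convex ℝ K)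
    (_ : IsCompact K) (_ : Unc.Uncond K),
    ∏ i, (∫ x in K, |x i|) ≤ ((volume K).toReal / 4 ^ n) * (volume K).toReal ^ n

/-- [E2] strictness for at least two blocks -/
theorem prod_lt (hC2 : AllBlocksD) (hC3 : UncAbs) {n : ℕ} {β : Type} (hU : Unc.UNCR n)
    (hI : ∀ m, 1 ≤ m → IrrBd m) {a : Fin n → Fin n → ℝ} {lab : Fin n → β} (hB : Blk a lab)
    {K : Set (Fin n → ℝ)} (hc : Convex ℝ K) (hK : IsCompact K) (hV : 0 < (volume K).toReal)
    (hR : RInv a K) (h2 : ∃ i j, lab i ≠ lab j) :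
    ∏ i, (∫ x in K, x i ^ 2) < cst n * (volume K).toReal ^ (n + 2) := by
  classical
  have hn : 2 ≤ n := by
    obtain ⟨i, j, hij⟩ := h2
    have hne : i ≠ j := fun h => hij (by rw [h])
    have h1 := i.2
    have h2 := j.2
    have h3 : (i : ℕ) ≠ j := fun h => hne (Fin.ext h)
    omega
  obtain ⟨D, hD0, hD1, hD2⟩ := exists_D hn
  obtain ⟨K', hc', hK', hv, hu, h⟩ := hC2 hI hB hc hK hR (D := D) (by
    rintro m hm ⟨b, hb⟩
    exact hD2 m hm (by rw [← hb]; convert card_lt h2 b))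
  exact prod_lt_of (by omega) hD0 hD1 hV hv (hC3 (by omega) hU hc' hK' hu) h

end Vale.Agent.P254.Refl.E2
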