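import Vale.Agent.P254.Refl.EqOrth
import Vale.Agent.P254.Refl.E2
import Vale.Agent.P254.Refl.C2h700
import Vale.Agent.P254.Refl.B2h898
import Vale.Agent.P254.Refl.C1H545
import Vale.Agent.P254.Refl.C6_120
import Vale.Agent.P254.Refl.C8
import Vale.Agent.P254.Refl.C3h895
import Vale.Agent.P254.Bdl.B2
import Vale.Agent.P254.Bdl.B4
import Vale.Agent.P254.Bdl.B5
import Vale.Agent.P254.Bdl.B7
import Vale.Agent.P254.Bdl.B10
import Vale.Agent.P254.Bdl.B13
import Vale.Agent.P254.Bdl.B17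
import Vale.Agent.P254.Bdl.B20

/-!
P254/Refl: the conjecture, with the case of equality, for the convex bodies with `n` hyperplane
symmetries with linearly independent directions.
-/

open MeasureTheory Set Matrix

namespace Vale.Agent.P254.Refl

theorem allBlocksD : E2.AllBlocksD := by
  intro n β hI a lab hB K hc hK hR D hD
  classical
  refine C2h700.all_blocks_D' (fun hm e _ hc hK hf _ hD => B2h.sym_step_D hm e hc hK hD hf)
    (fun hI _ _ hB b e h1 h2 _ hc hK hR z i => C1H.fib_bd hI hB b e h1 h2 hc hK hR z i)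
    hI hB hc hK hR (D := D) fun m hm hb => hD m hm (by
      obtain ⟨b, hb⟩ := hb
      refine ⟨b, ?_⟩
      rw [← hb])

/-- The conjecture in adapted coordinates. -/
theorem good_blk (hC3 : E2.UncAbs) {n : ℕ} (hn : 1 ≤ n) (hU : Unc.UNCR n) {β : Type}
    {a : Fin n → Fin n → ℝ} {lab : Fin n → β} (hB : Blk a lab) {K : Set (Fin n → ℝ)}
    (hK : IsConvexBody K) (hR : RInv a K) : FV.Good K := by
  have hI : ∀ m, 1 ≤ m → IrrBd m := fun m hm => (H171.both m hm).1
  have hV := H637.vol_pos hK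
  have hlt : (∃ i j, lab i ≠ lab j) →
      ∏ i, (∫ x in K, x i ^ 2) < cst n * (volume K).toReal ^ (n + 2) :=
    E2.prod_lt allBlocksD hC3 hU hI hB hK.1 hK.2.1 hV hR
  obtain ⟨h0, h1, h2⟩ := A2.blk_mom hB hK.2.1 hR
  have hle : (covMatrix K).det ≤ cst n * (volume K).toReal ^ 2 := by
    by_cases hl : ∃ i j, lab i ≠ lab j
    · exact (H637.det_blk_lt_of hK h0 h1 (hlt hl)).le
    · have hl' : ∀ i j, lab i = lab j := fun i j => by
        by_contra h
        exact hl ⟨i, j, h⟩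
      set i₁ : Fin n := ⟨0, hn⟩ with hi₁
      refine H637.det_blk_of hK h0 h1 ?_
      rw [Finset.prod_congr rfl fun i _ => h2 i i₁ (hl' i i₁), Finset.prod_const,
        Finset.card_univ, Fintype.card_fin]
      exact hI n hn a K hB.li (fun i j => hB.conn i j (hl' i j)) hK.1 hK.2.1 hR i₁
  refine ⟨hn, hK, ?_, fun h => ?_⟩
  · rw [FV.Dn, div_le_iff₀ (by positivity), ← cst_eq_simpC]
    exact hle
  · rw [FV.Dn, div_eq_iff (by positivity), ← cst_eq_simpC] at h
    exact eq_blk_of hn hB hK hR hlt h.ge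

theorem good_orth (hC3 : E2.UncAbs) {n : ℕ} (hn : 1 ≤ n) (hU : Unc.UNCR n)
    {a : Fin n → Fin n → ℝ} (ha : LinearIndependent ℝ a) {K : Set (Fin n → ℝ)}
    (hK : IsConvexBody K) (hR : RInv a K) : FV.Good K := by
  obtain ⟨O, β, lab, h1, h2, hB⟩ := H120.exists_blk ha
  have hd := C7.det_sq h1
  have hd0 : O.det ≠ 0 := by
    intro h
    rw [h] at hd
    norm_num at hd
  have e : ∀ y, aff O 0 y = O *ᵥ y := fun y => by simp [aff]
  have hK' : IsConvexBody (aff O 0 '' K) := C7.body_aff hd0 0 hK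
  have hR' : RInv (fun i => O *ᵥ a i) (aff O 0 '' K) := by
    rintro i _ ⟨x, hx, rfl⟩
    refine ⟨rf (a i) x, hR i x hx, ?_⟩
    rw [e, e, C7.rf_orth h2]
  have hG := (good_blk hC3 hn hU hB hK' hR').aff (A := Oᵀ) (by rwa [det_transpose]) 0
  have e2 : aff Oᵀ 0 '' (aff O 0 '' K) = K := by
    rw [← image_comp]
    have e3 : aff Oᵀ 0 ∘ aff O 0 = id := by
      funext x
      simp [aff, mulVec_mulVec, h2]
    rw [e3, image_id]
  rwa [e2] at hG

/-- The conjecture for the bodies with `n` affine hyperplane symmetries whose directions are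
linearly independent. -/
theorem good_refl_of (hC3 : E2.UncAbs) {n : ℕ} (hn : 1 ≤ n) (hU : Unc.UNCR n)
    {K : Set (Fin n → ℝ)} (hK : IsConvexBody K)
    {a w : Fin n → Fin n → ℝ} {c : Fin n → ℝ} (ha : LinearIndependent ℝ a)
    (hw : ∀ i, w i ⬝ᵥ a i = 2) (hR : ∀ i, ∀ x ∈ K, x - (w i ⬝ᵥ x - c i) • a i ∈ K) :
    FV.Good K := by
  obtain ⟨A, b, a', hA, ha', hR'⟩ := exists_pos hK ha hw hR
  have hK' : IsConvexBody (aff A b '' K) := isConvexBody_aff_image hA b hK
  have hG := good_orth hC3 hn hU ha' hK' hR'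
  have hu : IsUnit A.det := isUnit_iff_ne_zero.mpr hA
  have hA' : (A⁻¹).det ≠ 0 := by
    rw [det_nonsing_inv, Ring.inverse_eq_inv']
    exact inv_ne_zero hA
  have hG2 := hG.aff hA' (-(A⁻¹ *ᵥ b))
  have e2 : aff A⁻¹ (-(A⁻¹ *ᵥ b)) '' (aff A b '' K) = K := by
    rw [← image_comp]
    have e3 : aff A⁻¹ (-(A⁻¹ *ᵥ b)) ∘ aff A b = id := by
      funext x
      simp [aff, mulVec_add, mulVec_mulVec, nonsing_inv_mul _ hu]
    rw [e3, image_id]
  rwa [e2] at hG2

theorem good_refl {n : ℕ} (hn : 1 ≤ n) {K : Set (Fin n → ℝ)} (hK : IsConvexBody K)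
    {a w : Fin n → Fin n → ℝ} {c : Fin n → ℝ} (ha : LinearIndependent ℝ a)
    (hw : ∀ i, w i ⬝ᵥ a i = 2) (hR : ∀ i, ∀ x ∈ K, x - (w i ⬝ᵥ x - c i) • a i ∈ K) :
    FV.Good K :=
  good_refl_of (fun h1 h2 _ h3 h4 h5 => H895.unc_abs h1 h2 h3 h4 h5) hn (Unc.uncr_all n) hK ha hw hR

/-- The strong isotropic constant conjecture, with its case of equality, for the bodies with `n`
affine hyperplane symmetries whose directions are linearly independent. -/
theorem top {n : ℕ} (hn : 1 ≤ n) {K S : Set (Fin n → ℝ)} (hK : IsConvexBody K)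
    (hS : IsSimplex S) {a w : Fin n → Fin n → ℝ} {c : Fin n → ℝ} (ha : LinearIndependent ℝ a)
    (hw : ∀ i, w i ⬝ᵥ a i = 2) (hR : ∀ i, ∀ x ∈ K, x - (w i ⬝ᵥ x - c i) • a i ∈ K) :
    isoConst K ≤ isoConst S ∧ (isoConst K = isoConst S ↔ IsSimplex K) :=
  (good_refl hn hK ha hw hR).iso hS

end Vale.Agent.P254.Refl
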