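import Vale.Agent.P254.Refl.Defs
import Mathlib.Analysis.InnerProductSpace.PiL2

/-!
P254/Refl, leaf A1: an orthogonal change of coordinates which kills the first coordinates of
`m` vectors in dimension `m + 1`.
-/

open MeasureTheory Set Matrix

namespace Vale.Agent.P254.Refl

/-- [A1] -/
theorem exists_orth (m : ℕ) (a : Fin m → Fin (m + 1) → ℝ) :
    ∃ O : Matrix (Fin (m + 1)) (Fin (m + 1)) ℝ, O * Oᵀ = 1 ∧ Oᵀ * O = 1 ∧
      ∀ j, (O *ᵥ a j) 0 = 0 := by
  let E := EuclideanSpace ℝ (Fin (m + 1))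
  let A : Fin m → E := fun j => WithLp.toLp 2 (a j)
  have hfr : Module.finrank ℝ E = m + 1 := by simp [E]
  have hlt : Module.finrank ℝ (Submodule.span ℝ (Set.range A)) < Module.finrank ℝ E := by
    rw [hfr]
    have := finrank_range_le_card (R := ℝ) A
    rw [Set.finrank] at this
    simp at this
    omega
  obtain ⟨w, hw, hw1⟩ : ∃ w : E, (∀ j, inner ℝ (A j) w = 0) ∧ ‖w‖ = 1 := by
    have hne : (Submodule.span ℝ (Set.range A))ᗮ ≠ ⊥ := by
      intro h
      rw [Submodule.orthogonal_eq_bot_iff] at h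
      rw [h, finrank_top] at hlt
      exact lt_irrefl _ hlt
    obtain ⟨v, hv, hv0⟩ := Submodule.exists_mem_ne_zero_of_ne_bot hne
    have hn : ‖v‖ ≠ 0 := norm_ne_zero_iff.2 hv0
    refine ⟨(‖v‖⁻¹ : ℝ) • v, ?_, ?_⟩
    · intro j
      rw [inner_smul_right, (Submodule.mem_orthogonal _ v).1 hv (A j)
        (Submodule.subset_span ⟨j, rfl⟩), mul_zero]
    · rw [norm_smul, norm_inv, norm_norm, inv_mul_cancel₀ hn]
  have hon : Orthonormal ℝ (({0} : Set (Fin (m + 1))).domRestrict (fun _ => w)) := by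
    constructor
    · intro i
      exact hw1
    · rintro ⟨i, hi⟩ ⟨j, hj⟩ hij
      exact absurd (Subtype.ext ((mem_singleton_iff.1 hi).trans (mem_singleton_iff.1 hj).symm)) hij
  obtain ⟨b, hb⟩ := hon.exists_orthonormalBasis_extension_of_card_eq (by simp [E])
  have hb0 : b 0 = w := hb 0 rfl
  have hin : ∀ x y : E, inner ℝ x y = ∑ k, x k * y k := by
    intro x y
    rw [PiLp.inner_apply]
    refine Finset.sum_congr rfl fun k _ => ?_
    simp [mul_comm]
  have h1 : (Matrix.of fun i k => b i k : Matrix (Fin (m + 1)) (Fin (m + 1)) ℝ) *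
      (Matrix.of fun i k => b i k)ᵀ = 1 := by
    ext i k
    rw [Matrix.mul_apply, Matrix.one_apply]
    simp only [Matrix.transpose_apply, Matrix.of_apply]
    rw [← hin (b i) (b k), b.inner_eq_ite]
  refine ⟨Matrix.of fun i k => b i k, h1, mul_eq_one_comm.1 h1, ?_⟩
  intro j
  have h2 := hw j
  rw [← hb0, hin] at h2
  rw [Matrix.mulVec, dotProduct]
  simp only [Matrix.of_apply]
  rw [← h2]
  refine Finset.sum_congr rfl fun k _ => ?_
  simp [A, mul_comm]

end Vale.Agent.P254.Refl
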