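import Vale.Agent.P254.Refl.Defs

/-!
P254/Refl, leaf A2a (third hedge): moments under one reflection.
-/

open MeasureTheory Set Matrix

namespace Vale.Agent.P254.Refl.A2a165

/-- The reflection as a linear map. -/
noncomputable def lin {ι : Type} [Fintype ι] (a : ι → ℝ) : (ι → ℝ) →ₗ[ℝ] (ι → ℝ) where
  toFun := rf a
  map_add' x y := by
    unfold rf
    rw [dotProduct_add, mul_add, add_div, add_smul]
    abel
  map_smul' c x := by
    unfold rf
    rw [dotProduct_smul, smul_eq_mul, RingHom.id_apply, smul_sub, smul_smul]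
    congr 2
    ring

theorem rf_rf {ι : Type} [Fintype ι] {a : ι → ℝ} (ha : a ≠ 0) (x : ι → ℝ) :
    rf a (rf a x) = x := by
  have h : a ⬝ᵥ a ≠ 0 := fun h => ha (dotProduct_self_eq_zero.mp h)
  unfold rf
  rw [dotProduct_sub, dotProduct_smul, smul_eq_mul]
  have e : 2 * (a ⬝ᵥ x - 2 * (a ⬝ᵥ x) / (a ⬝ᵥ a) * (a ⬝ᵥ a)) / (a ⬝ᵥ a) =
      -(2 * (a ⬝ᵥ x) / (a ⬝ᵥ a)) := by
    field_simp
    ring
  rw [e, neg_smul, sub_neg_eq_add, sub_add_cancel]

theorem dot_rf {ι : Type} [Fintype ι] (a v x : ι → ℝ) :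
    v ⬝ᵥ rf a x = v ⬝ᵥ x - 2 * (a ⬝ᵥ x) / (a ⬝ᵥ a) * (v ⬝ᵥ a) := by
  unfold rf
  rw [dotProduct_sub, dotProduct_smul, smul_eq_mul]

theorem int_rf {ι : Type} [Fintype ι] {a : ι → ℝ} (ha : a ≠ 0) {K : Set (ι → ℝ)}
    (h : ∀ x ∈ K, rf a x ∈ K) (f : (ι → ℝ) → ℝ) :
    ∫ x in K, f (rf a x) = ∫ x in K, f x := by
  classical
  have hinv : Function.Involutive (rf a) := rf_rf ha
  have hdet : |LinearMap.det (lin a)| = 1 := by
    have h1 : (lin a) ∘ₗ (lin a) = LinearMap.id := by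
      ext x
      exact congrFun (rf_rf ha _) _
    have h2 := congrArg LinearMap.det h1
    rw [LinearMap.det_comp, LinearMap.det_id] at h2
    have h3 : |LinearMap.det (lin a)| * |LinearMap.det (lin a)| = 1 := by
      rw [← abs_mul, h2, abs_one]
    nlinarith [abs_nonneg (LinearMap.det (lin a))]
  have hne : LinearMap.det (lin a) ≠ 0 := by
    intro h0
    rw [h0, abs_zero] at hdet
    exact zero_ne_one hdet
  have hmp : MeasurePreserving (rf a) (volume : Measure (ι → ℝ)) volume := by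
    refine ⟨?_, ?_⟩
    · have : Continuous (lin a) := LinearMap.continuous_of_finiteDimensional _
      exact this.measurable
    · have h4 := Real.map_linearMap_volume_pi_eq_smul_volume_pi hne
      rw [abs_inv, hdet, inv_one, ENNReal.ofReal_one, one_smul] at h4
      exact h4
  have hemb : MeasurableEmbedding (rf a) :=
    (MeasurableEquiv.ofInvolutive (rf a) hinv hmp.measurable).measurableEmbedding
  have hpre : rf a ⁻¹' K = K := by
    ext x
    constructor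
    · intro hx
      have h5 := h _ hx
      rwa [rf_rf ha] at h5
    · exact h x
  have h6 := hmp.setIntegral_preimage_emb hemb f K
  rw [hpre] at h6
  exact h6

/-- [A2a] invariance of the moments under one reflection -/
theorem mom_rf {ι : Type} [Fintype ι] {a : ι → ℝ} (ha : a ≠ 0) {K : Set (ι → ℝ)}
    (hK : IsCompact K) (h : ∀ x ∈ K, rf a x ∈ K) :
    (∫ x in K, a ⬝ᵥ x) = 0 ∧ ∃ l : ℝ, ∀ v : ι → ℝ,
      ∫ x in K, (a ⬝ᵥ x) * (v ⬝ᵥ x) = l * (a ⬝ᵥ v) := by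
  have haa : a ⬝ᵥ a ≠ 0 := fun h => ha (dotProduct_self_eq_zero.mp h)
  have hcont : ∀ u : ι → ℝ, Continuous fun x : ι → ℝ => u ⬝ᵥ x := by
    intro u
    unfold dotProduct
    fun_prop
  have hint2 : ∀ u v : ι → ℝ, IntegrableOn (fun x => (u ⬝ᵥ x) * (v ⬝ᵥ x)) K := fun u v =>
    ((hcont u).mul (hcont v)).continuousOn.integrableOn_compact hK
  have hneg : ∀ x : ι → ℝ, a ⬝ᵥ rf a x = -(a ⬝ᵥ x) := by
    intro x
    rw [dot_rf]
    field_simp
    ring
  refine ⟨?_, (∫ x in K, (a ⬝ᵥ x) * (a ⬝ᵥ x)) / (a ⬝ᵥ a), fun v => ?_⟩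
  · have h1 := int_rf ha h fun x => a ⬝ᵥ x
    simp only [hneg] at h1
    rw [integral_neg] at h1
    linarith
  · have h1 := int_rf ha h fun x => (a ⬝ᵥ x) * (v ⬝ᵥ x)
    have h2 : ∀ x : ι → ℝ, (a ⬝ᵥ rf a x) * (v ⬝ᵥ rf a x) =
        (2 * (v ⬝ᵥ a) / (a ⬝ᵥ a)) * ((a ⬝ᵥ x) * (a ⬝ᵥ x)) - (a ⬝ᵥ x) * (v ⬝ᵥ x) := by
      intro x
      rw [hneg, dot_rf]
      field_simp
      ring
    simp only [h2] at h1
    rw [integral_sub ((hint2 a a).const_mul _) (hint2 a v), integral_const_mul] at h1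
    rw [dotProduct_comm a v]
    have h3 : (∫ x in K, (a ⬝ᵥ x) * (v ⬝ᵥ x)) =
        (v ⬝ᵥ a) / (a ⬝ᵥ a) * ∫ x in K, (a ⬝ᵥ x) * (a ⬝ᵥ x) := by
      have h4 : 2 * (v ⬝ᵥ a) / (a ⬝ᵥ a) = 2 * ((v ⬝ᵥ a) / (a ⬝ᵥ a)) := by ring
      rw [h4] at h1
      linarith
    rw [h3]
    ring

end Vale.Agent.P254.Refl.A2a165
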