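import Vale.Agent.P254.Refl.Defs
import Vale.Agent.P254.Refl.A2a165

/-!
P254/Refl, leaf A2: the second moments of a body with reflections, in adapted coordinates.
-/

open MeasureTheory Set Matrix

namespace Vale.Agent.P254.Refl.A2

/-- [A2] the second moments are diagonal, and constant on the blocks -/
theorem blk_mom_of {n : ℕ}
    (hM : ∀ {a : Fin n → ℝ}, a ≠ 0 → ∀ {K : Set (Fin n → ℝ)}, IsCompact K →
      (∀ x ∈ K, rf a x ∈ K) → (∫ x in K, a ⬝ᵥ x) = 0 ∧ ∃ l : ℝ, ∀ v : Fin n → ℝ,
        ∫ x in K, (a ⬝ᵥ x) * (v ⬝ᵥ x) = l * (a ⬝ᵥ v))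
    {β : Type} {a : Fin n → Fin n → ℝ} {lab : Fin n → β} (hB : Blk a lab)
    {K : Set (Fin n → ℝ)} (hK : IsCompact K) (hR : RInv a K) :
    (∀ i, ∫ x in K, x i = 0) ∧ (∀ i j, i ≠ j → ∫ x in K, x i * x j = 0) ∧
      ∀ i j, lab i = lab j → ∫ x in K, x i ^ 2 = ∫ x in K, x j ^ 2 := by
  classical
  have hcont : ∀ u : Fin n → ℝ, Continuous fun x : Fin n → ℝ => u ⬝ᵥ x := by
    intro u
    unfold dotProduct
    fun_prop
  have hint1 : ∀ u : Fin n → ℝ, IntegrableOn (fun x => u ⬝ᵥ x) K := fun u =>
    (hcont u).continuousOn.integrableOn_compact hK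
  have hint2 : ∀ u v : Fin n → ℝ, IntegrableOn (fun x => (u ⬝ᵥ x) * (v ⬝ᵥ x)) K := fun u v =>
    ((hcont u).mul (hcont v)).continuousOn.integrableOn_compact hK
  have hne : ∀ i, a i ≠ 0 := fun i => hB.li.ne_zero i
  have h1 : ∀ i, (∫ x in K, a i ⬝ᵥ x) = 0 := fun i => (hM (hne i) hK (hR i)).1
  choose l hl using fun i => (hM (hne i) hK (hR i)).2
  have hspan : Submodule.span ℝ (Set.range a) = ⊤ :=
    hB.li.span_eq_top_of_card_eq_finrank' (by simp)
  -- equality of the constants along an edge
  have hedge : ∀ i j, a i ⬝ᵥ a j ≠ 0 → l i = l j := by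
    intro i j hij
    have e1 := hl i (a j)
    have e2 := hl j (a i)
    have e3 : ∫ x in K, (a i ⬝ᵥ x) * (a j ⬝ᵥ x) = ∫ x in K, (a j ⬝ᵥ x) * (a i ⬝ᵥ x) :=
      integral_congr_ae (Filter.Eventually.of_forall fun x => mul_comm _ _)
    rw [e1, e2, dotProduct_comm (a j) (a i)] at e3
    exact mul_right_cancel₀ hij e3
  have hlk : ∀ i j, Lk a i j → l i = l j := by
    intro i j h
    induction h with
    | refl => rfl
    | tail _ h2 ih => exact ih.trans (hedge _ _ h2)
  have hlab : ∀ i j, lab i = lab j → l i = l j := fun i j h => hlk i j (hB.conn i j h)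
  -- first moments
  have hfirst : ∀ u : Fin n → ℝ, (∫ x in K, u ⬝ᵥ x) = 0 := by
    intro u
    have hu : u ∈ Submodule.span ℝ (Set.range a) := by rw [hspan]; trivial
    induction hu using Submodule.span_induction with
    | mem y hy => obtain ⟨i, rfl⟩ := hy; exact h1 i
    | zero => simp
    | add y z _ _ hy hz =>
      simp only [add_dotProduct]
      rw [integral_add (hint1 y) (hint1 z), hy, hz, add_zero]
    | smul c y _ hy =>
      simp only [smul_dotProduct, smul_eq_mul]
      rw [integral_const_mul, hy, mul_zero]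
  have hsecond : ∀ u v : Fin n → ℝ,
      (∫ x in K, (u ⬝ᵥ x) * (v ⬝ᵥ x)) = ∑ i, l i * (u i * v i) := by
    intro u v
    have hu : u ∈ Submodule.span ℝ (Set.range a) := by rw [hspan]; trivial
    induction hu using Submodule.span_induction with
    | mem y hy =>
      obtain ⟨j, rfl⟩ := hy
      rw [hl j v, dotProduct, Finset.mul_sum]
      refine Finset.sum_congr rfl fun i _ => ?_
      by_cases h : lab i = lab j
      · rw [hlab i j h]
      · rw [hB.zero i j h]; ring
    | zero => simp
    | add y z _ _ hy hz =>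
      simp only [add_dotProduct, add_mul]
      rw [integral_add (hint2 y v) (hint2 z v), hy, hz, ← Finset.sum_add_distrib]
      refine Finset.sum_congr rfl fun i _ => ?_
      simp only [Pi.add_apply]
      ring
    | smul c y _ hy =>
      simp only [smul_dotProduct, smul_eq_mul, mul_assoc]
      rw [integral_const_mul, hy, Finset.mul_sum]
      refine Finset.sum_congr rfl fun i _ => ?_
      simp only [Pi.smul_apply, smul_eq_mul]
      ring
  have hco : ∀ i j, (∫ x in K, x i * x j) = if i = j then l i else 0 := by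
    intro i j
    have h := hsecond (Pi.single i 1) (Pi.single j 1)
    simp only [single_dotProduct, one_mul] at h
    rw [h]
    by_cases hij : i = j
    · subst hij
      rw [Finset.sum_eq_single i]
      · simp
      · intro b _ hb
        simp [Pi.single_eq_of_ne hb]
      · intro hb
        exact absurd (Finset.mem_univ i) hb
    · rw [if_neg hij]
      refine Finset.sum_eq_zero fun b _ => ?_
      by_cases hb : b = i
      · subst hb
        simp [Pi.single_eq_of_ne hij]
      · simp [Pi.single_eq_of_ne hb]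
  refine ⟨fun i => ?_, fun i j hij => ?_, fun i j hij => ?_⟩
  · have h := hfirst (Pi.single i 1)
    simpa only [single_dotProduct, one_mul] using h
  · rw [hco i j, if_neg hij]
  · have e : ∀ k : Fin n, (∫ x in K, x k ^ 2) = l k := by
      intro k
      have h := hco k k
      rw [if_pos rfl] at h
      rw [← h]
      exact integral_congr_ae (Filter.Eventually.of_forall fun x => pow_two _)
    rw [e i, e j, hlab i j hij]

/-- [A2] the second moments are diagonal, and constant on the blocks -/
theorem blk_mom {n : ℕ} {β : Type} {a : Fin n → Fin n → ℝ} {lab : Fin n → β} (hB : Blk a lab)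
    {K : Set (Fin n → ℝ)} (hK : IsCompact K) (hR : RInv a K) :
    (∀ i, ∫ x in K, x i = 0) ∧ (∀ i j, i ≠ j → ∫ x in K, x i * x j = 0) ∧
      ∀ i j, lab i = lab j → ∫ x in K, x i ^ 2 = ∫ x in K, x j ^ 2 :=
  blk_mom_of (fun ha _ hK h => A2a165.mom_rf ha hK h) hB hK hR

end Vale.Agent.P254.Refl.A2
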