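import Vale.Agent.P254.Refl.Defs
import Mathlib.Combinatorics.SimpleGraph.Acyclic

/-!
P254/Refl, leaf A3: a connected system of vectors has a vector whose deletion leaves a connected
system.
-/

open Matrix

namespace Vale.Agent.P254.Refl

namespace A3w568

/-- the graph of pairwise nonorthogonal different vectors -/
def gr {ι κ : Type} [Fintype ι] (a : κ → ι → ℝ) : SimpleGraph κ where
  Adj i j := i ≠ j ∧ a i ⬝ᵥ a j ≠ 0
  symm := ⟨fun i j h => ⟨h.1.symm, by rw [dotProduct_comm]; exact h.2⟩⟩
  loopless := ⟨fun i h => h.1 rfl⟩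

theorem reach_of_lk {ι κ : Type} [Fintype ι] {a : κ → ι → ℝ} {i j : κ} (h : Lk a i j) :
    (gr a).Reachable i j := by
  induction h with
  | refl => exact SimpleGraph.Reachable.refl _
  | @tail b c _ hbc ih =>
    by_cases hbc' : b = c
    · rw [← hbc']; exact ih
    · exact ih.trans (SimpleGraph.Adj.reachable (G := gr a) ⟨hbc', hbc⟩)

end A3w568

/-- [A3] deletion of a vertex which is not a cut vertex -/
theorem exists_noncut {ι : Type} [Fintype ι] {m : ℕ} (hm : 1 ≤ m) {a : Fin (m + 1) → ι → ℝ}
    (hC : ∀ i j, Lk a i j) :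
    ∃ i₀ : Fin (m + 1), ∀ i j, Lk (fun j : Fin m => a (i₀.succAbove j)) i j := by
  classical
  have hconn : (A3w568.gr a).Connected := by
    have : Nonempty (Fin (m + 1)) := ⟨0⟩
    exact ⟨fun i j => A3w568.reach_of_lk (hC i j)⟩
  obtain ⟨v, hv⟩ := hconn.exists_preconnected_induce_compl_singleton_of_finite
  refine ⟨v, ?_⟩
  -- walks in the induced graph give links
  have key : ∀ (x y : ({v}ᶜ : Set (Fin (m + 1)))), ((A3w568.gr a).induce {v}ᶜ).Walk x y →
      ∀ i j : Fin m, v.succAbove i = x.1 → v.succAbove j = y.1 →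
        Lk (fun j : Fin m => a (v.succAbove j)) i j := by
    intro x y w
    induction w with
    | nil =>
      intro i j hi hj
      have : i = j := Fin.succAbove_right_injective (hi.trans hj.symm)
      rw [this]
      exact Relation.ReflTransGen.refl
    | @cons x z y hxz _ ih =>
      intro i j hi hj
      obtain ⟨l, hl⟩ := Fin.exists_succAbove_eq (show z.1 ≠ v from z.2)
      refine Relation.ReflTransGen.head ?_ (ih l j hl hj)
      have h2 : a x.1 ⬝ᵥ a z.1 ≠ 0 := by
        have := hxz
        simp only [SimpleGraph.comap_adj] at this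
        exact this.2
      show a (v.succAbove i) ⬝ᵥ a (v.succAbove l) ≠ 0
      rw [hi, hl]
      exact h2
  intro i j
  obtain ⟨w⟩ := hv ⟨v.succAbove i, by simp [Fin.succAbove_ne]⟩ ⟨v.succAbove j, by simp [Fin.succAbove_ne]⟩
  exact key _ _ w i j rfl rfl

end Vale.Agent.P254.Refl
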