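import Vale.Agent.P254.Refl.Defs

/-! P254/Refl, leaf A5: the one-dimensional case `IrrBd 1`. -/

open MeasureTheory Set Matrix

namespace Vale.Agent.P254.Refl

private lemma interval_of_symm {K : Set ℝ} (hc : Convex ℝ K) (hK : IsCompact K)
    (hs : ∀ t ∈ K, -t ∈ K) (hne : K.Nonempty) : ∃ r : ℝ, 0 ≤ r ∧ K = Icc (-r) r := by
  obtain ⟨r, hr, hmax⟩ := hK.exists_isGreatest hne
  have h1 : ∀ t ∈ K, t ≤ r := fun t ht => hmax ht
  have h2 : -r ≤ r := h1 _ (hs r hr)
  refine ⟨r, by linarith, ?_⟩
  apply Subset.antisymm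
  · intro t ht
    have := h1 _ (hs t ht)
    exact ⟨by linarith, h1 t ht⟩
  · exact hc.ordConnected.out (hs r hr) hr

/-- [A5] -/
theorem irr_one : IrrBd 1 := by
  intro a K ha _ hc hK hR i
  have hi : i = 0 := Subsingleton.elim _ _
  subst hi
  have ha0 : a 0 0 ≠ 0 := by
    intro h0
    apply ha.ne_zero 0
    ext j
    rw [Subsingleton.elim j 0, h0]
    rfl
  have hs : ∀ t : ℝ, rf (a 0) (fun _ : Fin 1 => t) = fun _ => -t := by
    intro t
    ext j
    rw [Subsingleton.elim j 0]
    simp only [rf, dotProduct, Finset.univ_unique, Fin.default_eq_zero, Finset.sum_singleton,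
      Pi.sub_apply, Pi.smul_apply, smul_eq_mul, Fin.isValue]
    field_simp
    ring
  set e : (Fin 1 → ℝ) ≃ᵐ ℝ := MeasurableEquiv.funUnique (Fin 1) ℝ with he
  have hmp : MeasurePreserving e volume volume := volume_preserving_funUnique (Fin 1) ℝ
  have hea : ∀ x : Fin 1 → ℝ, e x = x 0 := fun x => rfl
  set K' : Set ℝ := {t : ℝ | (fun _ : Fin 1 => t) ∈ K} with hK'
  have hx : ∀ x : Fin 1 → ℝ, (fun _ : Fin 1 => x 0) = x := by
    intro x
    ext j
    rw [Subsingleton.elim j 0]
  have hpre : K = e ⁻¹' K' := by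
    ext x
    rw [mem_preimage, hea, hK', mem_ofPred_eq, hx]
  have hconv : Convex ℝ K' := by
    intro s hs' t ht a b ha hb hab
    have := hc hs' ht ha hb hab
    exact this
  have hcomp : IsCompact K' := by
    have : K' = (fun x : Fin 1 → ℝ => x 0) '' K := by
      ext t
      constructor
      · intro ht
        exact ⟨fun _ => t, ht, rfl⟩
      · rintro ⟨x, hx', rfl⟩
        rw [hK', mem_ofPred_eq, hx]
        exact hx'
    rw [this]
    exact hK.image (continuous_apply 0)
  have hsym : ∀ t ∈ K', -t ∈ K' := by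
    intro t ht
    have := hR 0 _ ht
    rw [hs] at this
    exact this
  have hint : ∫ x in K, x 0 ^ 2 = ∫ t in K', t ^ 2 := by
    rw [hpre]
    exact hmp.setIntegral_preimage_emb e.measurableEmbedding (fun t => t ^ 2) K'
  have hvol : volume K = volume K' := by
    rw [hpre]
    exact hmp.measure_preimage_emb e.measurableEmbedding K'
  rw [hint, hvol]
  have hg : cst 1 = 1 / 12 := by
    norm_num [cst]
  rw [hg, pow_one]
  rcases K'.eq_empty_or_nonempty with h0 | hne
  · rw [h0]
    simp
  · obtain ⟨r, hr, hrK⟩ := interval_of_symm hconv hcomp hsym hne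
    rw [hrK, Real.volume_Icc, integral_Icc_eq_integral_Ioc,
      ← intervalIntegral.integral_of_le (by linarith : -r ≤ r), integral_pow,
      ENNReal.toReal_ofReal (by linarith)]
    norm_num
    ring_nf
    rfl

end Vale.Agent.P254.Refl
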