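import Vale.Agent.P254.Refl.BerOne
import Vale.Agent.P254.Unc.Berwald

/-!
# Berwald's inequality for three consecutive powers of a concave function
-/

open MeasureTheory Set
open scoped ENNReal NNReal

namespace Vale.Agent.P254.Refl

/-- Layer cake for integer powers. -/
theorem H103.layer_pow {α : Type*} [MeasurableSpace α] {μ : Measure α} [IsFiniteMeasure μ] {f : α → ℝ}
    (hf : Measurable f) (h0 : ∀ᵐ x ∂μ, 0 ≤ f x) (k : ℕ) :
    ∫ x, f x ^ (k + 1) ∂μ = ((k:ℝ) + 1) * ∫ t in Ioi (0:ℝ), t ^ k * μ.real {x | t ≤ f x} := by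
  have h1 := lintegral_comp_eq_lintegral_meas_le_mul μ (f := f)
    (g := fun t => ((k:ℝ) + 1) * t ^ k) h0 hf.aemeasurable
    (fun t _ => Continuous.intervalIntegrable (by fun_prop) _ _)
    (by filter_upwards [ae_restrict_mem measurableSet_Ioi] with t ht
        have : (0:ℝ) < t := ht
        positivity)
  have h2 : ∀ y : ℝ, ∫ t in (0:ℝ)..y, ((k:ℝ) + 1) * t ^ k = y ^ (k + 1) := by
    intro y
    rw [intervalIntegral.integral_const_mul, integral_pow]
    simp only [zero_pow (Nat.succ_ne_zero k), sub_zero]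
    field_simp
  simp only [h2] at h1
  have hanti : Antitone fun t => μ.real {x | t ≤ f x} := by
    intro s t hst
    exact measureReal_mono (fun x hx => le_trans hst hx)
  rw [integral_eq_lintegral_of_nonneg_ae
      (by filter_upwards [h0] with x hx using pow_nonneg hx _)
      (hf.pow_const _).aestronglyMeasurable, h1, ← integral_const_mul,
    integral_eq_lintegral_of_nonneg_ae]
  · congr 1
    refine lintegral_congr fun t => ?_
    rw [show ((k:ℝ) + 1) * (t ^ k * μ.real {x | t ≤ f x}) =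
      μ.real {x | t ≤ f x} * (((k:ℝ) + 1) * t ^ k) by ring,
      ENNReal.ofReal_mul measureReal_nonneg, ofReal_measureReal]
  · filter_upwards [ae_restrict_mem measurableSet_Ioi] with t ht
    have : (0:ℝ) < t := ht
    have := measureReal_nonneg (μ := μ) (s := {x | t ≤ f x})
    positivity
  · exact (measurable_const.mul ((measurable_id.pow_const k).mul
      hanti.measurable)).aestronglyMeasurable

/-- Berwald's inequality for `h ^ m, h ^ (m+1), h ^ (m+2)`, `m ≥ 1`, `h` concave. -/
theorem H103.berwald_gen0 {d m : ℕ} (hm : 1 ≤ m) {P : Set (Fin d → ℝ)} (hP : Convex ℝ P)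
    (hc : IsCompact P) {h : (Fin d → ℝ) → ℝ} (hconc : ConcaveOn ℝ P h) (h0 : ∀ x ∈ P, 0 ≤ h x)
    (hmeas : Measurable h) {M : ℝ} (hb : ∀ x ∈ P, h x ≤ M) :
    (∫ x in P, h x ^ (m + 2)) * (∫ x in P, h x ^ m) ≤
      (((m:ℝ) + 2) * (d + m + 1) / (((m:ℝ) + 1) * (d + m + 2))) *
        (∫ x in P, h x ^ (m + 1)) ^ 2 := by
  obtain ⟨p, rfl⟩ : ∃ p, m = p + 1 := ⟨m - 1, by omega⟩
  rcases Nat.eq_zero_or_pos d with hd | hd
  · subst hd
    simp only [integral_unique, smul_eq_mul]
    push_cast
    have e : ((p:ℝ) + 1 + 2) * (0 + ((p:ℝ) + 1) + 1) / (((p:ℝ) + 1 + 1) * (0 + ((p:ℝ) + 1) + 2))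
        = 1 := by
      field_simp
      ring
    rw [e]
    exact le_of_eq (by ring)
  have hPm : MeasurableSet P := hc.measurableSet
  have hfin : volume P ≠ ∞ := hc.measure_lt_top.ne
  have : IsFiniteMeasure (volume.restrict P) := ⟨by
    rw [Measure.restrict_apply_univ]; exact hc.measure_lt_top⟩
  have hae : ∀ᵐ x ∂(volume.restrict P), 0 ≤ h x := by
    filter_upwards [ae_restrict_mem hPm] with x hx using h0 x hx
  have hL : ∀ k : ℕ, ∫ x in P, h x ^ (k + 1) =
      ((k:ℝ) + 1) * ∫ t in Ioi (0:ℝ), t ^ k * (volume.restrict P).real {x | t ≤ h x} :=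
    fun k => H103.layer_pow hmeas hae k
  set V : ℝ → ℝ := fun t => (volume.restrict P).real {x | t ≤ h x} with hV
  have hVnn : ∀ t, 0 ≤ V t := fun t => measureReal_nonneg
  have hanti : Antitone V := by
    intro s t hst
    exact measureReal_mono (fun x hx => le_trans hst hx)
  set M' : ℝ := max M 1 with hM'
  have hM'0 : 0 < M' := by positivity
  have hVM : ∀ t, M' < t → V t = 0 := by
    intro t ht
    have : (volume.restrict P) {x | t ≤ h x} = 0 := by
      rw [Measure.restrict_apply (measurableSet_le measurable_const hmeas)]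
      have : {x | t ≤ h x} ∩ P = ∅ := by
        ext x
        simp only [mem_inter_iff, mem_ofPred_eq, mem_empty_iff_false, iff_false, not_and]
        intro hx hxP
        have := hb x hxP
        have := le_max_left M 1
        linarith
      rw [this, measure_empty]
    simp only [hV, Measure.real, this, ENNReal.toReal_zero]
  have hdd : (d:ℝ) ≠ 0 := by exact_mod_cast hd.ne'
  set φ : ℝ → ℝ := fun t => V t ^ ((1:ℝ) / d) with hφ
  have hφd : ∀ t, φ t ^ d = V t := by
    intro t
    simp only [hφ]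
    rw [← Real.rpow_natCast, ← Real.rpow_mul (hVnn t)]
    simp [hdd]
  have hφ0 : ∀ t, 0 ≤ φ t := fun t => Real.rpow_nonneg (hVnn t) _
  have hφanti : Antitone φ := fun s t hst =>
    Real.rpow_le_rpow (hVnn t) (hanti hst) (by positivity)
  have hφM : ∀ t, M' < t → φ t = 0 := by
    intro t ht
    simp only [hφ, hVM t ht]
    exact Real.zero_rpow (by positivity)
  have hVvol : ∀ t, V t = (volume (P ∩ {x | t ≤ h x})).toReal := by
    intro t
    simp only [hV, Measure.real]
    rw [Measure.restrict_apply (measurableSet_le measurable_const hmeas), inter_comm]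
  have hφconc : ∀ s u θ : ℝ, 0 < s → s < u → 0 < θ → θ < 1 → 0 < φ u →
      (1 - θ) * φ s + θ * φ u ≤ φ ((1 - θ) * s + θ * u) := by
    intro s u θ _ hsu hθ0 hθ1 hpos
    have hVu : 0 < V u := by
      rcases (hVnn u).eq_or_lt with h1 | h1
      · exfalso
        have : φ u = 0 := by
          simp only [hφ, ← h1]
          exact Real.zero_rpow (by positivity)
        linarith
      · exact h1
    have hVs : 0 < V s := lt_of_lt_of_le hVu (hanti hsu.le)
    have hms : ∀ t, MeasurableSet (P ∩ {x | t ≤ h x}) := fun t =>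
      hPm.inter (measurableSet_le measurable_const hmeas)
    have key := Vale.Agent.P254.Unc.B966.bm_add hd (hms s) (hms u)
      (hms ((1 - θ) * s + θ * u)) (by rw [← hVvol]; exact hVs) (by rw [← hVvol]; exact hVu)
      ((measure_mono inter_subset_left).trans_lt hc.measure_lt_top).ne hθ0 hθ1 (by
        intro a ha b hb'
        refine ⟨hP ha.1 hb'.1 (by linarith) hθ0.le (by ring), ?_⟩
        have h2 := hconc.2 ha.1 hb'.1 (by linarith : 0 ≤ 1 - θ) hθ0.le (by ring)
        simp only [smul_eq_mul] at h2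
        have h3 : s ≤ h a := ha.2
        have h4 : u ≤ h b := hb'.2
        have h5 := mul_le_mul_of_nonneg_left h3 (by linarith : 0 ≤ 1 - θ)
        have h6 := mul_le_mul_of_nonneg_left h4 hθ0.le
        exact (by linarith : (1 - θ) * s + θ * u ≤ h ((1 - θ) • a + θ • b)))
    rw [← hVvol, ← hVvol, ← hVvol] at key
    exact key
  set J : ℕ → ℝ := fun k => ∫ t in Ioi (0:ℝ), t ^ k * V t with hJ
  have hJnn : ∀ k, 0 ≤ J k := fun k => setIntegral_nonneg measurableSet_Ioi fun t ht => by
    have : (0:ℝ) < t := ht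
    have := hVnn t
    positivity
  have e0 : ∫ x in P, h x ^ (p + 1) = ((p:ℝ) + 1) * J p := hL p
  have e1 : ∫ x in P, h x ^ (p + 1 + 1) = ((p:ℝ) + 2) * J (p + 1) := by
    rw [hL (p + 1)]
    push_cast
    ring
  have e2 : ∫ x in P, h x ^ (p + 1 + 2) = ((p:ℝ) + 3) * J (p + 2) := by
    rw [show p + 1 + 2 = (p + 2) + 1 by ring, hL (p + 2)]
    push_cast
    ring
  rw [e0, e1, e2]
  push_cast
  rcases (hJnn p).eq_or_lt with hp0 | hp0
  · rw [← hp0]
    simp only [mul_zero]
    positivity
  rcases (hJnn (p + 1)).eq_or_lt with hp1 | hp1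
  · -- then `h = 0` almost everywhere
    have hz : ∫ x in P, h x ^ (p + 1 + 1) = 0 := by rw [e1, ← hp1, mul_zero]
    have hint : ∀ k : ℕ, IntegrableOn (fun x => h x ^ k) P := by
      intro k
      refine IntegrableOn.of_bound (C := M' ^ k) hc.measure_lt_top
        (hmeas.pow_const k).aestronglyMeasurable ?_
      filter_upwards [ae_restrict_mem hPm] with x hx
      rw [Real.norm_eq_abs, abs_of_nonneg (pow_nonneg (h0 x hx) k)]
      exact pow_le_pow_left₀ (h0 x hx) ((hb x hx).trans (le_max_left _ _)) k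
    have hz2 := (setIntegral_eq_zero_iff_of_nonneg_ae
      (by filter_upwards [hae] with x hx using pow_nonneg hx _) (hint (p + 1 + 1))).1 hz
    have hz3 : ∫ x in P, h x ^ (p + 1) = 0 := by
      refine integral_eq_zero_of_ae ?_
      filter_upwards [hz2] with x hx
      have : h x = 0 := by
        have hx' : h x ^ (p + 1 + 1) = 0 := hx
        exact pow_eq_zero_iff (by omega) |>.1 hx'
      simp [this]
    rw [e0] at hz3
    have : 0 < ((p:ℝ) + 1) * J p := by positivity
    linarith
  have key := H103.one_var (d := d) (p := p) hd hM'0 hφ0 hφanti hφM hφconc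
    (by simp only [hφd]; exact hp0) (by simp only [hφd]; exact hp1)
  simp only [hφd] at key
  change J (p + 2) * J p ≤ (((p:ℝ) + d + 2) * (p + 2) / ((p + 1) * (p + d + 3))) * J (p + 1) ^ 2
    at key
  have h7 := mul_le_mul_of_nonneg_left key (by positivity : 0 ≤ ((p:ℝ) + 3) * ((p:ℝ) + 1))
  calc ((p:ℝ) + 3) * J (p + 2) * (((p:ℝ) + 1) * J p)
      = ((p:ℝ) + 3) * ((p:ℝ) + 1) * (J (p + 2) * J p) := by ring
    _ ≤ _ := h7
    _ = _ := by
      field_simp
      ring

/-- [P4] Berwald, the form of the skeleton -/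
theorem H103.berwald_gen {m p : ℕ} (hm : 1 ≤ m) {P : Set (Fin p → ℝ)} (hP : Convex ℝ P)
    (hc : IsCompact P) {h : (Fin p → ℝ) → ℝ} (hconc : ConcaveOn ℝ P h) (h0 : ∀ x, 0 ≤ h x)
    (hmeas : Measurable h) (hb : ∃ C : ℝ, ∀ x, h x ≤ C) :
    (∫ x in P, h x ^ (m + 2)) * (∫ x in P, h x ^ m) ≤
      (((m : ℝ) + 2) * ((m : ℝ) + p + 1) / (((m : ℝ) + 1) * ((m : ℝ) + p + 2))) *
        (∫ x in P, h x ^ (m + 1)) ^ 2 := by
  obtain ⟨C, hC⟩ := hb
  have key := H103.berwald_gen0 hm hP hc hconc (fun x _ => h0 x) hmeas (M := C) (fun x _ => hC x)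
  rw [show (m : ℝ) + p + 1 = p + m + 1 by ring, show (m : ℝ) + p + 2 = p + m + 2 by ring]
  exact key

end Vale.Agent.P254.Refl
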