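import Vale.Agent.P254.Defs

/-!
P254, convex bodies with `n` hyperplane symmetries with linearly independent directions: definitions.
-/

open MeasureTheory Set Matrix

namespace Vale.Agent.P254.Refl

/-- The constant of the simplex, `L_Δ^(2n)`. -/
noncomputable def cst (n : ℕ) : ℝ :=
  (n.factorial : ℝ) ^ 2 / (((n : ℝ) + 1) ^ (n + 1) * ((n : ℝ) + 2) ^ n)

/-- The orthogonal reflection in the hyperplane orthogonal to `a`. -/
noncomputable def rf {ι : Type} [Fintype ι] (a x : ι → ℝ) : ι → ℝ :=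
  x - (2 * (a ⬝ᵥ x) / (a ⬝ᵥ a)) • a

/-- `K` is invariant under the reflections in the hyperplanes orthogonal to the vectors `a i`. -/
def RInv {ι κ : Type} [Fintype ι] (a : κ → ι → ℝ) (K : Set (ι → ℝ)) : Prop :=
  ∀ i, ∀ x ∈ K, rf (a i) x ∈ K

/-- `a i` and `a j` are joined by a path of pairwise nonorthogonal vectors. -/
def Lk {ι κ : Type} [Fintype ι] (a : κ → ι → ℝ) : κ → κ → Prop :=
  Relation.ReflTransGen fun i j => a i ⬝ᵥ a j ≠ 0

/-- The bound for irreducible systems of reflections in dimension `m`. -/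
def IrrBd (m : ℕ) : Prop :=
  ∀ (a : Fin m → Fin m → ℝ) (K : Set (Fin m → ℝ)), LinearIndependent ℝ a → (∀ i j, Lk a i j) →
    Convex ℝ K → IsCompact K → RInv a K → ∀ i,
      (∫ x in K, x i ^ 2) ^ m ≤ cst m * (volume K).toReal ^ (m + 2)

/-- The side of the cube with the volume of the fibre over `z`. -/
noncomputable def hgt {m p : ℕ} (L : Set ((Fin m → ℝ) × (Fin p → ℝ))) (z : Fin p → ℝ) : ℝ :=
  (volume {y : Fin m → ℝ | (y, z) ∈ L}).toReal ^ (1 / (m : ℝ))

/-- The cube symmetrization. -/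
def cube {m p : ℕ} (L : Set ((Fin m → ℝ) × (Fin p → ℝ))) : Set ((Fin m → ℝ) × (Fin p → ℝ)) :=
  {q | q.2 ∈ Prod.snd '' L ∧ ∀ i, 2 * |q.1 i| ≤ hgt L q.2}

/-- The point with the coordinates `y` in the block and `z` outside of the block. -/
def cmb {n m p : ℕ} (e : Fin m ⊕ Fin p ≃ Fin n) (y : Fin m → ℝ) (z : Fin p → ℝ) : Fin n → ℝ :=
  fun i => Sum.elim y z (e.symm i)

/-- A linearly independent system of vectors in coordinates which are adapted to its components:
`lab` gives the component. -/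
structure Blk {n : ℕ} {β : Type} (a : Fin n → Fin n → ℝ) (lab : Fin n → β) : Prop where
  li : LinearIndependent ℝ a
  zero : ∀ i j, lab i ≠ lab j → a j i = 0
  conn : ∀ i j, lab i = lab j → Lk a i j

end Vale.Agent.P254.Refl
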