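import Vale.Agent.P254.Refl.DSup
import Vale.Agent.P254.Refl.Defs

/-!
P254/Refl [N1]: the numbers (helper898).
-/

open Real

namespace Vale.Agent.P254.Refl

open D898

theorem cst_pos (n : ℕ) : 0 < cst n := by
  unfold cst
  positivity

theorem cst_eq_dd (n : ℕ) : cst n = dd n * (((n : ℝ) + 1) / ((n : ℝ) + 2)) ^ n := by
  unfold cst dd
  have h1 : ((n : ℝ) + 1) ≠ 0 := by positivity
  have h2 : ((n : ℝ) + 2) ≠ 0 := by positivity
  rw [div_pow, show 2 * n + 1 = (n + 1) + n by ring, pow_add]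
  field_simp
  ring

namespace N1

/-- `log (dd m) ≤ m * inc n` for `m ≤ n + 1`. -/
theorem log_le (m : ℕ) : ∀ n : ℕ, m ≤ n + 1 → log (dd m) ≤ m * inc n := by
  induction m with
  | zero => intro n _; simp [dd_zero]
  | succ m ih =>
    intro n hn
    have h1 := ih n (by omega)
    have h2 : inc m ≤ inc n := inc_mono.monotone (by omega)
    have h3 : log (dd (m + 1)) = log (dd m) + inc m := by rw [inc]; ring
    rw [h3]
    push_cast
    linarith

/-- strict form -/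
theorem log_lt (m : ℕ) (hm : 1 ≤ m) (n : ℕ) (hn : m ≤ n) : log (dd m) < m * inc n := by
  obtain ⟨m, rfl⟩ : ∃ j, m = j + 1 := ⟨m - 1, by omega⟩
  have h1 := log_le m n (by omega)
  have h2 : inc m < inc n := inc_mono (by omega)
  have h3 : log (dd (m + 1)) = log (dd m) + inc m := by rw [inc]; ring
  rw [h3]
  push_cast
  linarith

theorem log_mono (m p : ℕ) : ((m : ℝ) + p) * log (dd m) ≤ m * log (dd (m + p)) := by
  induction p with
  | zero => simp
  | succ p ih =>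
    have h := log_le m (m + p) (by omega)
    have h3 : log (dd (m + (p + 1))) = log (dd (m + p)) + inc (m + p) := by
      rw [inc, ← add_assoc]; ring
    rw [h3]
    push_cast
    nlinarith [h, ih]

theorem log_mono_lt (m p : ℕ) (hm : 1 ≤ m) (hp : 1 ≤ p) :
    ((m : ℝ) + p) * log (dd m) < m * log (dd (m + p)) := by
  obtain ⟨p, rfl⟩ : ∃ j, p = j + 1 := ⟨p - 1, by omega⟩
  have h := log_lt m hm (m + p) (by omega)
  have ih := log_mono m p
  have h3 : log (dd (m + (p + 1))) = log (dd (m + p)) + inc (m + p) := by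
    rw [inc, ← add_assoc]; ring
  rw [h3]
  push_cast
  nlinarith [h, ih]

theorem pow_eq (x : ℝ) (hx : 0 < x) {y : ℝ} (hy : 0 < y) (m : ℕ) (hm : 1 ≤ m) :
    (x * y ^ m) ^ (1 / (m : ℝ)) = exp (log x / m) * y := by
  have hm' : (m : ℝ) ≠ 0 := by positivity
  rw [Real.mul_rpow hx.le (by positivity), ← Real.rpow_natCast y m, ← Real.rpow_mul hy.le,
    mul_one_div_cancel hm', Real.rpow_one, Real.rpow_def_of_pos hx]
  congr 2
  ring

end N1

theorem cst_rpow (m : ℕ) (hm : 1 ≤ m) :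
    cst m ^ (1 / (m : ℝ)) = exp (log (dd m) / m) * (((m : ℝ) + 1) / ((m : ℝ) + 2)) := by
  rw [cst_eq_dd, N1.pow_eq _ (dd_pos m) (by positivity) m hm]

theorem cst_rpow_mul {m p : ℕ} (hm : 1 ≤ m) :
    cst m ^ (1 / (m : ℝ)) *
        (((m : ℝ) + 2) * ((m : ℝ) + p + 1) / (((m : ℝ) + 1) * ((m : ℝ) + p + 2))) =
      exp (log (dd m) / m) * (((m : ℝ) + p + 1) / ((m : ℝ) + p + 2)) := by
  rw [cst_rpow m hm]
  field_simp

theorem cst_rpow_add {m p : ℕ} (hm : 1 ≤ m) :
    cst (m + p) ^ (1 / ((m : ℝ) + p)) =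
      exp (log (dd (m + p)) / (m + p)) * (((m : ℝ) + p + 1) / ((m : ℝ) + p + 2)) := by
  have := cst_rpow (m + p) (by omega)
  push_cast at this
  exact this

/-- [N1] -/
theorem cst_pow_le {m p : ℕ} (hm : 1 ≤ m) :
    cst m ^ (1 / (m : ℝ)) *
        (((m : ℝ) + 2) * ((m : ℝ) + p + 1) / (((m : ℝ) + 1) * ((m : ℝ) + p + 2))) ≤
      cst (m + p) ^ (1 / ((m : ℝ) + p)) := by
  have hm' : (0 : ℝ) < m := by exact_mod_cast hm
  rw [cst_rpow_mul hm, cst_rpow_add hm]
  refine mul_le_mul_of_nonneg_right (exp_le_exp.2 ?_) (by positivity)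
  rw [div_le_div_iff₀ hm' (by positivity)]
  linarith [N1.log_mono m p]

/-- strict form of [N1] -/
theorem cst_pow_lt {m p : ℕ} (hm : 1 ≤ m) (hp : 1 ≤ p) :
    cst m ^ (1 / (m : ℝ)) *
        (((m : ℝ) + 2) * ((m : ℝ) + p + 1) / (((m : ℝ) + 1) * ((m : ℝ) + p + 2))) <
      cst (m + p) ^ (1 / ((m : ℝ) + p)) := by
  have hm' : (0 : ℝ) < m := by exact_mod_cast hm
  rw [cst_rpow_mul hm, cst_rpow_add hm]
  refine mul_lt_mul_of_pos_right (exp_lt_exp.2 ?_) (by positivity)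
  rw [div_lt_div_iff₀ hm' (by positivity)]
  linarith [N1.log_mono_lt m p hm hp]

end Vale.Agent.P254.Refl
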