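import Vale.Agent.P254.Refl.P582
import Vale.Agent.P254.Refl.BerM
import Vale.Agent.P254.Refl.N1

/-!
P254/Refl, B1: cube symmetrization in the product.
-/

open MeasureTheory Set Matrix

namespace Vale.Agent.P254.Refl

/-- A continuous map preserving a set preserves its closure. -/
theorem closure_inv816 {X : Type*} [TopologicalSpace X] {S : Set X} {g : X → X}
    (hg : Continuous g) (h : ∀ q ∈ S, g q ∈ S) : ∀ q ∈ closure S, g q ∈ closure S := by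
  intro q hq
  exact map_mem_closure hg hq h

theorem prod_step_of816 {m p : ℕ} (hm : 1 ≤ m) {L : Set ((Fin m → ℝ) × (Fin p → ℝ))}
    (hconc : ConcaveOn ℝ (Prod.snd '' L) (hgt L))
    (hmeas : Measurable (hgt L) ∧ (∀ z, 0 ≤ hgt L z) ∧ ∃ C : ℝ, ∀ z, hgt L z ≤ C)
    (hint : ∀ φ : (Fin p → ℝ) → ℝ, Continuous φ →
      ∫ q in L, φ q.2 = ∫ z in Prod.snd '' L, φ z * hgt L z ^ m)
    (hsq : ∀ (i : Fin m) (c : ℝ), 0 ≤ c →
      (∀ z : Fin p → ℝ, (∫ y in {y : Fin m → ℝ | (y, z) ∈ L}, y i ^ 2) ^ m ≤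
        c * (volume {y : Fin m → ℝ | (y, z) ∈ L}).toReal ^ (m + 2)) →
      ∫ q in L, q.1 i ^ 2 ≤ c ^ (1 / (m : ℝ)) * ∫ z in Prod.snd '' L, hgt L z ^ (m + 2))
    (hcube : Convex ℝ (cube L) ∧ IsCompact (closure (cube L)))
    (hcint : ∀ φ : (Fin p → ℝ) → ℝ, Continuous φ →
      ∫ q in closure (cube L), φ q.2 = ∫ z in Prod.snd '' L, φ z * hgt L z ^ m)
    (hcabs : ∀ i : Fin m,
      ∫ q in closure (cube L), |q.1 i| = 1 / 4 * ∫ z in Prod.snd '' L, hgt L z ^ (m + 1))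
    (hber : ∀ {P : Set (Fin p → ℝ)} (_ : Convex ℝ P) (_ : IsCompact P) {h : (Fin p → ℝ) → ℝ}
      (_ : ConcaveOn ℝ P h) (_ : ∀ x, 0 ≤ h x) (_ : Measurable h) (_ : ∃ C : ℝ, ∀ x, h x ≤ C),
      (∫ x in P, h x ^ (m + 2)) * (∫ x in P, h x ^ m) ≤
        (((m : ℝ) + 2) * ((m : ℝ) + p + 1) / (((m : ℝ) + 1) * ((m : ℝ) + p + 2))) *
          (∫ x in P, h x ^ (m + 1)) ^ 2)
    (hc : Convex ℝ L) (hL : IsCompact L)
    (hfib : ∀ (z : Fin p → ℝ) (i : Fin m), (∫ y in {y : Fin m → ℝ | (y, z) ∈ L}, y i ^ 2) ^ m ≤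
      cst m * (volume {y : Fin m → ℝ | (y, z) ∈ L}).toReal ^ (m + 2))
    {D : ℝ} (hD : cst m ^ (1 / (m : ℝ)) *
      (((m : ℝ) + 2) * ((m : ℝ) + p + 1) / (((m : ℝ) + 1) * ((m : ℝ) + p + 2))) ≤ D) :
    ∃ L' : Set ((Fin m → ℝ) × (Fin p → ℝ)), Convex ℝ L' ∧ IsCompact L' ∧
      (∀ φ : (Fin p → ℝ) → ℝ, Continuous φ → ∫ q in L', φ q.2 = ∫ q in L, φ q.2) ∧
      (∀ i : Fin m, (volume L).toReal * ∫ q in L, q.1 i ^ 2 ≤
        16 * D * (∫ q in L', |q.1 i|) ^ 2) ∧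
      (∀ i : Fin m, ∀ q ∈ L', (Function.update q.1 i (-q.1 i), q.2) ∈ L') ∧
      ∀ T : (Fin p → ℝ) → (Fin p → ℝ), Continuous T → (∀ z, T (T z) = z) →
        (∀ q ∈ L, (q.1, T q.2) ∈ L) → ∀ q ∈ L', (q.1, T q.2) ∈ L' := by
  have hP : Convex ℝ (Prod.snd '' L) := hc.linear_image (LinearMap.snd ℝ _ _)
  have hPc : IsCompact (Prod.snd '' L) := hL.image continuous_snd
  have hcst : 0 ≤ cst m := by unfold cst; positivity
  refine ⟨closure (cube L), hcube.1.closure, hcube.2, ?_, ?_, ?_, ?_⟩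
  · intro φ hφ
    rw [hcint φ hφ, hint φ hφ]
  · intro i
    have h1 : (volume L).toReal = ∫ z in Prod.snd '' L, hgt L z ^ m := by
      have := hint (fun _ => 1) continuous_const
      simpa [Measure.real] using this
    have h2 := hsq i (cst m) hcst (fun z => hfib z i)
    have h3 := hber hP hPc hconc hmeas.2.1 hmeas.1 hmeas.2.2
    have h4 : 0 ≤ ∫ z in Prod.snd '' L, hgt L z ^ m :=
      integral_nonneg fun z => pow_nonneg (hmeas.2.1 z) _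
    have h5 : 0 ≤ cst m ^ (1 / (m : ℝ)) := Real.rpow_nonneg hcst _
    rw [h1, hcabs i]
    set A := ∫ z in Prod.snd '' L, hgt L z ^ m
    set B := ∫ z in Prod.snd '' L, hgt L z ^ (m + 1)
    set E := ∫ z in Prod.snd '' L, hgt L z ^ (m + 2)
    set r : ℝ := ((m : ℝ) + 2) * ((m : ℝ) + p + 1) / (((m : ℝ) + 1) * ((m : ℝ) + p + 2))
    calc A * ∫ q in L, q.1 i ^ 2 ≤ A * (cst m ^ (1 / (m : ℝ)) * E) :=
          mul_le_mul_of_nonneg_left h2 h4
      _ = cst m ^ (1 / (m : ℝ)) * (E * A) := by ring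
      _ ≤ cst m ^ (1 / (m : ℝ)) * (r * B ^ 2) := mul_le_mul_of_nonneg_left h3 h5
      _ = cst m ^ (1 / (m : ℝ)) * r * B ^ 2 := by ring
      _ ≤ D * B ^ 2 := mul_le_mul_of_nonneg_right hD (sq_nonneg _)
      _ = 16 * D * (1 / 4 * B) ^ 2 := by ring
  · intro i
    refine closure_inv816 (g := fun q => (Function.update q.1 i (-q.1 i), q.2)) ?_ ?_
    · exact (continuous_fst.update i ((continuous_apply i).comp continuous_fst).neg).prodMk
        continuous_snd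
    · rintro q ⟨hq1, hq2⟩
      refine ⟨hq1, fun j => ?_⟩
      by_cases hj : j = i
      · subst hj
        simpa using hq2 j
      · simpa [Function.update_of_ne hj] using hq2 j
  · intro T hT hTT hTL
    have hf : ∀ z, hgt L (T z) = hgt L z := by
      intro z
      unfold hgt
      congr 3
      ext y
      constructor
      · intro hy
        have := hTL (y, T z) hy
        simpa [hTT] using this
      · intro hy
        exact hTL (y, z) hy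
    refine closure_inv816 (g := fun q => (q.1, T q.2)) ?_ ?_
    · exact continuous_fst.prodMk (hT.comp continuous_snd)
    · rintro q ⟨⟨q', hq', hq1⟩, hq2⟩
      refine ⟨⟨(q'.1, T q'.2), hTL q' hq', by simp [hq1]⟩, fun j => ?_⟩
      have := hq2 j
      simpa [hf] using this

/-- [B1] cube symmetrization in the product, with a parameter for the constant -/
theorem prod_step_D {m p : ℕ} (hm : 1 ≤ m) {L : Set ((Fin m → ℝ) × (Fin p → ℝ))}
    (hc : Convex ℝ L) (hL : IsCompact L)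
    (hfib : ∀ (z : Fin p → ℝ) (i : Fin m), (∫ y in {y : Fin m → ℝ | (y, z) ∈ L}, y i ^ 2) ^ m ≤
      cst m * (volume {y : Fin m → ℝ | (y, z) ∈ L}).toReal ^ (m + 2))
    {D : ℝ} (hD : cst m ^ (1 / (m : ℝ)) *
      (((m : ℝ) + 2) * ((m : ℝ) + p + 1) / (((m : ℝ) + 1) * ((m : ℝ) + p + 2))) ≤ D) :
    ∃ L' : Set ((Fin m → ℝ) × (Fin p → ℝ)), Convex ℝ L' ∧ IsCompact L' ∧
      (∀ φ : (Fin p → ℝ) → ℝ, Continuous φ → ∫ q in L', φ q.2 = ∫ q in L, φ q.2) ∧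
      (∀ i : Fin m, (volume L).toReal * ∫ q in L, q.1 i ^ 2 ≤
        16 * D * (∫ q in L', |q.1 i|) ^ 2) ∧
      (∀ i : Fin m, ∀ q ∈ L', (Function.update q.1 i (-q.1 i), q.2) ∈ L') ∧
      ∀ T : (Fin p → ℝ) → (Fin p → ℝ), Continuous T → (∀ z, T (T z) = z) →
        (∀ q ∈ L, (q.1, T q.2) ∈ L) → ∀ q ∈ L', (q.1, T q.2) ∈ L' :=
  prod_step_of816 hm (H582.hgt_conc hm hc hL) (H582.hgt_meas hL)
    (fun _ hφ => H582.int_snd hm hL hφ)
    (fun _ _ hc0 h => H582.int_sq_le hm hL hc0 h) (H582.cube_convex hm hc hL)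
    (fun _ hφ => H582.cube_int hm hc hL hφ) (fun i => H582.cube_abs hm hc hL i)
    (fun hP hPc _ h1 h2 h3 h4 => H103.berwald_gen hm hP hPc h1 h2 h3 h4) hc hL hfib hD

/-- [B1] cube symmetrization in the product, from P1-P4 and N1 -/
theorem prod_step {m p : ℕ} (hm : 1 ≤ m) {L : Set ((Fin m → ℝ) × (Fin p → ℝ))}
    (hc : Convex ℝ L) (hL : IsCompact L)
    (hfib : ∀ (z : Fin p → ℝ) (i : Fin m), (∫ y in {y : Fin m → ℝ | (y, z) ∈ L}, y i ^ 2) ^ m ≤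
      cst m * (volume {y : Fin m → ℝ | (y, z) ∈ L}).toReal ^ (m + 2)) :
    ∃ L' : Set ((Fin m → ℝ) × (Fin p → ℝ)), Convex ℝ L' ∧ IsCompact L' ∧
      (∀ φ : (Fin p → ℝ) → ℝ, Continuous φ → ∫ q in L', φ q.2 = ∫ q in L, φ q.2) ∧
      (∀ i : Fin m, (volume L).toReal * ∫ q in L, q.1 i ^ 2 ≤
        16 * cst (m + p) ^ (1 / ((m : ℝ) + p)) * (∫ q in L', |q.1 i|) ^ 2) ∧
      (∀ i : Fin m, ∀ q ∈ L', (Function.update q.1 i (-q.1 i), q.2) ∈ L') ∧
      ∀ T : (Fin p → ℝ) → (Fin p → ℝ), Continuous T → (∀ z, T (T z) = z) →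
        (∀ q ∈ L, (q.1, T q.2) ∈ L) → ∀ q ∈ L', (q.1, T q.2) ∈ L' :=
  prod_step_D hm hc hL hfib (cst_pow_le hm)

end Vale.Agent.P254.Refl
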