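import Vale.Agent.P254.Refl.Defs
import Vale.Agent.P254.Bdl.B4
import Mathlib.MeasureTheory.Constructions.BorelSpace.Order

/-! P254/Refl: cube symmetrization of one block of coordinates: P1, P2, P3 (helper582). -/

open MeasureTheory Set Filter Topology
open scoped Pointwise

namespace Vale.Agent.P254.Refl.H582

variable {m p : ℕ} {L : Set ((Fin m → ℝ) × (Fin p → ℝ))}

/-- The fibre over `z`. -/
def fb (L : Set ((Fin m → ℝ) × (Fin p → ℝ))) (z : Fin p → ℝ) : Set (Fin m → ℝ) :=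
  {y | (y, z) ∈ L}

theorem fb_compact (hL : IsCompact L) (z : Fin p → ℝ) : IsCompact (fb L z) := by
  refine (hL.image continuous_fst).of_isClosed_subset ?_ ?_
  · exact hL.isClosed.preimage (by fun_prop : Continuous fun y : Fin m → ℝ => (y, z))
  · intro y hy
    exact ⟨(y, z), hy, rfl⟩

theorem hh_nonneg (L : Set ((Fin m → ℝ) × (Fin p → ℝ))) (z : Fin p → ℝ) : 0 ≤ hgt L z :=
  Real.rpow_nonneg ENNReal.toReal_nonneg _

theorem hh_pow (hm : m ≠ 0) (L : Set ((Fin m → ℝ) × (Fin p → ℝ))) (z : Fin p → ℝ) :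
    hgt L z ^ m = (volume (fb L z)).toReal := by
  unfold hgt
  rw [one_div]
  exact Real.rpow_inv_natCast_pow ENNReal.toReal_nonneg hm

theorem hh_empty (hm : m ≠ 0) {z : Fin p → ℝ} (h : ¬ (fb L z).Nonempty) : hgt L z = 0 := by
  rw [not_nonempty_iff_eq_empty] at h
  have h' : {y : Fin m → ℝ | (y, z) ∈ L} = ∅ := h
  unfold hgt
  rw [h']
  simp [hm]

theorem fb_ne_iff {z : Fin p → ℝ} : (fb L z).Nonempty ↔ z ∈ Prod.snd '' L := by
  constructor
  · rintro ⟨y, hy⟩
    exact ⟨(y, z), hy, rfl⟩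
  · rintro ⟨⟨y, z'⟩, hy, rfl⟩
    exact ⟨y, hy⟩

theorem fb_mem (hc : Convex ℝ L) {s t : Fin p → ℝ} {α β : ℝ}
    (hα : 0 ≤ α) (hβ : 0 ≤ β) (hab : α + β = 1) {x y : Fin m → ℝ} (hx : x ∈ fb L s)
    (hy : y ∈ fb L t) : α • x + β • y ∈ fb L (α • s + β • t) := by
  have h := hc hx hy hα hβ hab
  simpa [fb] using h

/-- one summand of volume zero -/
theorem add_zero_vol (hm : m ≠ 0) {A B C : Set (Fin m → ℝ)} {β b c : ℝ}
    (hA : A.Nonempty) (hβ : 0 < β) (hc : 0 ≤ c)
    (hBv : (volume B).toReal = b ^ m) (hCv : (volume C).toReal = c ^ m) (hCf : volume C ≠ ⊤)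
    (h : ∀ x ∈ A, ∀ y ∈ B, x + β • y ∈ C) : β * b ≤ c := by
  obtain ⟨x, hx⟩ := hA
  have h1 : (fun z => x + z) '' (β • B) ⊆ C := by
    rintro _ ⟨_, ⟨y, hy, rfl⟩, rfl⟩
    exact h x hx y hy
  have h2 : volume ((fun z => x + z) '' (β • B)) = volume (β • B) := by
    rw [image_add_left, measure_preimage_add]
  have h3 : (volume (β • B)).toReal ≤ (volume C).toReal := by
    rw [← h2]
    exact ENNReal.toReal_mono hCf (measure_mono h1)
  rw [Unc.volume_smul_real hβ, hBv, hCv, ← mul_pow] at h3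
  by_contra hlt
  push Not at hlt
  have := pow_lt_pow_left₀ hlt hc hm
  linarith

theorem hh_conc (hm : m ≠ 0) (hc : Convex ℝ L) (hL : IsCompact L) {s t : Fin p → ℝ}
    (hs : (fb L s).Nonempty) (ht : (fb L t).Nonempty) {α β : ℝ} (hα : 0 ≤ α) (hβ : 0 ≤ β)
    (hαβ : α + β = 1) : α * hgt L s + β * hgt L t ≤ hgt L (α • s + β • t) := by
  rcases hα.eq_or_lt with h0 | hα'
  · subst h0
    have : β = 1 := by linarith
    subst this
    simp
  rcases hβ.eq_or_lt with h0 | hβ'
  · subst h0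
    have : α = 1 := by linarith
    subst this
    simp
  have hfin : ∀ s, volume (fb L s) ≠ ⊤ := fun s => (fb_compact hL s).measure_lt_top.ne
  have hmm : ∀ s, MeasurableSet (fb L s) := fun s => (fb_compact hL s).measurableSet
  have hg0 := hh_nonneg L
  have hgm := hh_pow hm L
  rcases (hg0 s).eq_or_lt with hs0 | hs0
  · rw [← hs0, mul_zero, zero_add]
    refine add_zero_vol hm (hs.image (fun x => α • x)) hβ' (hg0 _) (hgm t).symm (hgm _).symm
      (hfin _) ?_
    rintro _ ⟨x, hx, rfl⟩ y hy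
    exact fb_mem hc hα hβ hαβ hx hy
  rcases (hg0 t).eq_or_lt with ht0 | ht0
  · rw [← ht0, mul_zero, add_zero]
    refine add_zero_vol hm (ht.image (fun x => β • x)) hα' (hg0 _) (hgm s).symm (hgm _).symm
      (hfin _) ?_
    rintro _ ⟨x, hx, rfl⟩ y hy
    have h5 := fb_mem hc hα hβ hαβ hy hx
    rw [add_comm (α • y)] at h5
    exact h5
  refine Unc.bm_add (A := α • fb L s) (B := β • fb L t)
    (C := fb L (α • s + β • t)) (by omega) ((hmm s).const_smul₀ α)
    ((hmm t).const_smul₀ β) (hmm _) (mul_pos hα' hs0) (mul_pos hβ' ht0) (hg0 _) ?_ ?_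
    (hgm _).symm (hfin _) ?_
  · rw [Unc.volume_smul_real hα', mul_pow, hgm]
  · rw [Unc.volume_smul_real hβ', mul_pow, hgm]
  · rintro _ ⟨x, hx, rfl⟩ _ ⟨y, hy, rfl⟩
    exact fb_mem hc hα hβ hαβ hx hy

theorem snd_convex (hc : Convex ℝ L) : Convex ℝ (Prod.snd '' L) :=
  hc.linear_image (LinearMap.snd ℝ (Fin m → ℝ) (Fin p → ℝ))

/-- [P1] -/
theorem hgt_conc {m p : ℕ} (hm : 1 ≤ m) {L : Set ((Fin m → ℝ) × (Fin p → ℝ))} (hc : Convex ℝ L)
    (hL : IsCompact L) : ConcaveOn ℝ (Prod.snd '' L) (hgt L) :=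
  ⟨snd_convex hc, fun s hs t ht α β hα hβ hαβ =>
    hh_conc (by omega) hc hL (fb_ne_iff.2 hs) (fb_ne_iff.2 ht) hα hβ hαβ⟩

theorem vol_usc (hL : IsCompact L) (x : Fin p → ℝ) {c : ENNReal} (hc : volume (fb L x) < c) :
    ∀ᶠ x' in 𝓝 x, volume (fb L x') < c := by
  obtain ⟨U, hU, hUo, hUc⟩ := (fb L x).exists_isOpen_lt_of_lt c hc
  have h1 : IsCompact (L ∩ {q | q.1 ∉ U}) :=
    hL.inter_right (hUo.isClosed_compl.preimage continuous_fst)
  have h2 : IsClosed (Prod.snd '' (L ∩ {q | q.1 ∉ U})) := (h1.image continuous_snd).isClosed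
  have h3 : x ∉ Prod.snd '' (L ∩ {q | q.1 ∉ U}) := by
    rintro ⟨⟨y, x'⟩, ⟨hp, hpU⟩, rfl⟩
    exact hpU (hU hp)
  filter_upwards [h2.isOpen_compl.mem_nhds h3] with x' hx'
  refine lt_of_le_of_lt (measure_mono fun y hy => ?_) hUc
  by_contra hyU
  exact hx' ⟨(y, x'), ⟨hy, hyU⟩, rfl⟩

theorem hh_usc (hm : m ≠ 0) (hL : IsCompact L) : UpperSemicontinuous (hgt L) := by
  intro x c hc
  have hc0 : 0 < c := (hh_nonneg L x).trans_lt hc
  have h1 : volume (fb L x) < ENNReal.ofReal (c ^ m) := by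
    rw [ENNReal.lt_ofReal_iff_toReal_lt (fb_compact hL x).measure_lt_top.ne, ← hh_pow hm]
    exact pow_lt_pow_left₀ hc (hh_nonneg L x) hm
  filter_upwards [vol_usc hL x h1] with x' hx'
  rw [ENNReal.lt_ofReal_iff_toReal_lt (fb_compact hL x').measure_lt_top.ne, ← hh_pow hm] at hx'
  exact lt_of_pow_lt_pow_left₀ m hc0.le hx'

theorem hh_le (hL : IsCompact L) (x : Fin p → ℝ) :
    hgt L x ≤ (volume (Prod.fst '' L)).toReal ^ (1 / (m : ℝ)) := by
  unfold hgt
  refine Real.rpow_le_rpow ENNReal.toReal_nonneg ?_ (by positivity)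
  refine ENNReal.toReal_mono (hL.image continuous_fst).measure_lt_top.ne (measure_mono ?_)
  intro y hy
  exact ⟨(y, x), hy, rfl⟩

/-- [P1'] measurability and boundedness -/
theorem hgt_meas {m p : ℕ} {L : Set ((Fin m → ℝ) × (Fin p → ℝ))} (hL : IsCompact L) :
    Measurable (hgt L) ∧ (∀ z, 0 ≤ hgt L z) ∧ ∃ C : ℝ, ∀ z, hgt L z ≤ C := by
  refine ⟨?_, hh_nonneg L, _, hh_le hL⟩
  rcases Nat.eq_zero_or_pos m with rfl | hm
  · have : hgt L = fun _ => 1 := by
      ext z
      simp [hgt]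
    rw [this]
    exact measurable_const
  · exact (hh_usc hm.ne' hL).measurable

theorem cube_conv (hm : m ≠ 0) (hc : Convex ℝ L) (hL : IsCompact L) : Convex ℝ (cube L) := by
  rintro ⟨y, x⟩ ⟨hx, hy⟩ ⟨y', x'⟩ ⟨hx', hy'⟩ α β hα hβ hαβ
  constructor
  · exact snd_convex hc hx hx' hα hβ hαβ
  · intro i
    have h1 := hh_conc hm hc hL (fb_ne_iff.2 hx) (fb_ne_iff.2 hx') hα hβ hαβ
    have h2 := mul_le_mul_of_nonneg_left (hy i) hα
    have h3 := mul_le_mul_of_nonneg_left (hy' i) hβ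
    have h4 : |α * y i + β * y' i| ≤ α * |y i| + β * |y' i| := by
      refine (abs_add_le _ _).trans ?_
      rw [abs_mul, abs_mul, abs_of_nonneg hα, abs_of_nonneg hβ]
    simp only [Prod.smul_mk, Prod.mk_add_mk, Pi.add_apply, Pi.smul_apply, smul_eq_mul] at *
    linarith

theorem cube_comp (hm : m ≠ 0) (hL : IsCompact L) : IsCompact (cube L) := by
  set H := (volume (Prod.fst '' L)).toReal ^ (1 / (m : ℝ)) with hH
  have hH0 : 0 ≤ H := Real.rpow_nonneg ENNReal.toReal_nonneg _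
  have h1 : IsCompact (Metric.closedBall (0 : Fin m → ℝ) (H / 2) ×ˢ (Prod.snd '' L)) :=
    (isCompact_closedBall _ _).prod (hL.image continuous_snd)
  refine h1.of_isClosed_subset ?_ ?_
  · have e : cube L = (Prod.snd ⁻¹' (Prod.snd '' L)) ∩
        ⋂ i : Fin m, {q : (Fin m → ℝ) × (Fin p → ℝ) | 2 * |q.1 i| ≤ hgt L q.2} := by
      ext q
      simp only [cube, mem_inter_iff, mem_iInter]
      rfl
    rw [e]
    refine ((hL.image continuous_snd).isClosed.preimage continuous_snd).inter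
      (isClosed_iInter fun i => ?_)
    rw [← isOpen_compl_iff, isOpen_iff_mem_nhds]
    intro q hq
    have hq' : hgt L q.2 < 2 * |q.1 i| := not_le.1 hq
    obtain ⟨c, hc1, hc2⟩ := exists_between hq'
    have e1 : ∀ᶠ r : (Fin m → ℝ) × (Fin p → ℝ) in 𝓝 q, hgt L r.2 < c :=
      (continuous_snd.tendsto q).eventually (hh_usc hm hL q.2 c hc1)
    have e2 : ∀ᶠ r : (Fin m → ℝ) × (Fin p → ℝ) in 𝓝 q, c < 2 * |r.1 i| :=
      ((by fun_prop : Continuous fun r : (Fin m → ℝ) × (Fin p → ℝ) => 2 * |r.1 i|).tendsto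
        q).eventually (lt_mem_nhds hc2)
    filter_upwards [e1, e2] with r h1 h2
    exact not_le.2 (h1.trans h2)
  · rintro ⟨y, x⟩ ⟨hx, hy⟩
    refine ⟨?_, hx⟩
    rw [mem_closedBall_zero_iff, pi_norm_le_iff_of_nonneg (by positivity)]
    intro i
    have h2 := (hy i).trans (hh_le hL x)
    rw [Real.norm_eq_abs, le_div_iff₀ (by norm_num)]
    linarith

/-- [P3a] -/
theorem cube_convex {m p : ℕ} (hm : 1 ≤ m) {L : Set ((Fin m → ℝ) × (Fin p → ℝ))}
    (hc : Convex ℝ L) (hL : IsCompact L) : Convex ℝ (cube L) ∧ IsCompact (closure (cube L)) := by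
  have h := cube_comp (by omega : m ≠ 0) hL
  exact ⟨cube_conv (by omega) hc hL, by rwa [h.isClosed.closure_eq]⟩

theorem fb_cs {x : Fin p → ℝ} (hx : (fb L x).Nonempty) :
    fb (cube L) x = Set.pi univ fun _ => Icc (-(hgt L x / 2)) (hgt L x / 2) := by
  ext y
  simp only [fb, cube, Set.mem_pi, Set.mem_univ, true_implies, Set.mem_Icc, ← abs_le]
  constructor
  · intro h i
    have := h.2 i
    simp only at this
    linarith
  · intro h
    refine ⟨fb_ne_iff.1 hx, fun i => ?_⟩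
    have := h i
    simp only
    linarith

theorem fb_cs_empty {x : Fin p → ℝ} (hx : ¬ (fb L x).Nonempty) : fb (cube L) x = ∅ := by
  ext y
  simp only [mem_empty_iff_false, iff_false]
  intro h
  exact hx (fb_ne_iff.2 h.1)

theorem vol_fb_cs (hm : m ≠ 0) (x : Fin p → ℝ) :
    (volume (fb (cube L) x)).toReal = hgt L x ^ m := by
  by_cases hx : (fb L x).Nonempty
  · rw [fb_cs hx, volume_pi, Measure.pi_pi, ENNReal.toReal_prod]
    simp only [Real.volume_Icc]
    rw [ENNReal.toReal_ofReal (by have := hh_nonneg L x; linarith), Finset.prod_const]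
    simp
  · rw [fb_cs_empty hx, hh_empty hm hx]
    simp [hm]

theorem int_abs_Icc {h : ℝ} (h0 : 0 ≤ h) : ∫ t in Icc (-(h / 2)) (h / 2), |t| = h ^ 2 / 4 := by
  rw [integral_Icc_eq_integral_Ioc, ← intervalIntegral.integral_of_le (by linarith)]
  have h1 : ∫ t in (-(h / 2))..(h / 2), |t| =
      (∫ t in (-(h / 2))..0, |t|) + ∫ t in (0 : ℝ)..(h / 2), |t| :=
    (intervalIntegral.integral_add_adjacent_intervals
      (by apply Continuous.intervalIntegrable; fun_prop)
      (by apply Continuous.intervalIntegrable; fun_prop)).symm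
  have h2 : ∫ t in (-(h / 2))..0, |t| = ∫ t in (-(h / 2))..0, -t := by
    refine intervalIntegral.integral_congr fun t ht => ?_
    rw [uIcc_of_le (by linarith)] at ht
    exact abs_of_nonpos ht.2
  have h3 : ∫ t in (0 : ℝ)..(h / 2), |t| = ∫ t in (0 : ℝ)..(h / 2), t := by
    refine intervalIntegral.integral_congr fun t ht => ?_
    rw [uIcc_of_le (by linarith)] at ht
    exact abs_of_nonneg ht.1
  rw [h1, h2, h3, intervalIntegral.integral_neg, integral_id, integral_id]
  ring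

theorem int_fb_cs (x : Fin p → ℝ) (i : Fin m) :
    ∫ y in fb (cube L) x, |y i| = hgt L x ^ (m + 1) / 4 := by
  have hm : m ≠ 0 := by have := i.pos; omega
  by_cases hx : (fb L x).Nonempty
  · have h0 := hh_nonneg L x
    rw [fb_cs hx, volume_pi, Measure.restrict_pi_pi]
    have e : ∀ y : Fin m → ℝ, |y i| = ∏ j, (if j = i then |y j| else 1) := by
      intro y
      simp
    simp only [e]
    rw [integral_fintype_prod_eq_prod (f := fun j (t : ℝ) => if j = i then |t| else 1)]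
    have e2 : ∀ j : Fin m, ∫ t in Icc (-(hgt L x / 2)) (hgt L x / 2),
        (if j = i then |t| else 1) = if j = i then hgt L x ^ 2 / 4 else hgt L x := by
      intro j
      by_cases hj : j = i
      · simp only [hj, if_true]
        exact int_abs_Icc h0
      · simp only [hj, if_false]
        rw [setIntegral_const, Measure.real, Real.volume_Icc,
          ENNReal.toReal_ofReal (by linarith)]
        simp
    rw [Finset.prod_congr rfl fun j _ => e2 j, Finset.prod_ite, Finset.prod_const,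
      Finset.prod_const]
    have c1 : (Finset.filter (fun j => j = i) Finset.univ).card = 1 := by
      simp [Finset.filter_eq']
    have c2 : (Finset.filter (fun j => ¬ j = i) Finset.univ).card = m - 1 := by
      rw [Finset.filter_ne' Finset.univ i, Finset.card_erase_of_mem (Finset.mem_univ i)]
      simp
    rw [c1, c2]
    obtain ⟨q, rfl⟩ : ∃ q, m = q + 1 := ⟨m - 1, by omega⟩
    simp only [Nat.add_sub_cancel]
    ring
  · rw [fb_cs_empty hx, hh_empty hm hx]
    simp

theorem fubini (hL : IsCompact L) {f : (Fin m → ℝ) × (Fin p → ℝ) → ℝ} (hf : Continuous f) :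
    Integrable (fun x => ∫ y in fb L x, f (y, x)) ∧
      ∫ q in L, f q = ∫ x, ∫ y in fb L x, f (y, x) := by
  have hi : Integrable (L.indicator f) :=
    (integrable_indicator_iff hL.measurableSet).2 (hf.continuousOn.integrableOn_compact hL)
  have key : ∀ x, ∫ y, L.indicator f (y, x) = ∫ y in fb L x, f (y, x) := by
    intro s
    rw [← integral_indicator (fb_compact hL s).measurableSet]
    rfl
  rw [Measure.volume_eq_prod] at hi
  constructor
  · have := hi.integral_prod_right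
    simpa only [key] using this
  · rw [← integral_indicator hL.measurableSet, Measure.volume_eq_prod, integral_prod_symm _ hi]
    simp only [key]

theorem set_eq (hm : m ≠ 0) (φ : (Fin p → ℝ) → ℝ) {q : ℕ} (hq : q ≠ 0) :
    ∫ z in Prod.snd '' L, φ z * hgt L z ^ q = ∫ z, φ z * hgt L z ^ q := by
  refine setIntegral_eq_integral_of_forall_compl_eq_zero fun z hz => ?_
  rw [hh_empty hm fun h => hz (fb_ne_iff.1 h), zero_pow hq, mul_zero]

theorem set_eq' (hm : m ≠ 0) {q : ℕ} (hq : q ≠ 0) :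
    ∫ z in Prod.snd '' L, hgt L z ^ q = ∫ z, hgt L z ^ q := by
  have h := set_eq (L := L) hm (fun _ => 1) hq
  simpa using h

/-- [P2] -/
theorem int_snd {m p : ℕ} (hm : 1 ≤ m) {L : Set ((Fin m → ℝ) × (Fin p → ℝ))} (hL : IsCompact L)
    {φ : (Fin p → ℝ) → ℝ} (hφ : Continuous φ) :
    ∫ q in L, φ q.2 = ∫ z in Prod.snd '' L, φ z * hgt L z ^ m := by
  rw [(fubini hL (f := fun q => φ q.2) (by fun_prop)).2, set_eq (by omega) φ (by omega)]
  refine integral_congr_ae (Eventually.of_forall fun x => ?_)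
  simp only [setIntegral_const, Measure.real, hh_pow (by omega : m ≠ 0), smul_eq_mul]
  ring

/-- [P3b] -/
theorem cube_int {m p : ℕ} (hm : 1 ≤ m) {L : Set ((Fin m → ℝ) × (Fin p → ℝ))}
    (_hc : Convex ℝ L) (hL : IsCompact L) {φ : (Fin p → ℝ) → ℝ} (hφ : Continuous φ) :
    ∫ q in closure (cube L), φ q.2 = ∫ z in Prod.snd '' L, φ z * hgt L z ^ m := by
  have h := cube_comp (by omega : m ≠ 0) hL
  rw [h.isClosed.closure_eq, (fubini h (f := fun q => φ q.2) (by fun_prop)).2,
    set_eq (by omega) φ (by omega)]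
  refine integral_congr_ae (Eventually.of_forall fun x => ?_)
  simp only [setIntegral_const, Measure.real, vol_fb_cs (by omega : m ≠ 0), smul_eq_mul]
  ring

/-- [P3c] -/
theorem cube_abs {m p : ℕ} (hm : 1 ≤ m) {L : Set ((Fin m → ℝ) × (Fin p → ℝ))}
    (_hc : Convex ℝ L) (hL : IsCompact L) (i : Fin m) :
    ∫ q in closure (cube L), |q.1 i| = 1 / 4 * ∫ z in Prod.snd '' L, hgt L z ^ (m + 1) := by
  have h := cube_comp (by omega : m ≠ 0) hL
  rw [h.isClosed.closure_eq, (fubini h (f := fun q => |q.1 i|) (by fun_prop)).2,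
    set_eq' (by omega) (by omega), ← integral_const_mul]
  refine integral_congr_ae (Eventually.of_forall fun x => ?_)
  simp only [int_fb_cs]
  ring

theorem hh_int (hm : m ≠ 0) (hL : IsCompact L) (q : ℕ) (hq : q ≠ 0) :
    Integrable (fun x => hgt L x ^ q) := by
  set H := (volume (Prod.fst '' L)).toReal ^ (1 / (m : ℝ)) with hH
  have hcp : IsCompact (Prod.snd '' L) := hL.image continuous_snd
  have hme : Measurable (fun x => hgt L x ^ q) := (hh_usc hm hL).measurable.pow_const q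
  have h1 : IntegrableOn (fun x => hgt L x ^ q) (Prod.snd '' L) := by
    refine Measure.integrableOn_of_bounded (M := H ^ q) hcp.measure_lt_top.ne
      hme.aestronglyMeasurable ?_
    refine Eventually.of_forall fun x => ?_
    rw [Real.norm_of_nonneg (pow_nonneg (hh_nonneg L x) _)]
    exact pow_le_pow_left₀ (hh_nonneg L x) (hh_le hL x) _
  have h2 : (fun x => hgt L x ^ q) = (Prod.snd '' L).indicator (fun x => hgt L x ^ q) := by
    ext x
    by_cases hx : x ∈ Prod.snd '' L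
    · rw [indicator_of_mem hx]
    · rw [indicator_of_notMem hx, hh_empty hm (fun h => hx (fb_ne_iff.1 h)), zero_pow hq]
  rw [h2]
  exact (integrable_indicator_iff hcp.measurableSet).2 h1

/-- [P2'] -/
theorem int_sq_le {m p : ℕ} (hm : 1 ≤ m) {L : Set ((Fin m → ℝ) × (Fin p → ℝ))} (hL : IsCompact L)
    {i : Fin m} {c : ℝ} (hc0 : 0 ≤ c)
    (h : ∀ z : Fin p → ℝ, (∫ y in {y : Fin m → ℝ | (y, z) ∈ L}, y i ^ 2) ^ m ≤
      c * (volume {y : Fin m → ℝ | (y, z) ∈ L}).toReal ^ (m + 2)) :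
    ∫ q in L, q.1 i ^ 2 ≤ c ^ (1 / (m : ℝ)) * ∫ z in Prod.snd '' L, hgt L z ^ (m + 2) := by
  have hm' : m ≠ 0 := by omega
  obtain ⟨hi, he⟩ := fubini hL (f := fun q => q.1 i ^ 2) (by fun_prop)
  rw [he, set_eq' hm' (by omega), ← integral_const_mul]
  refine integral_mono hi ((hh_int hm' hL (m + 2) (by omega)).const_mul _) fun x => ?_
  have h1 := h x
  have h3 : (volume {y : Fin m → ℝ | (y, x) ∈ L}).toReal = hgt L x ^ m := (hh_pow hm' L x).symm
  rw [h3] at h1
  have h2 : (c ^ (1 / (m : ℝ)) * hgt L x ^ (m + 2)) ^ m = c * (hgt L x ^ m) ^ (m + 2) := by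
    rw [mul_pow, one_div, Real.rpow_inv_natCast_pow hc0 hm', ← pow_mul, ← pow_mul,
      mul_comm (m + 2) m]
  rw [← h2] at h1
  exact le_of_pow_le_pow_left₀ hm'
    (mul_nonneg (Real.rpow_nonneg hc0 _) (pow_nonneg (hh_nonneg L x) _)) h1

end Vale.Agent.P254.Refl.H582
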