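import Vale.Agent.P254.Refl.B1h422
import Vale.Agent.P254.Refl.P582
import Vale.Agent.P254.Refl.BerM

/-!
Cube symmetrization of one block in the product: the step.
-/

open MeasureTheory Set Matrix

namespace Vale.Agent.P254.Refl.H422

theorem prod_step_D {m p : ℕ} (hm : 1 ≤ m) {D : ℝ}
    (hD : cst m ^ (1 / (m : ℝ)) *
      (((m : ℝ) + 2) * ((m : ℝ) + p + 1) / (((m : ℝ) + 1) * ((m : ℝ) + p + 2))) ≤ D)
    {L : Set ((Fin m → ℝ) × (Fin p → ℝ))}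
    (hc : Convex ℝ L) (hL : IsCompact L)
    (hfib : ∀ (z : Fin p → ℝ) (i : Fin m), (∫ y in {y : Fin m → ℝ | (y, z) ∈ L}, y i ^ 2) ^ m ≤
      cst m * (volume {y : Fin m → ℝ | (y, z) ∈ L}).toReal ^ (m + 2)) :
    ∃ L' : Set ((Fin m → ℝ) × (Fin p → ℝ)), Convex ℝ L' ∧ IsCompact L' ∧
      (∀ φ : (Fin p → ℝ) → ℝ, Continuous φ → ∫ q in L', φ q.2 = ∫ q in L, φ q.2) ∧
      (∀ i : Fin m, (volume L).toReal * ∫ q in L, q.1 i ^ 2 ≤
        16 * D * (∫ q in L', |q.1 i|) ^ 2) ∧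
      (∀ i : Fin m, ∀ q ∈ L', (Function.update q.1 i (-q.1 i), q.2) ∈ L') ∧
      ∀ T : (Fin p → ℝ) → (Fin p → ℝ), Continuous T → (∀ z, T (T z) = z) →
        (∀ q ∈ L, (q.1, T q.2) ∈ L) → ∀ q ∈ L', (q.1, T q.2) ∈ L' :=
  prod_step_D_of hD hc hL (H582.hgt_conc hm hc hL) (H582.hgt_meas hL)
    (fun hφ => H582.int_snd hm hL hφ) (fun h0 h => H582.int_sq_le hm hL h0 h)
    (H582.cube_convex hm hc hL) (fun hφ => H582.cube_int hm hc hL hφ)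
    (fun i => H582.cube_abs hm hc hL i)
    (fun hP hPc _ h1 h2 h3 h4 => berwald_gen hm hP hPc h1 h2 h3 h4) hfib

end Vale.Agent.P254.Refl.H422
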