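import Vale.Agent.P254.Refl.Defs
import Vale.Agent.P254.Refl.BerM

/-!
P254/Refl, leaf B1: cube symmetrization in the product, from the leaves P1-P3, N1 (hypotheses).
-/

open MeasureTheory Set Matrix

namespace Vale.Agent.P254.Refl.H103

theorem hgt_inv {m p : ℕ} {L : Set ((Fin m → ℝ) × (Fin p → ℝ))} {T : (Fin p → ℝ) → (Fin p → ℝ)}
    (hT : ∀ z, T (T z) = z) (h : ∀ q ∈ L, (q.1, T q.2) ∈ L) (z : Fin p → ℝ) :
    hgt L (T z) = hgt L z := by
  have : {y : Fin m → ℝ | (y, T z) ∈ L} = {y : Fin m → ℝ | (y, z) ∈ L} := by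
    ext y
    constructor
    · intro hy
      have h2 : (y, T (T z)) ∈ L := h (y, T z) hy
      rw [hT] at h2
      exact h2
    · intro hy
      exact h _ hy
  simp only [hgt, this]

/-- [B1] -/
theorem prod_step_D_of {m p : ℕ} (hm : 1 ≤ m) {L : Set ((Fin m → ℝ) × (Fin p → ℝ))}
    (hc : Convex ℝ L) (hL : IsCompact L)
    {D : ℝ} (hD : cst m ^ (1 / (m : ℝ)) *
        (((m : ℝ) + 2) * ((m : ℝ) + p + 1) / (((m : ℝ) + 1) * ((m : ℝ) + p + 2))) ≤ D)
    (P1 : ConcaveOn ℝ (Prod.snd '' L) (hgt L))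
    (P1' : Measurable (hgt L) ∧ (∀ z, 0 ≤ hgt L z) ∧ ∃ C : ℝ, ∀ z, hgt L z ≤ C)
    (P2 : ∀ φ : (Fin p → ℝ) → ℝ, Continuous φ →
      ∫ q in L, φ q.2 = ∫ z in Prod.snd '' L, φ z * hgt L z ^ m)
    (P2' : ∀ (i : Fin m) (c : ℝ), 0 ≤ c →
      (∀ z : Fin p → ℝ, (∫ y in {y : Fin m → ℝ | (y, z) ∈ L}, y i ^ 2) ^ m ≤
        c * (volume {y : Fin m → ℝ | (y, z) ∈ L}).toReal ^ (m + 2)) →
      ∫ q in L, q.1 i ^ 2 ≤ c ^ (1 / (m : ℝ)) * ∫ z in Prod.snd '' L, hgt L z ^ (m + 2))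
    (P3a : Convex ℝ (cube L) ∧ IsCompact (closure (cube L)))
    (P3b : ∀ φ : (Fin p → ℝ) → ℝ, Continuous φ →
      ∫ q in closure (cube L), φ q.2 = ∫ z in Prod.snd '' L, φ z * hgt L z ^ m)
    (P3c : ∀ i : Fin m,
      ∫ q in closure (cube L), |q.1 i| = 1 / 4 * ∫ z in Prod.snd '' L, hgt L z ^ (m + 1))
    (hfib : ∀ (z : Fin p → ℝ) (i : Fin m), (∫ y in {y : Fin m → ℝ | (y, z) ∈ L}, y i ^ 2) ^ m ≤
      cst m * (volume {y : Fin m → ℝ | (y, z) ∈ L}).toReal ^ (m + 2)) :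
    ∃ L' : Set ((Fin m → ℝ) × (Fin p → ℝ)), Convex ℝ L' ∧ IsCompact L' ∧
      (∀ φ : (Fin p → ℝ) → ℝ, Continuous φ → ∫ q in L', φ q.2 = ∫ q in L, φ q.2) ∧
      (∀ i : Fin m, (volume L).toReal * ∫ q in L, q.1 i ^ 2 ≤
        16 * D * (∫ q in L', |q.1 i|) ^ 2) ∧
      (∀ i : Fin m, ∀ q ∈ L', (Function.update q.1 i (-q.1 i), q.2) ∈ L') ∧
      ∀ T : (Fin p → ℝ) → (Fin p → ℝ), Continuous T → (∀ z, T (T z) = z) →
        (∀ q ∈ L, (q.1, T q.2) ∈ L) → ∀ q ∈ L', (q.1, T q.2) ∈ L' := by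
  refine ⟨closure (cube L), P3a.1.closure, P3a.2, ?_, ?_, ?_, ?_⟩
  · intro φ hφ
    rw [P3b φ hφ, P2 φ hφ]
  · intro i
    have hcst : 0 ≤ cst m := by unfold cst; positivity
    have hV : (volume L).toReal = ∫ z in Prod.snd '' L, hgt L z ^ m := by
      have := P2 (fun _ => 1) continuous_const
      simp only [one_mul] at this
      rw [← this]
      simp [Measure.real]
    have hPc : IsCompact (Prod.snd '' L) := hL.image continuous_snd
    have hPx : Convex ℝ (Prod.snd '' L) := hc.linear_image (LinearMap.snd ℝ _ _)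
    have hB := H103.berwald_gen hm hPx hPc P1 P1'.2.1 P1'.1 P1'.2.2
    have hS := P2' i (cst m) hcst (fun z => hfib z i)
    have hI0 : 0 ≤ ∫ z in Prod.snd '' L, hgt L z ^ m :=
      integral_nonneg fun z => pow_nonneg (P1'.2.1 z) _
    have hcr : 0 ≤ cst m ^ (1 / (m : ℝ)) := Real.rpow_nonneg hcst _
    rw [P3c i, hV]
    calc (∫ z in Prod.snd '' L, hgt L z ^ m) * ∫ q in L, q.1 i ^ 2
        ≤ (∫ z in Prod.snd '' L, hgt L z ^ m) *
            (cst m ^ (1 / (m : ℝ)) * ∫ z in Prod.snd '' L, hgt L z ^ (m + 2)) :=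
          mul_le_mul_of_nonneg_left hS hI0
      _ = cst m ^ (1 / (m : ℝ)) * ((∫ z in Prod.snd '' L, hgt L z ^ (m + 2)) *
            ∫ z in Prod.snd '' L, hgt L z ^ m) := by ring
      _ ≤ cst m ^ (1 / (m : ℝ)) *
            ((((m : ℝ) + 2) * ((m : ℝ) + p + 1) / (((m : ℝ) + 1) * ((m : ℝ) + p + 2))) *
              (∫ z in Prod.snd '' L, hgt L z ^ (m + 1)) ^ 2) :=
          mul_le_mul_of_nonneg_left hB hcr
      _ = (cst m ^ (1 / (m : ℝ)) *
            (((m : ℝ) + 2) * ((m : ℝ) + p + 1) / (((m : ℝ) + 1) * ((m : ℝ) + p + 2)))) *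
              (∫ z in Prod.snd '' L, hgt L z ^ (m + 1)) ^ 2 := by ring
      _ ≤ D * (∫ z in Prod.snd '' L, hgt L z ^ (m + 1)) ^ 2 :=
          mul_le_mul_of_nonneg_right hD (sq_nonneg _)
      _ = _ := by ring
  · intro i q hq
    have hcont : Continuous (fun q : (Fin m → ℝ) × (Fin p → ℝ) =>
        (Function.update q.1 i (-q.1 i), q.2)) := by
      refine Continuous.prodMk ?_ continuous_snd
      exact continuous_fst.update i (((continuous_apply i).comp continuous_fst).neg)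
    refine map_mem_closure (f := fun q : (Fin m → ℝ) × (Fin p → ℝ) =>
        (Function.update q.1 i (-q.1 i), q.2)) hcont hq ?_
    intro q hq
    refine ⟨hq.1, fun j => ?_⟩
    by_cases hj : j = i
    · subst hj
      simp only [Function.update_self, abs_neg]
      exact hq.2 j
    · simp only [Function.update_of_ne hj]
      exact hq.2 j
  · intro T hT hTT hTL q hq
    have hcont : Continuous (fun q : (Fin m → ℝ) × (Fin p → ℝ) => (q.1, T q.2)) :=
      continuous_fst.prodMk (hT.comp continuous_snd)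
    refine map_mem_closure (f := fun q : (Fin m → ℝ) × (Fin p → ℝ) => (q.1, T q.2)) hcont hq ?_
    intro q hq
    refine ⟨?_, fun j => ?_⟩
    · obtain ⟨r, hr, hrq⟩ := hq.1
      exact ⟨(r.1, T r.2), hTL r hr, by simp only [hrq]⟩
    · simp only [hgt_inv hTT hTL]
      exact hq.2 j

end Vale.Agent.P254.Refl.H103
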