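import Vale.Agent.P254.Refl.Defs

/-!
Cube symmetrization of one block in the product: assembly of the step (conditional form).
-/

open MeasureTheory Set Matrix

namespace Vale.Agent.P254.Refl.H422

variable {m p : ℕ}

theorem cst_nonneg (n : ℕ) : 0 ≤ cst n := by
  unfold cst
  positivity

theorem hgt_inv {L : Set ((Fin m → ℝ) × (Fin p → ℝ))} {T : (Fin p → ℝ) → (Fin p → ℝ)}
    (hT : ∀ z, T (T z) = z) (hL : ∀ q ∈ L, (q.1, T q.2) ∈ L) (z : Fin p → ℝ) :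
    hgt L (T z) = hgt L z := by
  unfold hgt
  have e : {y : Fin m → ℝ | (y, T z) ∈ L} = {y | (y, z) ∈ L} := by
    ext y
    constructor
    · intro h
      have h1 := hL _ h
      simp only [hT] at h1
      exact h1
    · intro h
      exact hL _ h
  rw [e]

/-- symmetries of the closure of the cube symmetrization -/
theorem cube_symm {L : Set ((Fin m → ℝ) × (Fin p → ℝ))} (i : Fin m)
    {q : (Fin m → ℝ) × (Fin p → ℝ)} (hq : q ∈ closure (cube L)) :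
    (Function.update q.1 i (-q.1 i), q.2) ∈ closure (cube L) := by
  have hf : Continuous fun q : (Fin m → ℝ) × (Fin p → ℝ) =>
      (Function.update q.1 i (-q.1 i), q.2) := by
    refine Continuous.prodMk ?_ continuous_snd
    exact continuous_fst.update i ((continuous_apply i).comp continuous_fst).neg
  refine map_mem_closure (f := fun q : (Fin m → ℝ) × (Fin p → ℝ) =>
    (Function.update q.1 i (-q.1 i), q.2)) hf hq fun r hr => ⟨hr.1, fun j => ?_⟩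
  by_cases hj : j = i
  · subst hj
    simpa using hr.2 j
  · simpa [hj] using hr.2 j

theorem cube_T {L : Set ((Fin m → ℝ) × (Fin p → ℝ))} {T : (Fin p → ℝ) → (Fin p → ℝ)}
    (hTc : Continuous T) (hT : ∀ z, T (T z) = z) (hL : ∀ q ∈ L, (q.1, T q.2) ∈ L)
    {q : (Fin m → ℝ) × (Fin p → ℝ)} (hq : q ∈ closure (cube L)) :
    (q.1, T q.2) ∈ closure (cube L) := by
  have hf : Continuous fun q : (Fin m → ℝ) × (Fin p → ℝ) => (q.1, T q.2) :=
    continuous_fst.prodMk (hTc.comp continuous_snd)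
  refine map_mem_closure (f := fun q : (Fin m → ℝ) × (Fin p → ℝ) => (q.1, T q.2)) hf hq
    fun r hr => ⟨?_, fun j => ?_⟩
  · obtain ⟨⟨s, hs, hs2⟩, -⟩ := hr
    exact ⟨(s.1, T s.2), hL s hs, by simp only [hs2]⟩
  · have := hr.2 j
    simp only [hgt_inv hT hL]
    exact this

theorem prod_step_D_of {D : ℝ}
    (hD : cst m ^ (1 / (m : ℝ)) *
      (((m : ℝ) + 2) * ((m : ℝ) + p + 1) / (((m : ℝ) + 1) * ((m : ℝ) + p + 2))) ≤ D)
    {L : Set ((Fin m → ℝ) × (Fin p → ℝ))}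
    (hc : Convex ℝ L) (hL : IsCompact L)
    (P1 : ConcaveOn ℝ (Prod.snd '' L) (hgt L))
    (P1m : Measurable (hgt L) ∧ (∀ z, 0 ≤ hgt L z) ∧ ∃ C : ℝ, ∀ z, hgt L z ≤ C)
    (P2 : ∀ {φ : (Fin p → ℝ) → ℝ}, Continuous φ →
      ∫ q in L, φ q.2 = ∫ z in Prod.snd '' L, φ z * hgt L z ^ m)
    (P2s : ∀ {i : Fin m} {c : ℝ}, 0 ≤ c →
      (∀ z : Fin p → ℝ, (∫ y in {y : Fin m → ℝ | (y, z) ∈ L}, y i ^ 2) ^ m ≤
        c * (volume {y : Fin m → ℝ | (y, z) ∈ L}).toReal ^ (m + 2)) →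
      ∫ q in L, q.1 i ^ 2 ≤ c ^ (1 / (m : ℝ)) * ∫ z in Prod.snd '' L, hgt L z ^ (m + 2))
    (P3a : Convex ℝ (cube L) ∧ IsCompact (closure (cube L)))
    (P3b : ∀ {φ : (Fin p → ℝ) → ℝ}, Continuous φ →
      ∫ q in closure (cube L), φ q.2 = ∫ z in Prod.snd '' L, φ z * hgt L z ^ m)
    (P3c : ∀ i : Fin m, ∫ q in closure (cube L), |q.1 i| =
      1 / 4 * ∫ z in Prod.snd '' L, hgt L z ^ (m + 1))
    (P4 : ∀ {P : Set (Fin p → ℝ)}, Convex ℝ P → IsCompact P → ∀ {h : (Fin p → ℝ) → ℝ},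
      ConcaveOn ℝ P h → (∀ x, 0 ≤ h x) → Measurable h → (∃ C : ℝ, ∀ x, h x ≤ C) →
      (∫ x in P, h x ^ (m + 2)) * (∫ x in P, h x ^ m) ≤
        (((m : ℝ) + 2) * ((m : ℝ) + p + 1) / (((m : ℝ) + 1) * ((m : ℝ) + p + 2))) *
          (∫ x in P, h x ^ (m + 1)) ^ 2)
    (hfib : ∀ (z : Fin p → ℝ) (i : Fin m), (∫ y in {y : Fin m → ℝ | (y, z) ∈ L}, y i ^ 2) ^ m ≤
      cst m * (volume {y : Fin m → ℝ | (y, z) ∈ L}).toReal ^ (m + 2)) :
    ∃ L' : Set ((Fin m → ℝ) × (Fin p → ℝ)), Convex ℝ L' ∧ IsCompact L' ∧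
      (∀ φ : (Fin p → ℝ) → ℝ, Continuous φ → ∫ q in L', φ q.2 = ∫ q in L, φ q.2) ∧
      (∀ i : Fin m, (volume L).toReal * ∫ q in L, q.1 i ^ 2 ≤
        16 * D * (∫ q in L', |q.1 i|) ^ 2) ∧
      (∀ i : Fin m, ∀ q ∈ L', (Function.update q.1 i (-q.1 i), q.2) ∈ L') ∧
      ∀ T : (Fin p → ℝ) → (Fin p → ℝ), Continuous T → (∀ z, T (T z) = z) →
        (∀ q ∈ L, (q.1, T q.2) ∈ L) → ∀ q ∈ L', (q.1, T q.2) ∈ L' := by
  refine ⟨closure (cube L), P3a.1.closure, P3a.2, fun φ hφ => ?_, fun i => ?_,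
    fun i q hq => cube_symm i hq, fun T hTc hT hLT q hq => cube_T hTc hT hLT hq⟩
  · rw [P3b hφ, P2 hφ]
  · have hP : Convex ℝ (Prod.snd '' L) :=
      hc.linear_image (LinearMap.snd ℝ (Fin m → ℝ) (Fin p → ℝ))
    have hPc : IsCompact (Prod.snd '' L) := hL.image continuous_snd
    obtain ⟨hme, h0, hb⟩ := P1m
    have h4 := P4 hP hPc P1 h0 hme hb
    have hV : (volume L).toReal = ∫ z in Prod.snd '' L, hgt L z ^ m := by
      have h := P2 (φ := fun _ => (1 : ℝ)) continuous_const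
      rw [setIntegral_const] at h
      simpa [Measure.real] using h
    have h2 := P2s (i := i) (cst_nonneg m) fun z => hfib z i
    have hV0 : 0 ≤ (volume L).toReal := ENNReal.toReal_nonneg
    have hc0 : 0 ≤ cst m ^ (1 / (m : ℝ)) := Real.rpow_nonneg (cst_nonneg m) _
    set A := ∫ z in Prod.snd '' L, hgt L z ^ (m + 2) with hA
    set B := ∫ z in Prod.snd '' L, hgt L z ^ m with hB
    set C := ∫ z in Prod.snd '' L, hgt L z ^ (m + 1) with hC
    rw [P3c i]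
    calc (volume L).toReal * ∫ q in L, q.1 i ^ 2
        ≤ (volume L).toReal * (cst m ^ (1 / (m : ℝ)) * A) := mul_le_mul_of_nonneg_left h2 hV0
      _ = cst m ^ (1 / (m : ℝ)) * (A * B) := by rw [hV]; ring
      _ ≤ cst m ^ (1 / (m : ℝ)) *
          ((((m : ℝ) + 2) * ((m : ℝ) + p + 1) / (((m : ℝ) + 1) * ((m : ℝ) + p + 2))) * C ^ 2) :=
        mul_le_mul_of_nonneg_left h4 hc0
      _ = cst m ^ (1 / (m : ℝ)) *
          (((m : ℝ) + 2) * ((m : ℝ) + p + 1) / (((m : ℝ) + 1) * ((m : ℝ) + p + 2))) * C ^ 2 := by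
        ring
      _ ≤ D * C ^ 2 := mul_le_mul_of_nonneg_right hD (sq_nonneg _)
      _ = 16 * D * (1 / 4 * C) ^ 2 := by ring

end Vale.Agent.P254.Refl.H422
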