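import Vale.Agent.P254.Refl.Defs

/-!
P254/Refl, leaf B2: transfer of the cube symmetrization of a block from the product to `Fin n → ℝ`.
-/

open MeasureTheory Set Matrix

namespace Vale.Agent.P254.Refl

namespace B2

/-- the splitting of the coordinates -/
noncomputable def spl {n m p : ℕ} (e : Fin m ⊕ Fin p ≃ Fin n) :
    (Fin n → ℝ) ≃ᵐ (Fin m → ℝ) × (Fin p → ℝ) :=
  (MeasurableEquiv.piCongrLeft (fun _ : Fin m ⊕ Fin p => ℝ) e.symm).trans
    (MeasurableEquiv.sumPiEquivProdPi fun _ => ℝ)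

theorem spl_mp {n m p : ℕ} (e : Fin m ⊕ Fin p ≃ Fin n) :
    MeasurePreserving (spl e) volume volume :=
  (volume_measurePreserving_piCongrLeft (fun _ : Fin m ⊕ Fin p => ℝ) e.symm).trans
    (volume_measurePreserving_sumPiEquivProdPi fun _ => ℝ)

theorem spl_apply {n m p : ℕ} (e : Fin m ⊕ Fin p ≃ Fin n) (x : Fin n → ℝ) :
    spl e x = (fun i => x (e (Sum.inl i)), fun j => x (e (Sum.inr j))) := by
  have h : ∀ b : Fin m ⊕ Fin p,
      (MeasurableEquiv.piCongrLeft (fun _ : Fin m ⊕ Fin p => ℝ) e.symm) x b = x (e b) := by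
    intro b
    have h1 := Equiv.piCongrLeft_apply_apply (fun _ : Fin m ⊕ Fin p => ℝ) e.symm x (e b)
    rw [Equiv.symm_apply_apply] at h1
    exact h1
  refine Prod.ext ?_ ?_
  · funext i; exact h (Sum.inl i)
  · funext j; exact h (Sum.inr j)

theorem spl_cmb {n m p : ℕ} (e : Fin m ⊕ Fin p ≃ Fin n) (y : Fin m → ℝ) (z : Fin p → ℝ) :
    spl e (cmb e y z) = (y, z) := by
  rw [spl_apply]
  simp [cmb]

theorem cmb_spl {n m p : ℕ} (e : Fin m ⊕ Fin p ≃ Fin n) (x : Fin n → ℝ) :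
    cmb e (spl e x).1 (spl e x).2 = x := by
  apply (spl e).injective
  rw [spl_cmb]

theorem cont_spl {n m p : ℕ} (e : Fin m ⊕ Fin p ≃ Fin n) : Continuous (spl e) := by
  have h : (spl e : (Fin n → ℝ) → (Fin m → ℝ) × (Fin p → ℝ)) =
      fun x => (fun i => x (e (Sum.inl i)), fun j => x (e (Sum.inr j))) := funext (spl_apply e)
  rw [h]
  fun_prop

theorem cont_cmb {n m p : ℕ} (e : Fin m ⊕ Fin p ≃ Fin n) :
    Continuous fun q : (Fin m → ℝ) × (Fin p → ℝ) => cmb e q.1 q.2 := by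
  refine continuous_pi fun i => ?_
  unfold cmb
  rcases e.symm i with j | j
  · exact (continuous_apply j).comp continuous_fst
  · exact (continuous_apply j).comp continuous_snd

theorem cmb_add {n m p : ℕ} (e : Fin m ⊕ Fin p ≃ Fin n) (s t : ℝ) (y y' : Fin m → ℝ)
    (z z' : Fin p → ℝ) :
    cmb e (s • y + t • y') (s • z + t • z') = s • cmb e y z + t • cmb e y' z' := by
  funext i
  simp only [cmb, Pi.add_apply, Pi.smul_apply, smul_eq_mul]
  rcases e.symm i with j | j <;> simp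

theorem spl_add {n m p : ℕ} (e : Fin m ⊕ Fin p ≃ Fin n) (s t : ℝ) (x x' : Fin n → ℝ) :
    spl e (s • x + t • x') = s • spl e x + t • spl e x' := by
  rw [spl_apply, spl_apply, spl_apply]
  rfl

theorem setInt {n m p : ℕ} (e : Fin m ⊕ Fin p ≃ Fin n) (S : Set ((Fin m → ℝ) × (Fin p → ℝ)))
    (φ : (Fin n → ℝ) → ℝ) :
    ∫ x in spl e ⁻¹' S, φ x = ∫ q in S, φ (cmb e q.1 q.2) := by
  have h := (spl_mp e).setIntegral_preimage_emb (spl e).measurableEmbedding
    (fun q => φ (cmb e q.1 q.2)) S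
  simp only [cmb_spl] at h
  exact h

theorem pre_eq {n m p : ℕ} (e : Fin m ⊕ Fin p ≃ Fin n) (K : Set (Fin n → ℝ)) :
    spl e ⁻¹' {q : (Fin m → ℝ) × (Fin p → ℝ) | cmb e q.1 q.2 ∈ K} = K := by
  ext x
  simp only [mem_preimage, mem_ofPred_eq, cmb_spl]

theorem vol_eq {n m p : ℕ} (e : Fin m ⊕ Fin p ≃ Fin n) (K : Set (Fin n → ℝ)) :
    volume {q : (Fin m → ℝ) × (Fin p → ℝ) | cmb e q.1 q.2 ∈ K} = volume K := by
  have h := (spl_mp e).measure_preimage_equiv {q : (Fin m → ℝ) × (Fin p → ℝ) | cmb e q.1 q.2 ∈ K}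
  rw [pre_eq] at h
  exact h.symm

/-- the reflection in the complementary coordinates -/
theorem rf_cont {ι : Type} [Fintype ι] (a : ι → ℝ) : Continuous (rf a) := by
  have h0 : Continuous fun x : ι → ℝ => a ⬝ᵥ x := by
    unfold dotProduct
    fun_prop
  have h : Continuous fun x : ι → ℝ => 2 * (a ⬝ᵥ x) / (a ⬝ᵥ a) :=
    (continuous_const.mul h0).div_const _
  exact continuous_id.sub (h.smul continuous_const)

theorem rf_rf {ι : Type} [Fintype ι] (a z : ι → ℝ) : rf a (rf a z) = z := by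
  unfold rf
  by_cases h : a ⬝ᵥ a = 0
  · simp [h]
  · rw [dotProduct_sub, dotProduct_smul]
    funext i
    simp only [Pi.sub_apply, Pi.smul_apply, smul_eq_mul]
    field_simp
    ring

theorem dot_cmb {n m p : ℕ} (e : Fin m ⊕ Fin p ≃ Fin n) (a : Fin n → ℝ) (y : Fin m → ℝ)
    (z : Fin p → ℝ) :
    a ⬝ᵥ cmb e y z = (fun i => a (e (Sum.inl i))) ⬝ᵥ y + (fun j => a (e (Sum.inr j))) ⬝ᵥ z := by
  unfold dotProduct cmb
  rw [← e.sum_comp, Fintype.sum_sum_type]
  simp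

theorem rf_cmb {n m p : ℕ} (e : Fin m ⊕ Fin p ≃ Fin n) (a : Fin n → ℝ)
    (ha : ∀ i : Fin m, a (e (Sum.inl i)) = 0) (y : Fin m → ℝ) (z : Fin p → ℝ) :
    rf a (cmb e y z) = cmb e y (rf (fun j => a (e (Sum.inr j))) z) := by
  have h0 : (fun i => a (e (Sum.inl i))) = 0 := funext ha
  have h1 : a = cmb e 0 (fun j => a (e (Sum.inr j))) := by
    funext i
    obtain ⟨b, rfl⟩ := e.surjective i
    rcases b with j | j
    · simp [cmb, ha]
    · simp [cmb]
  have h2 : a ⬝ᵥ cmb e y z = (fun j => a (e (Sum.inr j))) ⬝ᵥ z := by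
    rw [dot_cmb, h0, zero_dotProduct, zero_add]
  have h3 : a ⬝ᵥ a = (fun j => a (e (Sum.inr j))) ⬝ᵥ (fun j => a (e (Sum.inr j))) := by
    have h := dot_cmb e a 0 (fun j => a (e (Sum.inr j)))
    rw [← h1] at h
    rw [h]
    simp
  unfold rf
  rw [h2, h3]
  funext i
  obtain ⟨b, rfl⟩ := e.surjective i
  rcases b with j | j
  · simp [cmb, ha]
  · simp [cmb]

theorem rf_single {n m p : ℕ} (e : Fin m ⊕ Fin p ≃ Fin n) (i : Fin m) (x : Fin n → ℝ) :
    spl e (rf (Pi.single (e (Sum.inl i)) 1) x) =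
      (Function.update (spl e x).1 i (-(spl e x).1 i), (spl e x).2) := by
  have h : ∀ k, rf (Pi.single (e (Sum.inl i)) 1) x k =
      if k = e (Sum.inl i) then - x k else x k := by
    intro k
    unfold rf
    rw [single_dotProduct, single_dotProduct, Pi.single_eq_same]
    by_cases hk : k = e (Sum.inl i)
    · subst hk
      simp
      ring
    · simp [hk]
  rw [spl_apply, spl_apply]
  refine Prod.ext ?_ ?_
  · funext j
    simp only [h, Function.update_apply, EmbeddingLike.apply_eq_iff_eq, Sum.inl.injEq]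
    split_ifs with hj
    · subst hj; rfl
    · rfl
  · funext j
    simp [h]

end B2

open B2 in
/-- [B2] transfer of `prod_step` to `Fin n → ℝ` -/
theorem sym_step_of {n m p : ℕ} (hm : 1 ≤ m)
    (hprod : ∀ {L : Set ((Fin m → ℝ) × (Fin p → ℝ))} (hc : Convex ℝ L) (hL : IsCompact L)
      (hfib : ∀ (z : Fin p → ℝ) (i : Fin m),
        (∫ y in {y : Fin m → ℝ | (y, z) ∈ L}, y i ^ 2) ^ m ≤
        cst m * (volume {y : Fin m → ℝ | (y, z) ∈ L}).toReal ^ (m + 2)),
      ∃ L' : Set ((Fin m → ℝ) × (Fin p → ℝ)), Convex ℝ L' ∧ IsCompact L' ∧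
        (∀ φ : (Fin p → ℝ) → ℝ, Continuous φ → ∫ q in L', φ q.2 = ∫ q in L, φ q.2) ∧
        (∀ i : Fin m, (volume L).toReal * ∫ q in L, q.1 i ^ 2 ≤
          16 * cst (m + p) ^ (1 / ((m : ℝ) + p)) * (∫ q in L', |q.1 i|) ^ 2) ∧
        (∀ i : Fin m, ∀ q ∈ L', (Function.update q.1 i (-q.1 i), q.2) ∈ L') ∧
        ∀ T : (Fin p → ℝ) → (Fin p → ℝ), Continuous T → (∀ z, T (T z) = z) →
          (∀ q ∈ L, (q.1, T q.2) ∈ L) → ∀ q ∈ L', (q.1, T q.2) ∈ L')
    (e : Fin m ⊕ Fin p ≃ Fin n) {K : Set (Fin n → ℝ)}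
    (hc : Convex ℝ K) (hK : IsCompact K)
    (hfib : ∀ (z : Fin p → ℝ) (i : Fin m), (∫ y in {y : Fin m → ℝ | cmb e y z ∈ K}, y i ^ 2) ^ m ≤
      cst m * (volume {y : Fin m → ℝ | cmb e y z ∈ K}).toReal ^ (m + 2)) :
    ∃ K' : Set (Fin n → ℝ), Convex ℝ K' ∧ IsCompact K' ∧
      (∀ φ : (Fin n → ℝ) → ℝ, Continuous φ → (∀ y y' z, φ (cmb e y z) = φ (cmb e y' z)) →
        ∫ x in K', φ x = ∫ x in K, φ x) ∧
      (∀ i : Fin m, (volume K).toReal * ∫ x in K, x (e (Sum.inl i)) ^ 2 ≤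
        16 * cst n ^ (1 / (n : ℝ)) * (∫ x in K', |x (e (Sum.inl i))|) ^ 2) ∧
      (∀ i : Fin m, ∀ x ∈ K', rf (Pi.single (e (Sum.inl i)) 1) x ∈ K') ∧
      ∀ a : Fin n → ℝ, (∀ i : Fin m, a (e (Sum.inl i)) = 0) → (∀ x ∈ K, rf a x ∈ K) →
        ∀ x ∈ K', rf a x ∈ K' := by
  have hn : n = m + p := by
    have h := Fintype.card_congr e
    simpa using h.symm
  have hLc : Convex ℝ {q : (Fin m → ℝ) × (Fin p → ℝ) | cmb e q.1 q.2 ∈ K} := by
    intro q hq q' hq' s t hs ht hst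
    show cmb e (s • q + t • q').1 (s • q + t • q').2 ∈ K
    rw [Prod.fst_add, Prod.snd_add, Prod.smul_fst, Prod.smul_fst, Prod.smul_snd, Prod.smul_snd,
      cmb_add]
    exact hc hq hq' hs ht hst
  have hLk : IsCompact {q : (Fin m → ℝ) × (Fin p → ℝ) | cmb e q.1 q.2 ∈ K} := by
    have h : {q : (Fin m → ℝ) × (Fin p → ℝ) | cmb e q.1 q.2 ∈ K} = spl e '' K := by
      ext q
      constructor
      · intro hq
        exact ⟨cmb e q.1 q.2, hq, spl_cmb e q.1 q.2⟩
      · rintro ⟨x, hx, rfl⟩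
        show cmb e (spl e x).1 (spl e x).2 ∈ K
        rw [cmb_spl]; exact hx
    rw [h]
    exact hK.image (cont_spl e)
  obtain ⟨L', hc', hk', h1, h2, h3, h4⟩ := hprod hLc hLk hfib
  have hK'k : IsCompact (spl e ⁻¹' L') := by
    have h : spl e ⁻¹' L' = (fun q : (Fin m → ℝ) × (Fin p → ℝ) => cmb e q.1 q.2) '' L' := by
      ext x
      constructor
      · intro hx
        exact ⟨spl e x, hx, cmb_spl e x⟩
      · rintro ⟨q, hq, rfl⟩
        show spl e (cmb e q.1 q.2) ∈ L'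
        rw [spl_cmb]; exact hq
    rw [h]
    exact hk'.image (cont_cmb e)
  refine ⟨spl e ⁻¹' L', ?_, hK'k, ?_, ?_, ?_, ?_⟩
  · intro x hx x' hx' s t hs ht hst
    show spl e (s • x + t • x') ∈ L'
    rw [spl_add]
    exact hc' hx hx' hs ht hst
  · intro φ hφ hφi
    have hc0 : Continuous fun z : Fin p → ℝ => φ (cmb e 0 z) :=
      hφ.comp ((cont_cmb e).comp (Continuous.prodMk continuous_const continuous_id))
    have h := h1 (fun z => φ (cmb e 0 z)) hc0
    have hA : ∫ x in spl e ⁻¹' L', φ x = ∫ q in L', φ (cmb e 0 q.2) := by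
      rw [setInt]
      exact integral_congr_ae (Filter.Eventually.of_forall fun q => hφi q.1 0 q.2)
    have hB : ∫ x in K, φ x =
        ∫ q in {q : (Fin m → ℝ) × (Fin p → ℝ) | cmb e q.1 q.2 ∈ K}, φ (cmb e 0 q.2) := by
      conv_lhs => rw [← pre_eq e K]
      rw [setInt]
      exact integral_congr_ae (Filter.Eventually.of_forall fun q => hφi q.1 0 q.2)
    rw [hA, hB]
    exact h
  · intro i
    have h := h2 i
    rw [vol_eq] at h
    have hA : ∫ x in spl e ⁻¹' L', |x (e (Sum.inl i))| = ∫ q in L', |q.1 i| := by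
      rw [setInt]
      exact integral_congr_ae (Filter.Eventually.of_forall fun q => by simp [cmb])
    have hB : ∫ x in K, x (e (Sum.inl i)) ^ 2 =
        ∫ q in {q : (Fin m → ℝ) × (Fin p → ℝ) | cmb e q.1 q.2 ∈ K}, q.1 i ^ 2 := by
      conv_lhs => rw [← pre_eq e K]
      rw [setInt]
      exact integral_congr_ae (Filter.Eventually.of_forall fun q => by simp [cmb])
    have hcst : cst (m + p) ^ (1 / ((m : ℝ) + p)) = cst n ^ (1 / (n : ℝ)) := by
      rw [hn]
      push_cast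
      rfl
    rw [hA, hB, ← hcst]
    exact h
  · intro i x hx
    show spl e (rf (Pi.single (e (Sum.inl i)) 1) x) ∈ L'
    rw [rf_single]
    exact h3 i _ hx
  · intro a ha haK x hx
    show spl e (rf a x) ∈ L'
    have h := h4 (rf fun j => a (e (Sum.inr j))) (rf_cont _) (rf_rf _) ?_ _ hx
    · rw [← cmb_spl e x, rf_cmb e a ha, spl_cmb]
      exact h
    · intro q hq
      show cmb e q.1 (rf (fun j => a (e (Sum.inr j))) q.2) ∈ K
      rw [← rf_cmb e a ha]
      exact haK _ hq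

end Vale.Agent.P254.Refl
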