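import Vale.Agent.P254.Refl.B2
import Vale.Agent.P254.Refl.B1x103

/-!
P254/Refl, leaf B2 in the form with a general constant `D`.
-/

open MeasureTheory Set Matrix

namespace Vale.Agent.P254.Refl.B2

/-- transfer to `Fin n → ℝ` with a general constant -/
theorem sym_step_gen {n m p : ℕ} {C : ℝ}
    (hprod : ∀ {L : Set ((Fin m → ℝ) × (Fin p → ℝ))} (hc : Convex ℝ L) (hL : IsCompact L)
      (hfib : ∀ (z : Fin p → ℝ) (i : Fin m),
        (∫ y in {y : Fin m → ℝ | (y, z) ∈ L}, y i ^ 2) ^ m ≤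
        cst m * (volume {y : Fin m → ℝ | (y, z) ∈ L}).toReal ^ (m + 2)),
      ∃ L' : Set ((Fin m → ℝ) × (Fin p → ℝ)), Convex ℝ L' ∧ IsCompact L' ∧
        (∀ φ : (Fin p → ℝ) → ℝ, Continuous φ → ∫ q in L', φ q.2 = ∫ q in L, φ q.2) ∧
        (∀ i : Fin m, (volume L).toReal * ∫ q in L, q.1 i ^ 2 ≤
          C * (∫ q in L', |q.1 i|) ^ 2) ∧
        (∀ i : Fin m, ∀ q ∈ L', (Function.update q.1 i (-q.1 i), q.2) ∈ L') ∧
        ∀ T : (Fin p → ℝ) → (Fin p → ℝ), Continuous T → (∀ z, T (T z) = z) →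
          (∀ q ∈ L, (q.1, T q.2) ∈ L) → ∀ q ∈ L', (q.1, T q.2) ∈ L')
    (e : Fin m ⊕ Fin p ≃ Fin n) {K : Set (Fin n → ℝ)}
    (hc : Convex ℝ K) (hK : IsCompact K)
    (hfib : ∀ (z : Fin p → ℝ) (i : Fin m), (∫ y in {y : Fin m → ℝ | cmb e y z ∈ K}, y i ^ 2) ^ m ≤
      cst m * (volume {y : Fin m → ℝ | cmb e y z ∈ K}).toReal ^ (m + 2)) :
    ∃ K' : Set (Fin n → ℝ), Convex ℝ K' ∧ IsCompact K' ∧
      (∀ φ : (Fin n → ℝ) → ℝ, Continuous φ → (∀ y y' z, φ (cmb e y z) = φ (cmb e y' z)) →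
        ∫ x in K', φ x = ∫ x in K, φ x) ∧
      (∀ i : Fin m, (volume K).toReal * ∫ x in K, x (e (Sum.inl i)) ^ 2 ≤
        C * (∫ x in K', |x (e (Sum.inl i))|) ^ 2) ∧
      (∀ i : Fin m, ∀ x ∈ K', rf (Pi.single (e (Sum.inl i)) 1) x ∈ K') ∧
      ∀ a : Fin n → ℝ, (∀ i : Fin m, a (e (Sum.inl i)) = 0) → (∀ x ∈ K, rf a x ∈ K) →
        ∀ x ∈ K', rf a x ∈ K' := by
  have hLc : Convex ℝ {q : (Fin m → ℝ) × (Fin p → ℝ) | cmb e q.1 q.2 ∈ K} := by
    intro q hq q' hq' s t hs ht hst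
    show cmb e (s • q + t • q').1 (s • q + t • q').2 ∈ K
    rw [Prod.fst_add, Prod.snd_add, Prod.smul_fst, Prod.smul_fst, Prod.smul_snd, Prod.smul_snd,
      cmb_add]
    exact hc hq hq' hs ht hst
  have hLk : IsCompact {q : (Fin m → ℝ) × (Fin p → ℝ) | cmb e q.1 q.2 ∈ K} := by
    have h : {q : (Fin m → ℝ) × (Fin p → ℝ) | cmb e q.1 q.2 ∈ K} = spl e '' K := by
      ext q
      constructor
      · intro hq
        exact ⟨cmb e q.1 q.2, hq, spl_cmb e q.1 q.2⟩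
      · rintro ⟨x, hx, rfl⟩
        show cmb e (spl e x).1 (spl e x).2 ∈ K
        rw [cmb_spl]; exact hx
    rw [h]
    exact hK.image (cont_spl e)
  obtain ⟨L', hc', hk', h1, h2, h3, h4⟩ := hprod hLc hLk hfib
  have hK'k : IsCompact (spl e ⁻¹' L') := by
    have h : spl e ⁻¹' L' = (fun q : (Fin m → ℝ) × (Fin p → ℝ) => cmb e q.1 q.2) '' L' := by
      ext x
      constructor
      · intro hx
        exact ⟨spl e x, hx, cmb_spl e x⟩
      · rintro ⟨q, hq, rfl⟩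
        show spl e (cmb e q.1 q.2) ∈ L'
        rw [spl_cmb]; exact hq
    rw [h]
    exact hk'.image (cont_cmb e)
  refine ⟨spl e ⁻¹' L', ?_, hK'k, ?_, ?_, ?_, ?_⟩
  · intro x hx x' hx' s t hs ht hst
    show spl e (s • x + t • x') ∈ L'
    rw [spl_add]
    exact hc' hx hx' hs ht hst
  · intro φ hφ hφi
    have hc0 : Continuous fun z : Fin p → ℝ => φ (cmb e 0 z) :=
      hφ.comp ((cont_cmb e).comp (Continuous.prodMk continuous_const continuous_id))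
    have h := h1 (fun z => φ (cmb e 0 z)) hc0
    have hA : ∫ x in spl e ⁻¹' L', φ x = ∫ q in L', φ (cmb e 0 q.2) := by
      rw [setInt]
      exact integral_congr_ae (Filter.Eventually.of_forall fun q => hφi q.1 0 q.2)
    have hB : ∫ x in K, φ x =
        ∫ q in {q : (Fin m → ℝ) × (Fin p → ℝ) | cmb e q.1 q.2 ∈ K}, φ (cmb e 0 q.2) := by
      conv_lhs => rw [← pre_eq e K]
      rw [setInt]
      exact integral_congr_ae (Filter.Eventually.of_forall fun q => hφi q.1 0 q.2)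
    rw [hA, hB]
    exact h
  · intro i
    have h := h2 i
    rw [vol_eq] at h
    have hA : ∫ x in spl e ⁻¹' L', |x (e (Sum.inl i))| = ∫ q in L', |q.1 i| := by
      rw [setInt]
      exact integral_congr_ae (Filter.Eventually.of_forall fun q => by simp [cmb])
    have hB : ∫ x in K, x (e (Sum.inl i)) ^ 2 =
        ∫ q in {q : (Fin m → ℝ) × (Fin p → ℝ) | cmb e q.1 q.2 ∈ K}, q.1 i ^ 2 := by
      conv_lhs => rw [← pre_eq e K]
      rw [setInt]
      exact integral_congr_ae (Filter.Eventually.of_forall fun q => by simp [cmb])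
    rw [hA, hB]
    exact h
  · intro i x hx
    show spl e (rf (Pi.single (e (Sum.inl i)) 1) x) ∈ L'
    rw [rf_single]
    exact h3 i _ hx
  · intro a ha haK x hx
    show spl e (rf a x) ∈ L'
    have h := h4 (rf fun j => a (e (Sum.inr j))) (rf_cont _) (rf_rf _) ?_ _ hx
    · rw [← cmb_spl e x, rf_cmb e a ha, spl_cmb]
      exact h
    · intro q hq
      show cmb e q.1 (rf (fun j => a (e (Sum.inr j))) q.2) ∈ K
      rw [← rf_cmb e a ha]
      exact haK _ hq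

/-- [B2] in the form with a general constant -/
theorem sym_step_D {n m p : ℕ} (hm : 1 ≤ m) (e : Fin m ⊕ Fin p ≃ Fin n) {D : ℝ}
    (hD : cst m ^ (1 / (m : ℝ)) *
      (((m : ℝ) + 2) * ((n : ℝ) + 1) / (((m : ℝ) + 1) * ((n : ℝ) + 2))) ≤ D)
    {K : Set (Fin n → ℝ)} (hc : Convex ℝ K) (hK : IsCompact K)
    (hfib : ∀ (z : Fin p → ℝ) (i : Fin m), (∫ y in {y : Fin m → ℝ | cmb e y z ∈ K}, y i ^ 2) ^ m ≤
      cst m * (volume {y : Fin m → ℝ | cmb e y z ∈ K}).toReal ^ (m + 2)) :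
    ∃ K' : Set (Fin n → ℝ), Convex ℝ K' ∧ IsCompact K' ∧
      (∀ φ : (Fin n → ℝ) → ℝ, Continuous φ → (∀ y y' z, φ (cmb e y z) = φ (cmb e y' z)) →
        ∫ x in K', φ x = ∫ x in K, φ x) ∧
      (∀ i : Fin m, (volume K).toReal * ∫ x in K, x (e (Sum.inl i)) ^ 2 ≤
        16 * D * (∫ x in K', |x (e (Sum.inl i))|) ^ 2) ∧
      (∀ i : Fin m, ∀ x ∈ K', rf (Pi.single (e (Sum.inl i)) 1) x ∈ K') ∧
      ∀ a : Fin n → ℝ, (∀ i : Fin m, a (e (Sum.inl i)) = 0) → (∀ x ∈ K, rf a x ∈ K) →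
        ∀ x ∈ K', rf a x ∈ K' := by
  have hn : n = m + p := by
    have h := Fintype.card_congr e
    simpa using h.symm
  have hD' : cst m ^ (1 / (m : ℝ)) *
      (((m : ℝ) + 2) * ((m : ℝ) + p + 1) / (((m : ℝ) + 1) * ((m : ℝ) + p + 2))) ≤ D := by
    have h : (n : ℝ) = (m : ℝ) + p := by rw [hn]; push_cast; rfl
    rw [h] at hD
    exact hD
  exact sym_step_gen (C := 16 * D) (fun hLc hLk hf => H103.prod_step_D hm hLc hLk hD' hf) e hc hK hfib

end Vale.Agent.P254.Refl.B2
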