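import Vale.Agent.P254.Refl.Defs
import Vale.Agent.P254.Unc.FinBody

/-!
P254/Refl, C3: `UNCR` for an unconditional set.
-/

open MeasureTheory Set Matrix

namespace Vale.Agent.P254.Refl.C3h816

open Unc Unc.FB in
/-- [C3] `UNCR` for an unconditional set -/
theorem unc_abs {n : ℕ} (hn : 1 ≤ n) (hU : Unc.UNCR n) {K : Set (Fin n → ℝ)} (hc : Convex ℝ K)
    (hK : IsCompact K) (hu : Unc.Uncond K) :
    ∏ i, (∫ x in K, |x i|) ≤ ((volume K).toReal / 4 ^ n) * (volume K).toReal ^ n := by
  rcases K.eq_empty_or_nonempty with rfl | hne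
  · have : Nonempty (Fin n) := ⟨⟨0, hn⟩⟩
    rw [measure_empty, ENNReal.toReal_zero, zero_div, zero_mul]
    simp only [setIntegral_empty, Finset.prod_const, Finset.card_univ, Fintype.card_fin]
    rw [zero_pow (by omega)]
  have hfin : volume K ≠ ⊤ := hK.measure_lt_top.ne
  set P : Set (Fin n → ℝ) := K ∩ {x | ∀ i, 0 ≤ x i} with hP
  have hPc : Convex ℝ P := hc.inter orth_convex
  have hPk : IsCompact P := hK.inter_right orth_closed
  have hPd : Down P := down hc hu
  have hPne : P.Nonempty := by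
    obtain ⟨x, hx⟩ := hne
    exact ⟨fun i => |x i|, hu x hx _ fun i => abs_abs _, fun i => abs_nonneg _⟩
  have hVP : (volume K).toReal = 2 ^ n * (volume P).toReal := by
    have h := reduct_univ hu (f := fun _ => (1 : ℝ)) (integrableOn_const hfin) (fun _ _ => rfl)
    rw [setIntegral_const, setIntegral_const] at h
    simpa [Measure.real] using h
  have hAP : ∀ i, ∫ x in K, |x i| = 2 ^ n * ∫ x in P, x i := by
    intro i
    rw [reduct_univ hu (f := fun x => |x i|)
      ((by fun_prop : Continuous fun x : Fin n → ℝ => |x i|).continuousOn.integrableOn_compact hK)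
      (fun j x => refl_abs j i x)]
    congr 1
    exact setIntegral_congr_fun hPk.measurableSet fun x hx => abs_of_nonneg (hx.2 i)
  have h := hU P hPc hPk hPne hPd
  rw [Finset.prod_mul_distrib, Finset.prod_const, Finset.card_univ, Fintype.card_fin] at h
  simp_rw [hAP]
  rw [Finset.prod_mul_distrib, Finset.prod_const, Finset.card_univ, Fintype.card_fin, hVP]
  have h2 : (0 : ℝ) < 2 ^ n := by positivity
  have e4 : (4 : ℝ) ^ n = 2 ^ n * 2 ^ n := by rw [← mul_pow]; norm_num
  calc ((2 : ℝ) ^ n) ^ n * ∏ i, ∫ x in P, x i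
      = ((2 : ℝ) ^ n) ^ n / 2 ^ n * (2 ^ n * ∏ i, ∫ x in P, x i) := by field_simp
    _ ≤ ((2 : ℝ) ^ n) ^ n / 2 ^ n * (volume P).toReal ^ (n + 1) :=
        mul_le_mul_of_nonneg_left h (by positivity)
    _ = 2 ^ n * (volume P).toReal / 4 ^ n * (2 ^ n * (volume P).toReal) ^ n := by
        rw [e4, mul_pow, pow_succ]
        field_simp

end Vale.Agent.P254.Refl.C3h816
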