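import Vale.Agent.P254.Refl.E2

/-!
P254/Refl, leaf C4: the product of the second moments, from `all_blocks` (C2) and `unc_abs` (C3)
(helper618).
-/

open MeasureTheory Set Matrix

namespace Vale.Agent.P254.Refl.C4

open Refl.E2

/-- multiplication of the `n` inequalities of `all_blocks` -/
theorem prod_le_of' {n : ℕ} {K : Set (Fin n → ℝ)} (hn : 1 ≤ n) (hV : 0 < (volume K).toReal)
    {K' : Set (Fin n → ℝ)} (hv : (volume K').toReal = (volume K).toReal)
    (hp : ∏ i, (∫ x in K', |x i|) ≤ ((volume K').toReal / 4 ^ n) * (volume K').toReal ^ n)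
    (h : ∀ i, (volume K).toReal * ∫ x in K, x i ^ 2 ≤
      16 * cst n ^ (1 / (n : ℝ)) * (∫ x in K', |x i|) ^ 2) :
    ∏ i, (∫ x in K, x i ^ 2) ≤ cst n * (volume K).toReal ^ (n + 2) := by
  set D := cst n ^ (1 / (n : ℝ)) with hDd
  have hD0 : 0 < D := Real.rpow_pos_of_pos (E2.cst_pos n) _
  have hDn : D ^ n = cst n := by
    rw [hDd, one_div, Real.rpow_inv_natCast_pow (E2.cst_pos n).le (by omega)]
  set V := (volume K).toReal with hVd
  rw [hv] at hp
  have h1 : ∏ i : Fin n, (V * ∫ x in K, x i ^ 2) ≤ ∏ i : Fin n, (16 * D * (∫ x in K', |x i|) ^ 2) := by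
    refine Finset.prod_le_prod (fun i _ => ?_) (fun i _ => h i)
    exact mul_nonneg hV.le (integral_nonneg fun x => sq_nonneg _)
  rw [Finset.prod_mul_distrib, Finset.prod_mul_distrib, Finset.prod_const, Finset.prod_const,
    Finset.prod_pow, Finset.card_univ, Fintype.card_fin] at h1
  have h0 : 0 ≤ ∏ i : Fin n, (∫ x in K', |x i|) :=
    Finset.prod_nonneg fun i _ => integral_nonneg fun x => abs_nonneg _
  have h2 : (∏ i : Fin n, (∫ x in K', |x i|)) ^ 2 ≤ ((V / 4 ^ n) * V ^ n) ^ 2 :=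
    pow_le_pow_left₀ h0 hp 2
  have h3 : (16 * D) ^ n * ((V / 4 ^ n) * V ^ n) ^ 2 = D ^ n * V ^ (n + 2) * V ^ n := by
    have h4 : (16 : ℝ) ^ n = (4 ^ n) ^ 2 := by
      rw [← pow_mul, mul_comm n 2, pow_mul]; norm_num
    rw [mul_pow, h4]
    field_simp
    ring
  have h5 : V ^ n * ∏ i : Fin n, (∫ x in K, x i ^ 2) ≤ D ^ n * V ^ (n + 2) * V ^ n := by
    refine h1.trans ?_
    rw [← h3]
    exact mul_le_mul_of_nonneg_left h2 (by positivity)
  have hVn : 0 < V ^ n := pow_pos hV n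
  rw [mul_comm, hDn] at h5
  exact le_of_mul_le_mul_right h5 hVn

/-- [C4] from C2 in the form of the plan -/
theorem prod_le_of {n : ℕ} {β : Type} (hn : 1 ≤ n)
    (hC2 : ∀ {a : Fin n → Fin n → ℝ} {lab : Fin n → β} (_ : Blk a lab) {K : Set (Fin n → ℝ)}
      (_ : Convex ℝ K) (_ : IsCompact K) (_ : RInv a K),
      ∃ K' : Set (Fin n → ℝ), Convex ℝ K' ∧ IsCompact K' ∧
        (volume K').toReal = (volume K).toReal ∧ Unc.Uncond K' ∧
        ∀ i, (volume K).toReal * ∫ x in K, x i ^ 2 ≤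
          16 * cst n ^ (1 / (n : ℝ)) * (∫ x in K', |x i|) ^ 2)
    (hC3 : UncAbs) (hU : Unc.UNCR n)
    {a : Fin n → Fin n → ℝ} {lab : Fin n → β} (hB : Blk a lab) {K : Set (Fin n → ℝ)}
    (hc : Convex ℝ K) (hK : IsCompact K) (hV : 0 < (volume K).toReal) (hR : RInv a K) :
    ∏ i, (∫ x in K, x i ^ 2) ≤ cst n * (volume K).toReal ^ (n + 2) := by
  obtain ⟨K', hc', hK', hv, hu, h⟩ := hC2 hB hc hK hR
  exact prod_le_of' hn hV hv (hC3 hn hU hc' hK' hu) h

open Classical in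
theorem card_le {n : ℕ} {β : Type} (lab : Fin n → β) (b : β) :
    (Finset.univ.filter fun i => lab i = b).card ≤ n := by
  have := Finset.card_filter_le (Finset.univ : Finset (Fin n)) (fun i => lab i = b)
  simpa using this

/-- the constant of one block is at most that of the simplex -/
theorem fm_le {n m : ℕ} (hm : 1 ≤ m) (hn : m ≤ n) :
    cst m ^ (1 / (m : ℝ)) * (((m : ℝ) + 2) * ((n : ℝ) + 1) / (((m : ℝ) + 1) * ((n : ℝ) + 2))) ≤
      cst n ^ (1 / (n : ℝ)) := by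
  rcases hn.lt_or_eq with h | rfl
  · exact (fm_lt hm h).le
  · have h1 : ((m : ℝ) + 2) * ((m : ℝ) + 1) / (((m : ℝ) + 1) * ((m : ℝ) + 2)) = 1 := by
      rw [mul_comm]
      exact div_self (by positivity)
    rw [h1, mul_one]

/-- [C4], the exact statement of the plan, from `all_blocks_D` (C2) and `unc_abs` (C3) -/
theorem prod_le (hC2 : AllBlocksD) (hC3 : UncAbs) {n : ℕ} {β : Type} (hn : 1 ≤ n) (hU : Unc.UNCR n)
    (hI : ∀ m, 1 ≤ m → IrrBd m)
    {a : Fin n → Fin n → ℝ} {lab : Fin n → β} (hB : Blk a lab) {K : Set (Fin n → ℝ)}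
    (hc : Convex ℝ K) (hK : IsCompact K) (hV : 0 < (volume K).toReal) (hR : RInv a K) :
    ∏ i, (∫ x in K, x i ^ 2) ≤ cst n * (volume K).toReal ^ (n + 2) := by
  classical
  obtain ⟨K', hc', hK', hv, hu, h⟩ := hC2 hI hB hc hK hR (D := cst n ^ (1 / (n : ℝ))) (by
    rintro m hm ⟨b, hb⟩
    exact fm_le hm (by rw [← hb]; convert card_le lab b))
  exact prod_le_of' hn hV hv (hC3 hn hU hc' hK' hu) h

end Vale.Agent.P254.Refl.C4
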