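import Vale.Agent.P254.Refl.Defs

/-!
P254/Refl: [C5] the determinant of the covariance matrix in adapted coordinates, from the
statements [A2] `blk_mom` and [C4] `prod_le`.
-/

open MeasureTheory Set Matrix

namespace Vale.Agent.P254.Refl.H637

/-- positive volume of a convex body -/
theorem vol_pos {n : ℕ} {K : Set (Fin n → ℝ)} (hK : IsConvexBody K) : 0 < (volume K).toReal := by
  have h1 : 0 < volume K := lt_of_lt_of_le (isOpen_interior.measure_pos volume hK.2.2)
    (measure_mono interior_subset)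
  exact ENNReal.toReal_pos h1.ne' hK.2.1.measure_lt_top.ne

/-- the covariance matrix of a centred set with vanishing mixed second moments -/
theorem cov_diag {n : ℕ} {K : Set (Fin n → ℝ)} (h0 : ∀ i, ∫ x in K, x i = 0)
    (h1 : ∀ i j, i ≠ j → ∫ x in K, x i * x j = 0) :
    covMatrix K = Matrix.diagonal fun i => (volume K).toReal⁻¹ * ∫ x in K, x i ^ 2 := by
  have hc : ∀ i, centroid K i = 0 := fun i => by simp [centroid, h0 i]
  ext i j
  have h2 : covMatrix K i j = (volume K).toReal⁻¹ * ∫ x in K, x i * x j := by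
    simp [covMatrix, hc]
  rw [h2, Matrix.diagonal_apply]
  by_cases hij : i = j
  · subst hij
    simp [sq]
  · simp [hij, h1 i j hij]

theorem det_diag {n : ℕ} {K : Set (Fin n → ℝ)} (h0 : ∀ i, ∫ x in K, x i = 0)
    (h1 : ∀ i j, i ≠ j → ∫ x in K, x i * x j = 0) :
    (covMatrix K).det = ((volume K).toReal ^ n)⁻¹ * ∏ i, ∫ x in K, x i ^ 2 := by
  rw [cov_diag h0 h1, Matrix.det_diagonal, Finset.prod_mul_distrib]
  simp

/-- [C5] in the form: moments and the product bound as hypotheses -/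
theorem det_blk_of {n : ℕ} {K : Set (Fin n → ℝ)} (hK : IsConvexBody K)
    (h0 : ∀ i, ∫ x in K, x i = 0) (h1 : ∀ i j, i ≠ j → ∫ x in K, x i * x j = 0) {C : ℝ}
    (hp : ∏ i, (∫ x in K, x i ^ 2) ≤ C * (volume K).toReal ^ (n + 2)) :
    (covMatrix K).det ≤ C * (volume K).toReal ^ 2 := by
  have hV := vol_pos hK
  have hVn : 0 < (volume K).toReal ^ n := by positivity
  rw [det_diag h0 h1, inv_mul_le_iff₀ hVn]
  calc ∏ i, (∫ x in K, x i ^ 2) ≤ C * (volume K).toReal ^ (n + 2) := hp
    _ = (volume K).toReal ^ n * (C * (volume K).toReal ^ 2) := by rw [pow_add]; ring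

/-- strict form -/
theorem det_blk_lt_of {n : ℕ} {K : Set (Fin n → ℝ)} (hK : IsConvexBody K)
    (h0 : ∀ i, ∫ x in K, x i = 0) (h1 : ∀ i j, i ≠ j → ∫ x in K, x i * x j = 0) {C : ℝ}
    (hp : ∏ i, (∫ x in K, x i ^ 2) < C * (volume K).toReal ^ (n + 2)) :
    (covMatrix K).det < C * (volume K).toReal ^ 2 := by
  have hV := vol_pos hK
  have hVn : 0 < (volume K).toReal ^ n := by positivity
  rw [det_diag h0 h1, inv_mul_lt_iff₀ hVn]
  calc ∏ i, (∫ x in K, x i ^ 2) < C * (volume K).toReal ^ (n + 2) := hp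
    _ = (volume K).toReal ^ n * (C * (volume K).toReal ^ 2) := by rw [pow_add]; ring

end Vale.Agent.P254.Refl.H637
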