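import Vale.Agent.P254.Refl.B2h898
import Vale.Agent.P254.Refl.C1H545
import Vale.Agent.P254.Refl.C2h700
import Vale.Agent.P254.Refl.C3h816
import Vale.Agent.P254.Refl.C4
import Vale.Agent.P254.Refl.C5h637
import Vale.Agent.P254.Refl.A2

/-!
P254/Refl: the block (B)/(C) assembled. In coordinates adapted to the components of the system of
reflections, the determinant of the covariance matrix is at most `cst n * |K| ^ 2`, and it is
smaller if there are at least two components.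
-/

open MeasureTheory Set Matrix

namespace Vale.Agent.P254.Refl.BFin

variable {n : ℕ} {β : Type}

theorem symStepD : C2h700.SymStepD := by
  intro n m p hm e K hc hK hfib D hD
  exact B2h.sym_step_D hm e hc hK hD hfib

theorem fibBd : C2h700.FibBd := by
  intro n m p β hI a lab hB b e h1 h2 K hc hK hR z i
  exact C1H.fib_bd hI hB b e h1 h2 hc hK hR z i

/-- [C2] -/
theorem all_blocks_D : E2.AllBlocksD := by
  intro n β hI a lab hB K hc hK hR D hD
  classical
  refine C2h700.all_blocks_D symStepD fibBd hI hB hc hK hR fun m hm ⟨b, F, hF, hFm⟩ => ?_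
  refine hD m hm ⟨b, ?_⟩
  rw [← hFm]
  congr 1
  ext i
  simp [hF i]

/-- [C3] -/
theorem unc_abs : E2.UncAbs := by
  intro n hn hU K hc hK hu
  exact C3h816.unc_abs hn hU hc hK hu

/-- [C4] -/
theorem prod_le (hn : 1 ≤ n) (hU : Unc.UNCR n) (hI : ∀ m, 1 ≤ m → IrrBd m)
    {a : Fin n → Fin n → ℝ} {lab : Fin n → β} (hB : Blk a lab) {K : Set (Fin n → ℝ)}
    (hc : Convex ℝ K) (hK : IsCompact K) (hV : 0 < (volume K).toReal) (hR : RInv a K) :
    ∏ i, (∫ x in K, x i ^ 2) ≤ cst n * (volume K).toReal ^ (n + 2) :=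
  C4.prod_le all_blocks_D unc_abs hn hU hI hB hc hK hV hR

/-- [C4], at least two blocks -/
theorem prod_lt (hU : Unc.UNCR n) (hI : ∀ m, 1 ≤ m → IrrBd m)
    {a : Fin n → Fin n → ℝ} {lab : Fin n → β} (hB : Blk a lab) {K : Set (Fin n → ℝ)}
    (hc : Convex ℝ K) (hK : IsCompact K) (hV : 0 < (volume K).toReal) (hR : RInv a K)
    (h2 : ∃ i j, lab i ≠ lab j) :
    ∏ i, (∫ x in K, x i ^ 2) < cst n * (volume K).toReal ^ (n + 2) :=
  E2.prod_lt all_blocks_D unc_abs hU hI hB hc hK hV hR h2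

/-- [C5] -/
theorem det_blk (hn : 1 ≤ n) (hU : Unc.UNCR n) (hI : ∀ m, 1 ≤ m → IrrBd m)
    {a : Fin n → Fin n → ℝ} {lab : Fin n → β} (hB : Blk a lab) {K : Set (Fin n → ℝ)}
    (hK : IsConvexBody K) (hR : RInv a K) :
    (covMatrix K).det ≤ cst n * (volume K).toReal ^ 2 := by
  obtain ⟨h1, h2, -⟩ := A2.blk_mom hB hK.2.1 hR
  exact H637.det_blk_of hK h1 h2 (prod_le hn hU hI hB hK.1 hK.2.1 (H637.vol_pos hK) hR)

/-- [C5], at least two blocks -/
theorem det_blk_lt (hU : Unc.UNCR n) (hI : ∀ m, 1 ≤ m → IrrBd m)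
    {a : Fin n → Fin n → ℝ} {lab : Fin n → β} (hB : Blk a lab) {K : Set (Fin n → ℝ)}
    (hK : IsConvexBody K) (hR : RInv a K) (h2 : ∃ i j, lab i ≠ lab j) :
    (covMatrix K).det < cst n * (volume K).toReal ^ 2 := by
  obtain ⟨h1, h3, -⟩ := A2.blk_mom hB hK.2.1 hR
  exact H637.det_blk_lt_of hK h1 h3 (prod_lt hU hI hB hK.1 hK.2.1 (H637.vol_pos hK) hR h2)

end Vale.Agent.P254.Refl.BFin
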