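import Vale.Agent.P254.Unc.BerH

/-!
P254, reflection symmetries: Berwald's inequality for the powers `m, m+1, m+2` of a concave
function on a convex set of dimension `d` (helper462).
-/

open MeasureTheory Set
open scoped ENNReal

namespace Vale.Agent.P254.Refl.H462

section Fin

variable {ι : Type*} [Fintype ι]

theorem mp_comp (e : ι ≃ Fin (Fintype.card ι)) :
    MeasurePreserving (fun y : Fin (Fintype.card ι) → ℝ => fun i => y (e i)) := by
  have h := volume_measurePreserving_piCongrLeft (fun _ : ι => ℝ) e.symm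
  have e1 : (MeasurableEquiv.piCongrLeft (fun _ : ι => ℝ) e.symm : (Fin (Fintype.card ι) → ℝ) → ι → ℝ)
      = fun y i => y (e i) := by
    ext y i
    have := MeasurableEquiv.piCongrLeft_apply_apply (β := fun _ : ι => ℝ) e.symm y (e i)
    simpa using this
  rw [e1] at h
  exact h

/-- Berwald's inequality for a coordinate, any finite index type. -/
theorem berwald_fin {K : Set (ι → ℝ)} (hK : Convex ℝ K) (hc : IsCompact K) (k : ι)
    (hk : ∀ x ∈ K, 0 ≤ x k) :
    ((Fintype.card ι : ℝ) + 2) * (volume.real K * ∫ x in K, x k ^ 2) ≤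
      2 * ((Fintype.card ι : ℝ) + 1) * (∫ x in K, x k) ^ 2 := by
  classical
  rcases eq_or_lt_of_le (measureReal_nonneg (μ := volume) (s := K)) with h0 | hv
  · rw [← h0, zero_mul, mul_zero]
    positivity
  obtain ⟨e⟩ : Nonempty (ι ≃ Fin (Fintype.card ι)) := ⟨Fintype.equivFin ι⟩
  have hmp := mp_comp e
  have hmeq : MeasurableEmbedding (fun y : Fin (Fintype.card ι) → ℝ => fun i => y (e i)) := by
    have e1 : (MeasurableEquiv.piCongrLeft (fun _ : ι => ℝ) e.symm :
        (Fin (Fintype.card ι) → ℝ) → ι → ℝ) = fun y i => y (e i) := by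
      ext y i
      have := MeasurableEquiv.piCongrLeft_apply_apply (β := fun _ : ι => ℝ) e.symm y (e i)
      simpa using this
    rw [← e1]
    exact MeasurableEquiv.measurableEmbedding _
  set Φ : (Fin (Fintype.card ι) → ℝ) → ι → ℝ := fun y i => y (e i) with hΦ
  have hΦc : Continuous Φ := by fun_prop
  obtain ⟨d, hd⟩ : ∃ d, Fintype.card ι = d + 1 :=
    ⟨Fintype.card ι - 1, by have := Fintype.card_pos_iff.2 ⟨k⟩; omega⟩
  have key : ∀ (N : ℕ) (f : ι ≃ Fin N) (Ψ : (Fin N → ℝ) → ι → ℝ) (_ : Ψ = fun y i => y (f i))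
      (_ : MeasurePreserving Ψ) (_ : MeasurableEmbedding Ψ) (_ : N = d + 1),
      ((N : ℝ) + 2) * (volume.real K * ∫ x in K, x k ^ 2) ≤
      2 * ((N : ℝ) + 1) * (∫ x in K, x k) ^ 2 := by
    intro N f Ψ hΨ hm he hN
    subst hN
    have hc' : IsCompact (Ψ ⁻¹' K) := by
      have : Ψ ⁻¹' K = (fun (x : ι → ℝ) (j : Fin (d + 1)) => x (f.symm j)) '' K := by
        ext y
        simp only [mem_preimage, mem_image, hΨ]
        constructor
        · intro hy
          exact ⟨_, hy, by ext j; simp⟩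
        · rintro ⟨x, hx, rfl⟩
          simpa using hx
      rw [this]
      exact hc.image (by fun_prop)
    have hK' : Convex ℝ (Ψ ⁻¹' K) := by
      intro x hx y hy a b ha hb hab
      have := hK hx hy ha hb hab
      simp only [mem_preimage, hΨ] at this ⊢
      exact this
    have hvol : volume.real (Ψ ⁻¹' K) = volume.real K := by
      unfold Measure.real
      rw [hm.measure_preimage hc.measurableSet.nullMeasurableSet]
    have hint : ∀ g : (ι → ℝ) → ℝ, ∫ y in Ψ ⁻¹' K, g (Ψ y) = ∫ x in K, g x := fun g =>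
      hm.setIntegral_preimage_emb he g K
    have h := Unc.BerH.berwald hK' hc' (f k)
      (fun y hy => by
        have := hk _ hy
        simpa [hΨ] using this) (by rw [hvol]; exact hv)
    have h1 := hint fun x => x k
    have h2 := hint fun x => x k ^ 2
    simp only [hΨ] at h1 h2
    rw [hvol] at h
    simp only [hΨ] at h
    rw [h1, h2] at h
    push_cast
    linarith
  exact key _ e Φ rfl hmp hmeq hd

end Fin

section Beta

theorem beta0 (H : ℝ) (m : ℕ) : ∫ t in (0 : ℝ)..H, t ^ 0 * (H - t) ^ m = H ^ (m + 1) / (m + 1) := by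
  have := intervalIntegral.integral_comp_sub_left (a := 0) (b := H) (fun u : ℝ => u ^ m) H
  simp only [sub_self, sub_zero] at this
  simp only [pow_zero, one_mul]
  rw [this, integral_pow]
  simp

theorem beta1 (H : ℝ) (m : ℕ) : ∫ t in (0 : ℝ)..H, t ^ 1 * (H - t) ^ m =
    H ^ (m + 2) / ((m + 1) * (m + 2)) := by
  have := intervalIntegral.integral_comp_sub_left (a := 0) (b := H)
    (fun u : ℝ => (H - u) ^ 1 * u ^ m) H
  simp only [sub_self, sub_zero, sub_sub_cancel] at this
  rw [this]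
  have e : ∀ u : ℝ, (H - u) ^ 1 * u ^ m = H * u ^ m - u ^ (m + 1) := fun u => by ring
  simp only [e]
  rw [intervalIntegral.integral_sub (Continuous.intervalIntegrable (by fun_prop) _ _)
    (Continuous.intervalIntegrable (by fun_prop) _ _), intervalIntegral.integral_const_mul,
    integral_pow, integral_pow]
  have h1 : (m : ℝ) + 1 ≠ 0 := by positivity
  have h2 : (m : ℝ) + 2 ≠ 0 := by positivity
  have h3 : (m : ℝ) + 1 + 1 ≠ 0 := by positivity
  push_cast
  field_simp
  ring_nf

theorem beta2 (H : ℝ) (m : ℕ) : ∫ t in (0 : ℝ)..H, t ^ 2 * (H - t) ^ m =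
    2 * H ^ (m + 3) / ((m + 1) * (m + 2) * (m + 3)) := by
  have := intervalIntegral.integral_comp_sub_left (a := 0) (b := H)
    (fun u : ℝ => (H - u) ^ 2 * u ^ m) H
  simp only [sub_self, sub_zero, sub_sub_cancel] at this
  rw [this]
  have e : ∀ u : ℝ, (H - u) ^ 2 * u ^ m = H ^ 2 * u ^ m - 2 * H * u ^ (m + 1) + u ^ (m + 2) :=
    fun u => by ring
  simp only [e]
  rw [intervalIntegral.integral_add (Continuous.intervalIntegrable (by fun_prop) _ _)
      (Continuous.intervalIntegrable (by fun_prop) _ _),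
    intervalIntegral.integral_sub (Continuous.intervalIntegrable (by fun_prop) _ _)
      (Continuous.intervalIntegrable (by fun_prop) _ _),
    intervalIntegral.integral_const_mul, intervalIntegral.integral_const_mul, integral_pow,
    integral_pow, integral_pow]
  have h1 : (m : ℝ) + 1 ≠ 0 := by positivity
  have h2 : (m : ℝ) + 2 ≠ 0 := by positivity
  have h3 : (m : ℝ) + 1 + 1 ≠ 0 := by positivity
  have h4 : (m : ℝ) + 3 ≠ 0 := by positivity
  have h5 : (m : ℝ) + 2 + 1 ≠ 0 := by positivity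
  push_cast
  field_simp
  ring_nf

/-- the fibre: `0 ≤ y₀ ≤ H`, `0 ≤ y_j ≤ H - y₀` -/
def fibT (m : ℕ) (H : ℝ) : Set (Fin (m + 1) → ℝ) :=
  {y | 0 ≤ y 0 ∧ y 0 ≤ H ∧ ∀ j : Fin m, 0 ≤ y j.succ ∧ y j.succ + y 0 ≤ H}

theorem fibT_int (m k : ℕ) {H : ℝ} (hH : 0 ≤ H) :
    ∫ y in fibT m H, y 0 ^ k = ∫ t in (0 : ℝ)..H, t ^ k * (H - t) ^ m := by
  have hcl : IsClosed (fibT m H) := by
    have : fibT m H = {y | 0 ≤ y 0} ∩ {y | y 0 ≤ H} ∩
        ⋂ j : Fin m, ({y | 0 ≤ y j.succ} ∩ {y | y j.succ + y 0 ≤ H}) := by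
      ext y; simp [fibT, and_assoc]
    rw [this]
    refine IsClosed.inter (IsClosed.inter (isClosed_le (by fun_prop) (by fun_prop))
      (isClosed_le (by fun_prop) (by fun_prop))) (isClosed_iInter fun j => IsClosed.inter
      (isClosed_le (by fun_prop) (by fun_prop)) (isClosed_le (by fun_prop) (by fun_prop)))
  have hbd : Bornology.IsBounded (fibT m H) := by
    rw [isBounded_iff_forall_norm_le]
    refine ⟨H, fun y hy => ?_⟩
    rw [pi_norm_le_iff_of_nonneg hH]
    intro i
    rw [Real.norm_eq_abs, abs_le]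
    refine Fin.cases ?_ (fun j => ?_) i
    · exact ⟨by linarith [hy.1], hy.2.1⟩
    · exact ⟨by linarith [(hy.2.2 j).1], by linarith [(hy.2.2 j).2, hy.1]⟩
  have hcp : IsCompact (fibT m H) := Metric.isCompact_of_isClosed_isBounded hcl hbd
  have hmp := (volume_preserving_piFinSuccAbove (fun _ : Fin (m + 1) => ℝ) 0)
  have hint : Integrable ((fibT m H).indicator fun y => y 0 ^ k) :=
    (integrable_indicator_iff hcl.measurableSet).2
      (ContinuousOn.integrableOn_compact hcp (by fun_prop))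
  have hsymm := hmp.symm
  have hint2 := (hsymm.integrable_comp_emb
    (MeasurableEquiv.piFinSuccAbove (fun _ : Fin (m + 1) => ℝ) 0).symm.measurableEmbedding).2 hint
  rw [← integral_indicator hcl.measurableSet,
    ← hsymm.integral_comp (MeasurableEquiv.measurableEmbedding _)]
  rw [Measure.volume_eq_prod] at hint2 ⊢
  rw [Function.comp_def] at hint2
  rw [integral_prod _ hint2, intervalIntegral.integral_of_le hH, ← integral_Icc_eq_integral_Ioc,
    ← integral_indicator measurableSet_Icc]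
  refine integral_congr_ae (Filter.Eventually.of_forall fun t => ?_)
  simp only [MeasurableEquiv.piFinSuccAbove_symm_apply]
  by_cases ht : t ∈ Icc 0 H
  · rw [indicator_of_mem ht]
    have e1 : ∀ z : Fin m → ℝ, (fibT m H).indicator (fun y => y 0 ^ k)
        (Fin.insertNthEquiv (fun _ => ℝ) 0 (t, z)) =
        (Icc (0 : Fin m → ℝ) (fun _ => H - t)).indicator (fun _ => t ^ k) z := by
      intro z
      by_cases hz : z ∈ Icc (0 : Fin m → ℝ) (fun _ => H - t)
      · rw [indicator_of_mem hz, indicator_of_mem]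
        · simp
        · refine ⟨by simpa using ht.1, by simpa using ht.2, fun j => ?_⟩
          have h1 := hz.1 j
          have h2 := hz.2 j
          simp at h1 h2 ⊢
          exact ⟨h1, by linarith⟩
      · rw [indicator_of_notMem hz, indicator_of_notMem]
        intro hmem
        apply hz
        constructor
        · intro j
          have := (hmem.2.2 j).1
          simpa using this
        · intro j
          have := (hmem.2.2 j).2
          simp at this ⊢
          linarith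
    have e2 : ∫ z : Fin m → ℝ, (fibT m H).indicator (fun y => y 0 ^ k)
        (Fin.insertNthEquiv (fun _ => ℝ) 0 (t, z)) =
        ∫ z, (Icc (0 : Fin m → ℝ) (fun _ => H - t)).indicator (fun _ => t ^ k) z :=
      integral_congr_ae (Filter.Eventually.of_forall e1)
    refine e2.trans ?_
    rw [integral_indicator measurableSet_Icc, setIntegral_const, Measure.real,
      Real.volume_Icc_pi_toReal (fun j => by simpa using ht.2)]
    simp [mul_comm]
  · rw [indicator_of_notMem ht]
    refine integral_eq_zero_of_ae (Filter.Eventually.of_forall fun z => ?_)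
    refine indicator_of_notMem ?_ _
    intro hmem
    apply ht
    exact ⟨by simpa using hmem.1, by simpa using hmem.2.1⟩

end Beta

section Main

variable {κ : Type*} [Fintype κ]

/-- the body over `P` with the fibres `fibT m (h x)` -/
def body (m : ℕ) (P : Set (κ → ℝ)) (h : (κ → ℝ) → ℝ) : Set (Fin (m + 1) ⊕ κ → ℝ) :=
  {w | (fun i => w (Sum.inr i)) ∈ P ∧
    (fun j => w (Sum.inl j)) ∈ fibT m (h fun i => w (Sum.inr i))}

variable {m : ℕ} {P : Set (κ → ℝ)} {h : (κ → ℝ) → ℝ}

omit [Fintype κ] in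
theorem body_convex (hh : ConcaveOn ℝ P h) : Convex ℝ (body m P h) := by
  intro w hw v hv a b ha hb hab
  have hc := hh.2 hw.1 hv.1 ha hb hab
  have hP := hh.1 hw.1 hv.1 ha hb hab
  have e : (fun i => (a • w + b • v) (Sum.inr i)) =
      a • (fun i => w (Sum.inr i)) + b • (fun i => v (Sum.inr i)) := by
    ext i; simp
  simp only [smul_eq_mul] at hc
  obtain ⟨hw1, hw2, hw3, hw4⟩ := hw
  obtain ⟨hv1, hv2, hv3, hv4⟩ := hv
  simp only at hw2 hw3 hw4 hv2 hv3 hv4
  refine ⟨by rw [e]; exact hP, ?_, ?_, fun j => ⟨?_, ?_⟩⟩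
  · simp only [Pi.add_apply, Pi.smul_apply, smul_eq_mul]
    positivity
  · rw [e]
    simp only [Pi.add_apply, Pi.smul_apply, smul_eq_mul]
    nlinarith [mul_le_mul_of_nonneg_left hw3 ha, mul_le_mul_of_nonneg_left hv3 hb]
  · simp only [Pi.add_apply, Pi.smul_apply, smul_eq_mul]
    have h1 := (hw4 j).1
    have h2 := (hv4 j).1
    positivity
  · rw [e]
    simp only [Pi.add_apply, Pi.smul_apply, smul_eq_mul]
    nlinarith [mul_le_mul_of_nonneg_left (hw4 j).2 ha, mul_le_mul_of_nonneg_left (hv4 j).2 hb]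

theorem body_compact (hPc : IsCompact P)
    (hcl : IsClosed {p : (κ → ℝ) × ℝ | p.1 ∈ P ∧ 0 ≤ p.2 ∧ p.2 ≤ h p.1})
    {R : ℝ} (hR : ∀ x ∈ P, h x ≤ R) : IsCompact (body m P h) := by
  have hclosed : IsClosed (body m P h) := by
    have e : body m P h =
        ((fun w : Fin (m + 1) ⊕ κ → ℝ => ((fun i => w (Sum.inr i), w (Sum.inl 0)) : (κ → ℝ) × ℝ)) ⁻¹'
          {p : (κ → ℝ) × ℝ | p.1 ∈ P ∧ 0 ≤ p.2 ∧ p.2 ≤ h p.1}) ∩
        ⋂ j : Fin m, ({w | 0 ≤ w (Sum.inl j.succ)} ∩
          ((fun w : Fin (m + 1) ⊕ κ → ℝ =>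
            ((fun i => w (Sum.inr i), w (Sum.inl j.succ) + w (Sum.inl 0)) : (κ → ℝ) × ℝ)) ⁻¹'
          {p : (κ → ℝ) × ℝ | p.1 ∈ P ∧ 0 ≤ p.2 ∧ p.2 ≤ h p.1})) := by
      ext w
      simp only [body, fibT, mem_ofPred_eq, mem_inter_iff, mem_preimage, mem_iInter]
      constructor
      · rintro ⟨h1, h2, h3, h4⟩
        exact ⟨⟨h1, h2, h3⟩, fun j => ⟨(h4 j).1, h1, add_nonneg (h4 j).1 h2, (h4 j).2⟩⟩
      · rintro ⟨⟨h1, h2, h3⟩, h4⟩
        exact ⟨h1, h2, h3, fun j => ⟨(h4 j).1, (h4 j).2.2.2⟩⟩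
    rw [e]
    refine IsClosed.inter (hcl.preimage (by fun_prop)) (isClosed_iInter fun j => IsClosed.inter
      (isClosed_le (by fun_prop) (by fun_prop)) (hcl.preimage (by fun_prop)))
  obtain ⟨C, hC⟩ := isBounded_iff_forall_norm_le.1 hPc.isBounded
  refine Metric.isCompact_of_isClosed_isBounded hclosed (isBounded_iff_forall_norm_le.2
    ⟨max 0 (max C R), fun w hw => ?_⟩)
  rw [pi_norm_le_iff_of_nonneg (le_max_left _ _)]
  obtain ⟨h1, h2, h3, h4⟩ := hw
  simp only at h2 h3 h4
  have hr := hR _ h1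
  have hRm : R ≤ max 0 (max C R) := (le_max_right _ _).trans (le_max_right _ _)
  rintro (j | i)
  · rw [Real.norm_eq_abs, abs_le]
    refine Fin.cases ?_ (fun j => ?_) j
    · exact ⟨by linarith [le_max_left 0 (max C R)], by linarith⟩
    · exact ⟨by linarith [le_max_left 0 (max C R), (h4 j).1], by linarith [(h4 j).2]⟩
  · have := (norm_le_pi_norm (fun i => w (Sum.inr i)) i).trans (hC _ h1)
    exact this.trans ((le_max_left _ _).trans (le_max_right _ _))

theorem body_int (hPc : IsCompact P) (h0 : ∀ x ∈ P, 0 ≤ h x)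
    (hcl : IsClosed {p : (κ → ℝ) × ℝ | p.1 ∈ P ∧ 0 ≤ p.2 ∧ p.2 ≤ h p.1})
    {R : ℝ} (hR : ∀ x ∈ P, h x ≤ R) (k : ℕ) :
    ∫ w in body m P h, w (Sum.inl 0) ^ k =
      ∫ x in P, ∫ t in (0 : ℝ)..h x, t ^ k * (h x - t) ^ m := by
  have hcp : IsCompact (body m P h) := body_compact hPc hcl hR
  have hmp := volume_measurePreserving_sumPiEquivProdPi_symm (fun _ : Fin (m + 1) ⊕ κ => ℝ)
  have hint : Integrable ((body m P h).indicator fun w => w (Sum.inl 0) ^ k) :=
    (integrable_indicator_iff hcp.measurableSet).2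
      (ContinuousOn.integrableOn_compact hcp (by fun_prop))
  have hint2 := (hmp.integrable_comp_emb (MeasurableEquiv.measurableEmbedding _)).2 hint
  rw [← integral_indicator hcp.measurableSet,
    ← hmp.integral_comp (MeasurableEquiv.measurableEmbedding _)]
  rw [Measure.volume_eq_prod] at hint2 ⊢
  rw [Function.comp_def] at hint2
  rw [integral_prod_symm _ hint2, ← integral_indicator hPc.measurableSet]
  refine integral_congr_ae (Filter.Eventually.of_forall fun x => ?_)
  simp only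
  by_cases hx : x ∈ P
  · rw [indicator_of_mem hx, ← fibT_int m k (h0 x hx), ← integral_indicator]
    · refine integral_congr_ae (Filter.Eventually.of_forall fun y => ?_)
      simp only
      by_cases hy : y ∈ fibT m (h x)
      · rw [indicator_of_mem hy, indicator_of_mem]
        · rfl
        · exact ⟨hx, hy⟩
      · rw [indicator_of_notMem hy, indicator_of_notMem]
        intro hmem
        exact hy hmem.2
    · have : fibT m (h x) = {y | 0 ≤ y 0} ∩ {y | y 0 ≤ h x} ∩
          ⋂ j : Fin m, ({y | 0 ≤ y j.succ} ∩ {y | y j.succ + y 0 ≤ h x}) := by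
        ext y; simp [fibT, and_assoc]
      rw [this]
      refine IsClosed.measurableSet (IsClosed.inter (IsClosed.inter
        (isClosed_le (by fun_prop) (by fun_prop)) (isClosed_le (by fun_prop) (by fun_prop)))
        (isClosed_iInter fun j => IsClosed.inter
        (isClosed_le (by fun_prop) (by fun_prop)) (isClosed_le (by fun_prop) (by fun_prop))))
  · rw [indicator_of_notMem hx]
    refine integral_eq_zero_of_ae (Filter.Eventually.of_forall fun y => ?_)
    exact indicator_of_notMem (fun hmem => hx hmem.1) _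

/-- Berwald's inequality for the powers `m, m+1, m+2` of a concave function on a convex set of
dimension `d`. -/
theorem berwald_h (m : ℕ) (hm : 0 < m) (hPc : IsCompact P) (hh : ConcaveOn ℝ P h)
    (h0 : ∀ x ∈ P, 0 ≤ h x)
    (hcl : IsClosed {p : (κ → ℝ) × ℝ | p.1 ∈ P ∧ 0 ≤ p.2 ∧ p.2 ≤ h p.1})
    {R : ℝ} (hR : ∀ x ∈ P, h x ≤ R) :
    ((m : ℝ) + Fintype.card κ + 2) * (m + 1) * ((∫ x in P, h x ^ m) * ∫ x in P, h x ^ (m + 2)) ≤
      ((m : ℝ) + Fintype.card κ + 1) * (m + 2) * (∫ x in P, h x ^ (m + 1)) ^ 2 := by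
  obtain ⟨m, rfl⟩ : ∃ m', m = m' + 1 := ⟨m - 1, by omega⟩
  have hb := berwald_fin (body_convex (m := m) hh) (body_compact hPc hcl hR) (Sum.inl 0)
    (fun w hw => hw.2.1)
  have i0 := body_int (m := m) hPc h0 hcl hR 0
  have i1 := body_int (m := m) hPc h0 hcl hR 1
  have i2 := body_int (m := m) hPc h0 hcl hR 2
  simp only [beta0, beta1, beta2] at i0 i1 i2
  simp only [pow_zero, setIntegral_const, smul_eq_mul, mul_one, pow_one] at i0 i1
  rw [integral_div] at i0 i1 i2
  rw [integral_const_mul] at i2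
  rw [i0, i1, i2] at hb
  have hcard : (Fintype.card (Fin (m + 1) ⊕ κ) : ℝ) = m + 1 + Fintype.card κ := by simp
  rw [hcard] at hb
  set A0 := ∫ x in P, h x ^ (m + 1)
  set A1 := ∫ x in P, h x ^ (m + 2)
  set A2 := ∫ x in P, h x ^ (m + 3)
  have e0 : (fun x => h x ^ (m + 1 + 1)) = fun x => h x ^ (m + 2) := rfl
  have h1 : (0 : ℝ) < (m : ℝ) + 1 := by positivity
  have h2 : (0 : ℝ) < (m : ℝ) + 2 := by positivity
  have h3 : (0 : ℝ) < (m : ℝ) + 3 := by positivity
  have hb' := mul_le_mul_of_nonneg_left hb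
    (show (0 : ℝ) ≤ ((m : ℝ) + 1) ^ 2 * (m + 2) ^ 2 * (m + 3) / 2 by positivity)
  have eL : ((m : ℝ) + 1) ^ 2 * (m + 2) ^ 2 * (m + 3) / 2 *
      (((m : ℝ) + 1 + Fintype.card κ + 2) * (A0 / (m + 1) * (2 * A2 / ((m + 1) * (m + 2) * (m + 3)))))
      = ((m : ℝ) + 1 + Fintype.card κ + 2) * (m + 2) * (A0 * A2) := by
    field_simp
  have eR : ((m : ℝ) + 1) ^ 2 * (m + 2) ^ 2 * (m + 3) / 2 *
      (2 * ((m : ℝ) + 1 + Fintype.card κ + 1) * (A1 / ((m + 1) * (m + 2))) ^ 2)
      = ((m : ℝ) + 1 + Fintype.card κ + 1) * (m + 3) * A1 ^ 2 := by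
    field_simp
  rw [eL, eR] at hb'
  push_cast
  have e3 : (m : ℝ) + 1 + 1 = m + 2 := by ring
  have e4 : (m : ℝ) + 1 + 2 = m + 3 := by ring
  rw [e3, e4]
  exact hb'

end Main

end Vale.Agent.P254.Refl.H462
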