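import Vale.Agent.P254.Unc.BerH

/-!
# P254, REFL: Berwald's inequality with general exponents

For a bounded measurable concave `h ≥ 0` on a measurable set `D` of dimension `d` (finite measure):
`(m+1) (d+m+2) (∫_D h^m) (∫_D h^(m+2)) ≤ (m+2) (d+m+1) (∫_D h^(m+1))²`.
-/

open MeasureTheory Set
open scoped ENNReal Pointwise

namespace Vale.Agent.P254.Refl.Ber467

open Unc.BerH

variable {d : ℕ}

/-- recurrence of the beta integrals -/
theorem beta_succ (d j : ℕ) :
    ((d : ℝ) + j + 2) * ∫ u in (0 : ℝ)..1, (1 - u) ^ (j + 1) * u ^ d =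
      ((j : ℝ) + 1) * ∫ u in (0 : ℝ)..1, (1 - u) ^ j * u ^ d := by
  have hd : ∀ u : ℝ, HasDerivAt (fun u : ℝ => (1 - u) ^ (j + 1) * u ^ (d + 1))
      (-((j : ℝ) + 1) * (1 - u) ^ j * u ^ (d + 1) + (1 - u) ^ (j + 1) * (((d : ℝ) + 1) * u ^ d)) u := by
    intro u
    have h1 : HasDerivAt (fun u : ℝ => (1 - u) ^ (j + 1)) (((j : ℝ) + 1) * (1 - u) ^ j * (-1)) u := by
      have := ((hasDerivAt_id' u).const_sub 1).fun_pow (j + 1)
      simpa using this
    have h2 : HasDerivAt (fun u : ℝ => u ^ (d + 1)) (((d : ℝ) + 1) * u ^ d) u := by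
      have := (hasDerivAt_id' u).fun_pow (d + 1)
      simpa using this
    have := h1.fun_mul h2
    refine this.congr_deriv ?_
    ring
  have hint := intervalIntegral.integral_eq_sub_of_hasDerivAt (a := 0) (b := 1)
    (fun u _ => hd u) (Continuous.intervalIntegrable (by fun_prop) _ _)
  have h0 : (fun u : ℝ => (1 - u) ^ (j + 1) * u ^ (d + 1)) 1 -
      (fun u : ℝ => (1 - u) ^ (j + 1) * u ^ (d + 1)) 0 = 0 := by simp
  rw [h0] at hint
  have e : ∀ u : ℝ, -((j : ℝ) + 1) * (1 - u) ^ j * u ^ (d + 1) +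
      (1 - u) ^ (j + 1) * (((d : ℝ) + 1) * u ^ d) =
      ((d : ℝ) + j + 2) * ((1 - u) ^ (j + 1) * u ^ d) - ((j : ℝ) + 1) * ((1 - u) ^ j * u ^ d) := by
    intro u; ring
  simp only [e] at hint
  rw [intervalIntegral.integral_sub (Continuous.intervalIntegrable (by fun_prop) _ _)
    (Continuous.intervalIntegrable (by fun_prop) _ _), intervalIntegral.integral_const_mul,
    intervalIntegral.integral_const_mul] at hint
  linarith

theorem beta_pos (d j : ℕ) : 0 < ∫ u in (0 : ℝ)..1, (1 - u) ^ j * u ^ d := by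
  induction j with
  | zero => rw [cone0]; positivity
  | succ j ih =>
    have h := beta_succ d j
    have h1 : (0 : ℝ) < ((j : ℝ) + 1) * ∫ u in (0 : ℝ)..1, (1 - u) ^ j * u ^ d := by positivity
    rw [← h] at h1
    have h2 : (0 : ℝ) < (d : ℝ) + j + 2 := by positivity
    exact (pos_iff_pos_of_mul_pos h1).1 h2

/-- Comparison lemma in one variable, weight `t ^ p`. -/
theorem berwald_wt (d p : ℕ) {F : ℝ → ℝ} {R : ℝ}
    (hF : ∀ t, t < 0 → F t = 0) (i0 : Integrable fun t => t ^ p * F t)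
    (i1 : Integrable (fun t => t ^ (p + 1) * F t))
    (i2 : Integrable (fun t => t ^ (p + 2) * F t)) (hm0 : 0 < ∫ t, t ^ p * F t)
    (hm1 : 0 < ∫ t, t ^ (p + 1) * F t)
    (hT : ∀ c b : ℝ, 0 < c → 0 < b → ∃ T : Set ℝ, T ⊆ Icc 0 R ∧ T.OrdConnected ∧
      (∀ t ∈ T, cone d c b t ≤ F t) ∧ ∀ t, 0 ≤ t → t ∉ T → F t ≤ cone d c b t) :
    (p + 1) * (d + p + 3) * (∫ t, t ^ p * F t) * ∫ t, t ^ (p + 2) * F t ≤
      (p + 2) * (d + p + 2) * (∫ t, t ^ (p + 1) * F t) ^ 2 := by
  set M0 := ∫ t, t ^ p * F t with hM0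
  set M1 := ∫ t, t ^ (p + 1) * F t with hM1
  set M2 := ∫ t, t ^ (p + 2) * F t with hM2
  set I0 := ∫ u in (0 : ℝ)..1, (1 - u) ^ p * u ^ d with hI0
  set I1 := ∫ u in (0 : ℝ)..1, (1 - u) ^ (p + 1) * u ^ d with hI1
  set I2 := ∫ u in (0 : ℝ)..1, (1 - u) ^ (p + 2) * u ^ d with hI2
  have r1 : ((d : ℝ) + p + 2) * I1 = ((p : ℝ) + 1) * I0 := beta_succ d p
  have r2 : ((d : ℝ) + p + 3) * I2 = ((p : ℝ) + 2) * I1 := by
    have := beta_succ d (p + 1)
    push_cast at this
    rw [hI1, hI2]
    linarith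
  have p0 : 0 < I0 := beta_pos d p
  have p1 : 0 < I1 := beta_pos d (p + 1)
  have p2 : 0 < I2 := beta_pos d (p + 2)
  set b := M1 * I0 / (M0 * I1) with hb
  have hbp : 0 < b := by positivity
  set c := M0 / (b ^ (p + 1) * I0) with hc
  have hcp : 0 < c := by positivity
  obtain ⟨T, hT1, hT2, hT3, hT4⟩ := hT c b hcp hbp
  have hbb : BddBelow T := ⟨0, fun t ht => (hT1 ht).1⟩
  have hba : BddAbove T := ⟨R, fun t ht => (hT1 ht).2⟩
  set α := sInf T
  set β := sSup T
  have key : ∀ t, t ^ p * ((t - α) * (t - β) * (F t - cone d c b t)) ≤ 0 := by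
    intro t
    rcases lt_or_ge t 0 with h0 | h0
    · rw [hF t h0]
      unfold cone
      rw [indicator_of_notMem (fun h => absurd h.1 (not_le.2 h0))]
      simp
    · refine mul_nonpos_of_nonneg_of_nonpos (pow_nonneg h0 p) ?_
      by_cases ht : t ∈ T
      · have h1 : α ≤ t := csInf_le hbb ht
        have h2 : t ≤ β := le_csSup hba ht
        have h3 := hT3 t ht
        have : (t - α) * (t - β) ≤ 0 := mul_nonpos_of_nonneg_of_nonpos (by linarith) (by linarith)
        exact mul_nonpos_of_nonpos_of_nonneg this (by linarith)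
      · have h3 := hT4 t h0 ht
        refine mul_nonpos_of_nonneg_of_nonpos ?_ (by linarith)
        rcases T.eq_empty_or_nonempty with hE | hE
        · have ha : α = 0 := by simp [α, hE]
          have hb' : β = 0 := by simp [β, hE]
          rw [ha, hb']
          nlinarith
        · have hab : α ≤ β := csInf_le_csSup hE hbb hba
          rcases le_or_gt t α with h | h
          · exact mul_nonneg_of_nonpos_of_nonpos (by linarith) (by linarith)
          · rcases le_or_gt β t with h' | h'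
            · exact mul_nonneg (by linarith) (by linarith)
            · obtain ⟨s, hs, hs'⟩ := exists_lt_of_csInf_lt hE h
              obtain ⟨s2, hs2, hs2'⟩ := exists_lt_of_lt_csSup hE h'
              exact absurd (hT2.out hs hs2 ⟨hs'.le, hs2'.le⟩) ht
  have hint : ∫ t, t ^ p * ((t - α) * (t - β) * (F t - cone d c b t)) ≤ 0 :=
    integral_nonpos key
  obtain ⟨j0, g0⟩ := cone_integral d p c hbp
  obtain ⟨j1, g1⟩ := cone_integral d (p + 1) c hbp
  obtain ⟨j2, g2⟩ := cone_integral d (p + 2) c hbp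
  have hexp : ∫ t, t ^ p * ((t - α) * (t - β) * (F t - cone d c b t)) =
      (M2 - ∫ t, t ^ (p + 2) * cone d c b t) - (α + β) * (M1 - ∫ t, t ^ (p + 1) * cone d c b t) +
        α * β * (M0 - ∫ t, t ^ p * cone d c b t) := by
    have e1 : ∀ t, t ^ p * ((t - α) * (t - β) * (F t - cone d c b t)) =
        (t ^ (p + 2) * F t - t ^ (p + 2) * cone d c b t) -
          (α + β) * (t ^ (p + 1) * F t - t ^ (p + 1) * cone d c b t) +
          α * β * (t ^ p * F t - t ^ p * cone d c b t) := fun t => by ring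
    simp only [e1]
    have k2 : Integrable (fun t => t ^ (p + 2) * F t - t ^ (p + 2) * cone d c b t) := i2.sub j2
    have k1 : Integrable (fun t => (α + β) * (t ^ (p + 1) * F t - t ^ (p + 1) * cone d c b t)) :=
      (i1.sub j1).const_mul _
    have k0 : Integrable (fun t => α * β * (t ^ p * F t - t ^ p * cone d c b t)) :=
      (i0.sub j0).const_mul _
    have k21 : Integrable (fun t => t ^ (p + 2) * F t - t ^ (p + 2) * cone d c b t -
      (α + β) * (t ^ (p + 1) * F t - t ^ (p + 1) * cone d c b t)) := k2.sub k1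
    rw [integral_add k21 k0, integral_sub k2 k1, integral_const_mul, integral_const_mul,
      integral_sub i2 j2, integral_sub i1 j1, integral_sub i0 j0]
  rw [hexp, g0, g1, g2] at hint
  have h0 : c * b ^ (p + 1) * I0 = M0 := by rw [hc]; field_simp
  have h1 : c * b ^ (p + 1 + 1) * I1 = M1 := by
    have : c * b ^ (p + 1 + 1) * I1 = (c * b ^ (p + 1) * I0) * (b * I1 / I0) := by
      field_simp
      ring
    rw [this, h0, hb]
    field_simp
  have h2 : M0 * (c * b ^ (p + 2 + 1) * I2) = M1 ^ 2 * (I0 * I2 / I1 ^ 2) := by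
    have : c * b ^ (p + 2 + 1) * I2 = (c * b ^ (p + 1) * I0) * (b ^ 2 * I2 / I0) := by
      field_simp
      ring
    rw [this, h0, hb]
    field_simp
  change (M2 - c * b ^ (p + 2 + 1) * I2) - (α + β) * (M1 - c * b ^ (p + 1 + 1) * I1) +
        α * β * (M0 - c * b ^ (p + 1) * I0) ≤ 0 at hint
  rw [h0, h1] at hint
  simp only [sub_self, mul_zero, sub_zero, add_zero] at hint
  have h3 : M2 ≤ c * b ^ (p + 2 + 1) * I2 := by linarith
  have h4 : ((p : ℝ) + 1) * (d + p + 3) * (I0 * I2 / I1 ^ 2) = (p + 2) * (d + p + 2) := by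
    have e1 : ((p : ℝ) + 1) * I0 * (((d : ℝ) + p + 3) * I2) =
        (((d : ℝ) + p + 2) * I1) * (((p : ℝ) + 2) * I1) := by rw [r1, r2]
    field_simp
    linear_combination e1
  calc ((p : ℝ) + 1) * (d + p + 3) * M0 * M2 ≤
      ((p : ℝ) + 1) * (d + p + 3) * M0 * (c * b ^ (p + 2 + 1) * I2) := by gcongr
    _ = ((p : ℝ) + 1) * (d + p + 3) * (M0 * (c * b ^ (p + 2 + 1) * I2)) := by ring
    _ = ((p : ℝ) + 1) * (d + p + 3) * (I0 * I2 / I1 ^ 2) * M1 ^ 2 := by rw [h2]; ring
    _ = _ := by rw [h4]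

/-- level sets of a concave family compared with cones -/
theorem family_hT {S : ℝ → Set (Fin d → ℝ)} {R : ℝ} (hmeas : ∀ t, MeasurableSet (S t))
    (hfin : ∀ t, volume (S t) ≠ ∞) (hle : ∀ t, (S t).Nonempty → t ≤ R)
    (hge : ∀ t, (S t).Nonempty → 0 ≤ t)
    (hconv : ∀ {s t l m : ℝ}, 0 ≤ l → 0 ≤ m → l + m = 1 → ∀ {x y}, x ∈ S s → y ∈ S t →
      l • x + m • y ∈ S (l * s + m * t)) (c b : ℝ) (hcp : 0 < c) (hbp : 0 < b) :
    ∃ T : Set ℝ, T ⊆ Icc 0 R ∧ T.OrdConnected ∧
      (∀ t ∈ T, cone d c b t ≤ volume.real (S t)) ∧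
      ∀ t, 0 ≤ t → t ∉ T → volume.real (S t) ≤ cone d c b t := by
  have hcone : ∀ t, 0 ≤ t → t < b → cone d c b t = c * (1 - t / b) ^ d := fun t h1 h2 => by
    unfold cone; rw [indicator_of_mem (show t ∈ Ico 0 b from ⟨h1, h2⟩)]
  have hcone' : ∀ t, b ≤ t → cone d c b t = 0 := fun t h1 => by
    unfold cone; rw [indicator_of_notMem (fun h => absurd h.2 (not_lt.2 h1))]
  have hpos : ∀ t, 0 ≤ t → t < b → 0 < 1 - t / b := fun t _ h2 => by
    rw [sub_pos, div_lt_one hbp]; exact h2
  have hmem : ∀ t, 0 ≤ t → t < b → cone d c b t ≤ volume.real (S t) →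
      ENNReal.ofReal (c * (1 - t / b) ^ d) ≤ volume (S t) := by
    intro t h1 h2 h3
    rw [hcone t h1 h2] at h3
    exact ENNReal.ofReal_le_of_le_toReal h3
  have hmem' : ∀ t, 0 ≤ t → t < b → ENNReal.ofReal (c * (1 - t / b) ^ d) ≤ volume (S t) →
      cone d c b t ≤ volume.real (S t) := by
    intro t h1 h2 h3
    rw [hcone t h1 h2]
    exact (ENNReal.ofReal_le_iff_le_toReal (hfin t)).1 h3
  have hne : ∀ t, 0 ≤ t → t < b → cone d c b t ≤ volume.real (S t) →
      (S t).Nonempty := by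
    intro t h1 h2 h3
    rw [nonempty_iff_ne_empty]
    intro h
    have := hmem t h1 h2 h3
    rw [h, measure_empty, nonpos_iff_eq_zero, ENNReal.ofReal_eq_zero] at this
    have h4 := hpos t h1 h2
    have : 0 < c * (1 - t / b) ^ d := by positivity
    linarith
  refine ⟨{t | (0 ≤ t ∧ t < b ∧ cone d c b t ≤ volume.real (S t)) ∨
    (b ≤ t ∧ (S t).Nonempty)}, ?_, ?_, ?_, ?_⟩
  · rintro t (⟨h1, h2, h3⟩ | ⟨h1, h2⟩)
    · exact ⟨h1, hle t (hne t h1 h2 h3)⟩
    · exact ⟨hbp.le.trans h1, hle t h2⟩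
  · rw [ordConnected_iff]
    intro s hs t ht _ u hu
    rcases hu.1.eq_or_lt with rfl | hsu
    · exact hs
    rcases hu.2.eq_or_lt with rfl | hut
    · exact ht
    have hst : s < t := hsu.trans hut
    have hts : 0 < t - s := sub_pos.2 hst
    set l := (t - u) / (t - s) with hl
    set m := (u - s) / (t - s) with hm
    have hl0 : 0 < l := div_pos (sub_pos.2 hut) hts
    have hm0 : 0 < m := div_pos (sub_pos.2 hsu) hts
    have hlm : l + m = 1 := by rw [hl, hm]; field_simp; ring
    have hu' : l * s + m * t = u := by rw [hl, hm]; field_simp; ring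
    have hsne : (S s).Nonempty := by
      rcases hs with ⟨h1, h2, h3⟩ | ⟨h1, h2⟩
      · exact hne s h1 h2 h3
      · exact h2
    have htne : (S t).Nonempty := by
      rcases ht with ⟨h1, h2, h3⟩ | ⟨h1, h2⟩
      · exact hne t h1 h2 h3
      · exact h2
    have hs0 : 0 ≤ s := hge s hsne
    have hu0 : 0 ≤ u := hs0.trans hsu.le
    have hune : (S u).Nonempty := by
      obtain ⟨x, hx⟩ := hsne
      obtain ⟨y, hy⟩ := htne
      exact ⟨_, hu' ▸ hconv hl0.le hm0.le hlm hx hy⟩
    rcases le_or_gt b u with hbu | hub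
    · exact Or.inr ⟨hbu, hune⟩
    refine Or.inl ⟨hu0, hub, hmem' u hu0 hub ?_⟩
    have hs3 : cone d c b s ≤ volume.real (S s) := by
      rcases hs with ⟨h1, h2, h3⟩ | ⟨h1, h2⟩
      · exact h3
      · linarith
    have hsb : s < b := hsu.trans hub
    have hS := hmem s hs0 hsb hs3
    rcases le_or_gt b t with hbt | htb
    · obtain ⟨y, hy⟩ := htne
      have := bm_point (A := S s) (C := S u) (m := m) hl0 (y := y)
        (fun x hx => hu' ▸ hconv hl0.le hm0.le hlm hx hy)
      refine le_trans ?_ this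
      refine le_trans ?_ (mul_le_mul_right hS _)
      rw [← ENNReal.ofReal_mul (by positivity)]
      apply ENNReal.ofReal_le_ofReal
      have h1 : 1 - u / b ≤ l * (1 - s / b) := by
        have e : 1 - u / b = l * (1 - s / b) + m * (1 - t / b) := by
          rw [← hu']
          have : (1 : ℝ) = l + m := hlm.symm
          field_simp
          linear_combination (b : ℝ) * this
        have h2 : m * (1 - t / b) ≤ 0 := by
          apply mul_nonpos_of_nonneg_of_nonpos hm0.le
          rw [sub_nonpos, one_le_div hbp]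
          exact hbt
        linarith
      have h2 := hpos u hu0 hub
      calc c * (1 - u / b) ^ d ≤ c * (l * (1 - s / b)) ^ d := by gcongr
        _ = _ := by rw [mul_pow]; ring
    · have ht0 : 0 ≤ t := hge t htne
      have ht3 : cone d c b t ≤ volume.real (S t) := by
        rcases ht with ⟨h1, h2, h3⟩ | ⟨h1, h2⟩
        · exact h3
        · linarith
      have := bm_scaled (hmeas s) (hmeas t) (hmeas u) (hpos s hs0 hsb) (hpos t ht0 htb) hcp hl0 hm0
        (fun x hx y hy => hu' ▸ hconv hl0.le hm0.le hlm hx hy) hS (hmem t ht0 htb ht3)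
      convert this using 4
      rw [← hu']
      have : (1 : ℝ) = l + m := hlm.symm
      field_simp
      linear_combination (b : ℝ) * this
  · rintro t (⟨h1, h2, h3⟩ | ⟨h1, h2⟩)
    · exact h3
    · rw [hcone' t h1]; exact measureReal_nonneg
  · intro t h0 ht
    rcases lt_or_ge t b with h | h
    · by_contra hcon
      exact ht (Or.inl ⟨h0, h, (not_le.1 hcon).le⟩)
    · have : S t = ∅ := by
        rw [← not_nonempty_iff_eq_empty]
        exact fun h' => ht (Or.inr ⟨h, h'⟩)
      rw [this, hcone' t h]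
      simp

section Layer

variable {E : Type*} [MeasurableSpace E] {μ : Measure E} [SFinite μ]

/-- the level set -/
def lev (D : Set E) (h : E → ℝ) (t : ℝ) : Set E := {x | x ∈ D ∧ 0 ≤ t ∧ t ≤ h x}

theorem layer {D : Set E} (hD : MeasurableSet D) (hf : μ D ≠ ∞) {h : E → ℝ} (hh : Measurable h)
    (h0 : ∀ x ∈ D, 0 ≤ h x) {R : ℝ} (hR : ∀ x ∈ D, h x ≤ R) (p : ℕ) :
    Integrable (fun t => t ^ p * μ.real (lev D h t)) ∧
      ((p : ℝ) + 1) * ∫ t, t ^ p * μ.real (lev D h t) = ∫ x in D, h x ^ (p + 1) ∂μ := by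
  set A : Set (E × ℝ) := {q | q.1 ∈ D ∧ 0 ≤ q.2 ∧ q.2 ≤ h q.1} with hA
  have hAm : MeasurableSet A := by
    refine (measurable_fst hD).inter (MeasurableSet.inter ?_ ?_)
    · exact measurableSet_le measurable_const measurable_snd
    · exact measurableSet_le measurable_snd (hh.comp measurable_fst)
  have hsub : A ⊆ D ×ˢ Icc 0 R := fun q hq => ⟨hq.1, hq.2.1, hq.2.2.trans (hR _ hq.1)⟩
  have hAf : (μ.prod volume) A ≠ ∞ := by
    refine ne_top_of_le_ne_top ?_ (measure_mono hsub)
    rw [Measure.prod_prod]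
    exact ENNReal.mul_ne_top hf (by simp)
  have hint : Integrable (A.indicator fun q => q.2 ^ p) (μ.prod volume) := by
    rw [integrable_indicator_iff hAm]
    refine Measure.integrableOn_of_bounded (M := |R| ^ p) hAf
      (measurable_snd.pow_const p).aestronglyMeasurable ?_
    refine (ae_restrict_iff' hAm).2 (Filter.Eventually.of_forall fun q hq => ?_)
    rw [norm_pow, Real.norm_eq_abs]
    have h1 : |q.2| ≤ |R| := by
      rw [abs_of_nonneg hq.2.1]
      exact (hq.2.2.trans (hR _ hq.1)).trans (le_abs_self R)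
    gcongr
  have e1 : ∀ t : ℝ, ∫ x, A.indicator (fun q => q.2 ^ p) (x, t) ∂μ = t ^ p * μ.real (lev D h t) := by
    intro t
    have hlm : MeasurableSet (lev D h t) := by
      refine hD.inter (MeasurableSet.inter ?_ ?_)
      · exact MeasurableSet.const _
      · exact measurableSet_le measurable_const hh
    have : (fun x => A.indicator (fun q : E × ℝ => q.2 ^ p) (x, t)) =
        (lev D h t).indicator fun _ => t ^ p := by
      ext x
      by_cases hx : (x, t) ∈ A
      · rw [indicator_of_mem hx, indicator_of_mem (show x ∈ lev D h t from hx)]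
      · rw [indicator_of_notMem hx, indicator_of_notMem (show x ∉ lev D h t from hx)]
    rw [this, integral_indicator_const _ hlm, smul_eq_mul, mul_comm]
  have e2 : ∀ x : E, ∫ t : ℝ, A.indicator (fun q => q.2 ^ p) (x, t) =
      D.indicator (fun x => h x ^ (p + 1) / ((p : ℝ) + 1)) x := by
    intro x
    by_cases hx : x ∈ D
    · rw [indicator_of_mem hx]
      have : (fun t => A.indicator (fun q : E × ℝ => q.2 ^ p) (x, t)) =
          (Icc 0 (h x)).indicator fun t => t ^ p := by
        ext t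
        by_cases ht : t ∈ Icc 0 (h x)
        · rw [indicator_of_mem ht, indicator_of_mem (show (x, t) ∈ A from ⟨hx, ht.1, ht.2⟩)]
        · rw [indicator_of_notMem ht,
            indicator_of_notMem (show (x, t) ∉ A from fun h' => ht ⟨h'.2.1, h'.2.2⟩)]
      rw [this, integral_indicator measurableSet_Icc, integral_Icc_eq_integral_Ioc,
        ← intervalIntegral.integral_of_le (h0 x hx), integral_pow]
      simp
    · rw [indicator_of_notMem hx]
      have : (fun t => A.indicator (fun q : E × ℝ => q.2 ^ p) (x, t)) = fun _ => 0 := by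
        ext t
        rw [indicator_of_notMem (show (x, t) ∉ A from fun h' => hx h'.1)]
      rw [this, integral_zero]
  constructor
  · have := hint.integral_prod_right
    simpa only [e1] using this
  · have h1 := integral_prod _ hint
    have h2 := integral_prod_symm _ hint
    rw [h1] at h2
    simp only [e1, e2] at h2
    rw [← h2, integral_indicator hD, integral_div]
    field_simp

end Layer

/-- **Berwald's inequality**, consecutive powers of a concave function, coordinates `Fin d`. -/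
theorem berwald_fin (m : ℕ) {D : Set (Fin d → ℝ)} (hD : MeasurableSet D) (hf : volume D ≠ ∞)
    {h : (Fin d → ℝ) → ℝ} (hh : Measurable h) (hc : ConcaveOn ℝ D h) (h0 : ∀ x ∈ D, 0 ≤ h x)
    {R : ℝ} (hR : ∀ x ∈ D, h x ≤ R) :
    ((m : ℝ) + 2) * (d + m + 3) * (∫ x in D, h x ^ (m + 1)) * ∫ x in D, h x ^ (m + 3) ≤
      ((m : ℝ) + 3) * (d + m + 2) * (∫ x in D, h x ^ (m + 2)) ^ 2 := by
  obtain ⟨i0, f0⟩ := layer (μ := volume) hD hf hh h0 hR m
  obtain ⟨i1, f1⟩ := layer (μ := volume) hD hf hh h0 hR (m + 1)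
  obtain ⟨i2, f2⟩ := layer (μ := volume) hD hf hh h0 hR (m + 2)
  have hnn : ∀ p : ℕ, 0 ≤ ∫ x in D, h x ^ p := fun p =>
    setIntegral_nonneg hD fun x hx => pow_nonneg (h0 x hx) p
  rcases (hnn (m + 1)).eq_or_lt with hz | hpos0
  · rw [← hz]
    have := hnn (m + 2)
    simp only [mul_zero, zero_mul]
    positivity
  have hFn : ∀ t, t < 0 → lev D h t = ∅ := by
    intro t ht
    ext x
    simp only [lev, mem_ofPred_eq, mem_empty_iff_false, iff_false]
    rintro ⟨-, h1, -⟩
    linarith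
  have hm0 : 0 < ∫ t, t ^ m * volume.real (lev D h t) := by
    rw [← f0] at hpos0
    exact (pos_iff_pos_of_mul_pos hpos0).1 (by positivity)
  have hm1 : 0 < ∫ t, t ^ (m + 1) * volume.real (lev D h t) := by
    have hnn1 : 0 ≤ fun t => t ^ (m + 1) * volume.real (lev D h t) := by
      intro t
      rcases lt_or_ge t 0 with h' | h'
      · simp [hFn t h']
      · exact mul_nonneg (pow_nonneg h' _) measureReal_nonneg
    refine lt_of_le_of_ne (integral_nonneg hnn1) fun h00 => ?_
    have h1 := (integral_eq_zero_iff_of_nonneg hnn1 i1).1 h00.symm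
    have h2 : ∀ᵐ t : ℝ, t ≠ 0 := by
      rw [ae_iff]
      simp
    have h3 : (fun t => t ^ m * volume.real (lev D h t)) =ᵐ[volume] 0 := by
      filter_upwards [h1, h2] with t h1 h2
      have h4 : t ^ (m + 1) ≠ 0 := pow_ne_zero _ h2
      have h5 : volume.real (lev D h t) = 0 := by simpa [h4] using h1
      simp [h5]
    rw [integral_congr_ae h3] at hm0
    simp at hm0
  have hT := family_hT (S := lev D h) (R := R)
    (fun t => hD.inter (MeasurableSet.inter (MeasurableSet.const _)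
      (measurableSet_le measurable_const hh)))
    (fun t => ne_top_of_le_ne_top hf (measure_mono fun x hx => hx.1))
    (fun t ⟨x, hx⟩ => hx.2.2.trans (hR x hx.1)) (fun t ⟨x, hx⟩ => hx.2.1)
    (by
      intro s t l m' hl hm' hlm x y hx hy
      refine ⟨hc.1 hx.1 hy.1 hl hm' hlm, add_nonneg (mul_nonneg hl hx.2.1) (mul_nonneg hm' hy.2.1),
        ?_⟩
      refine le_trans ?_ (hc.2 hx.1 hy.1 hl hm' hlm)
      simp only [smul_eq_mul]
      exact add_le_add (mul_le_mul_of_nonneg_left hx.2.2 hl) (mul_le_mul_of_nonneg_left hy.2.2 hm'))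
  have key := berwald_wt d m (F := fun t => volume.real (lev D h t)) (R := R)
    (fun t ht => by simp [hFn t ht]) i0 i1 i2 hm0 hm1 hT
  push_cast at f1 f2
  rw [← f0, ← f1, ← f2]
  set M0 := ∫ t, t ^ m * volume.real (lev D h t)
  set M1 := ∫ t, t ^ (m + 1) * volume.real (lev D h t)
  set M2 := ∫ t, t ^ (m + 2) * volume.real (lev D h t)
  have hk : ((m : ℝ) + 2) * (m + 3) * (((m : ℝ) + 1) * (d + m + 3) * M0 * M2) ≤
      ((m : ℝ) + 2) * (m + 3) * (((m : ℝ) + 2) * (d + m + 2) * M1 ^ 2) := by gcongr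
  nlinarith [hk]

/-- **Berwald's inequality** on an arbitrary finite coordinate type. -/
theorem berwald {ι : Type*} [Fintype ι] (m : ℕ) {D : Set (ι → ℝ)} (hD : MeasurableSet D)
    (hf : volume D ≠ ∞) {h : (ι → ℝ) → ℝ} (hh : Measurable h) (hc : ConcaveOn ℝ D h)
    (h0 : ∀ x ∈ D, 0 ≤ h x) {R : ℝ} (hR : ∀ x ∈ D, h x ≤ R) :
    ((m : ℝ) + 2) * (Fintype.card ι + m + 3) * (∫ x in D, h x ^ (m + 1)) *
        ∫ x in D, h x ^ (m + 3) ≤
      ((m : ℝ) + 3) * (Fintype.card ι + m + 2) * (∫ x in D, h x ^ (m + 2)) ^ 2 := by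
  set e : Fin (Fintype.card ι) ≃ ι := (Fintype.equivFin ι).symm
  have mp := volume_measurePreserving_piCongrLeft (fun _ : ι => ℝ) e
  set T := MeasurableEquiv.piCongrLeft (fun _ : ι => ℝ) e with hTdef
  have hTl : ∀ (l m : ℝ) (x y : Fin (Fintype.card ι) → ℝ), T (l • x + m • y) = l • T x + m • T y := by
    intro l m x y
    ext i
    obtain ⟨j, rfl⟩ := e.surjective i
    simp [T, MeasurableEquiv.coe_piCongrLeft, Equiv.piCongrLeft_apply_apply]
  have hint : ∀ p : ℕ, ∫ x in D, h x ^ p = ∫ x in T ⁻¹' D, h (T x) ^ p := fun p =>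
    (mp.setIntegral_preimage_emb T.measurableEmbedding (fun x => h x ^ p) D).symm
  rw [hint, hint, hint]
  refine berwald_fin m (D := T ⁻¹' D) (h := fun x => h (T x)) (T.measurable hD) ?_
    (hh.comp T.measurable) ⟨?_, ?_⟩ (fun x hx => h0 _ hx) (R := R) (fun x hx => hR _ hx)
  · rw [mp.measure_preimage hD.nullMeasurableSet]
    exact hf
  · intro x hx y hy a b ha hb hab
    change T (a • x + b • y) ∈ D
    rw [hTl]
    exact hc.1 hx hy ha hb hab
  · intro x hx y hy a b ha hb hab
    have := hc.2 hx hy ha hb hab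
    change a • h (T x) + b • h (T y) ≤ h (T (a • x + b • y))
    rw [hTl]
    exact this

end Vale.Agent.P254.Refl.Ber467
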