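import Vale.Agent.P254.Unc.Berwald

/-!
# Berwald's inequality (Borell's form) for three consecutive powers of a concave function

For `h ≥ 0` concave on a convex set `C ⊆ ℝ^k` and `m ≥ 1`, `n = m + k`,
`(m+1)(n+2) ∫ h^(m+2) ∫ h^m ≤ (m+2)(n+1) (∫ h^(m+1))^2`.
-/

open MeasureTheory Set
open scoped ENNReal NNReal

namespace Vale.Agent.P254.Refl.Ber568

/-- the beta integral -/
noncomputable def bet (i k : ℕ) : ℝ := ∫ s in (0:ℝ)..1, s ^ i * (1 - s) ^ k

theorem bet_pos (i k : ℕ) : 0 < bet i k := by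
  refine intervalIntegral.intervalIntegral_pos_of_pos_on
    (Continuous.intervalIntegrable (by fun_prop) _ _) ?_ zero_lt_one
  intro s hs
  have h1 : (0:ℝ) < s := hs.1
  have h2 : (0:ℝ) < 1 - s := by linarith [hs.2]
  positivity

theorem bet_succ (i k : ℕ) : ((i:ℝ) + k + 2) * bet (i + 1) k = ((i:ℝ) + 1) * bet i k := by
  have hd : ∀ s ∈ uIcc (0:ℝ) 1, HasDerivAt (fun s : ℝ => s ^ (i + 1) * (1 - s) ^ (k + 1))
      (((i:ℝ) + 1) * (s ^ i * (1 - s) ^ k) - ((i:ℝ) + k + 2) * (s ^ (i + 1) * (1 - s) ^ k)) s := by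
    intro s _
    have h1 : HasDerivAt (fun s : ℝ => s ^ (i + 1)) (((i:ℝ) + 1) * s ^ i) s := by
      simpa using hasDerivAt_pow (i + 1) s
    have h2 : HasDerivAt (fun s : ℝ => 1 - s) (-1) s := by
      simpa using (hasDerivAt_id s).const_sub 1
    have h3 := h2.pow (k + 1)
    refine (h1.mul h3).congr_deriv ?_
    simp only [Nat.add_sub_cancel, Nat.cast_add, Nat.cast_one, Pi.pow_apply]
    ring
  have h := intervalIntegral.integral_eq_sub_of_hasDerivAt hd
    (Continuous.intervalIntegrable (by fun_prop) _ _)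
  rw [intervalIntegral.integral_sub (Continuous.intervalIntegrable (by fun_prop) _ _)
    (Continuous.intervalIntegrable (by fun_prop) _ _), intervalIntegral.integral_const_mul,
    intervalIntegral.integral_const_mul] at h
  simp only [sub_self, ne_eq, Nat.add_eq_zero_iff, one_ne_zero, and_false, not_false_eq_true,
    zero_pow, mul_zero, one_pow, sub_zero, zero_mul] at h
  unfold bet
  linarith

/-- moments of the extremal function -/
theorem lin_moment {b : ℝ} (hb : 0 < b) {T : ℝ} (hT : b ≤ T) (c : ℝ) {k : ℕ} (hk : 0 < k)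
    (i : ℕ) (hc : 0 ≤ c) :
    ∫ s in (0:ℝ)..T, s ^ i * (max 0 (c * (1 - s / b))) ^ k = c ^ k * b ^ (i + 1) * bet i k := by
  rw [← intervalIntegral.integral_add_adjacent_intervals (b := b)
      (Continuous.intervalIntegrable (by fun_prop) _ _)
      (Continuous.intervalIntegrable (by fun_prop) _ _)]
  have h2 : ∫ s in b..T, s ^ i * (max 0 (c * (1 - s / b))) ^ k = 0 := by
    rw [intervalIntegral.integral_congr (g := fun _ => (0:ℝ))]
    · simp
    · intro s hs
      rw [uIcc_of_le hT] at hs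
      have h3 : max 0 (c * (1 - s / b)) = 0 := by
        refine max_eq_left (mul_nonpos_of_nonneg_of_nonpos hc ?_)
        rw [sub_nonpos, le_div_iff₀ hb]
        linarith [hs.1]
      simp [h3, hk.ne']
  have h1 : ∫ s in (0:ℝ)..b, s ^ i * (max 0 (c * (1 - s / b))) ^ k =
      ∫ s in (0:ℝ)..b, (fun r => c ^ k * b ^ i * (r ^ i * (1 - r) ^ k)) (s / b) := by
    refine intervalIntegral.integral_congr ?_
    intro s hs
    rw [uIcc_of_le hb.le] at hs
    have h3 : max 0 (c * (1 - s / b)) = c * (1 - s / b) := by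
      refine max_eq_right (mul_nonneg hc ?_)
      rw [sub_nonneg, div_le_iff₀ hb]
      linarith [hs.2]
    simp only [h3, mul_pow, div_pow]
    have hbi : b ^ i ≠ 0 := by positivity
    field_simp
  have h4 := intervalIntegral.integral_comp_div (a := 0) (b := b)
    (fun r : ℝ => c ^ k * b ^ i * (r ^ i * (1 - r) ^ k)) hb.ne'
  rw [h2, add_zero, h1, h4, zero_div, div_self hb.ne',
    intervalIntegral.integral_const_mul, smul_eq_mul, bet]
  ring

/-- The one-dimensional comparison. -/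
theorem core {k : ℕ} (hk : 0 < k) (j : ℕ) (u : ℝ → ℝ) (M : ℝ) (hM : 0 < M) (hmeas : Measurable u)
    (hnn : ∀ s, 0 ≤ u s) (B : ℝ) (hbd : ∀ s, 0 ≤ s → u s ≤ B) (hz : ∀ s, M < s → u s = 0)
    (hcc : ∀ s t θ, 0 ≤ s → 0 ≤ t → 0 < u s → 0 < u t → 0 < θ → θ < 1 →
      (1 - θ) * u s + θ * u t ≤ u ((1 - θ) * s + θ * t)) :
    ((j:ℝ) + 1) * (j + k + 3) * ((∫ s in (0:ℝ)..M, s ^ (j + 2) * u s ^ k) *
      ∫ s in (0:ℝ)..M, s ^ j * u s ^ k) ≤
    ((j:ℝ) + 2) * (j + k + 2) * (∫ s in (0:ℝ)..M, s ^ (j + 1) * u s ^ k) ^ 2 := by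
  have hB0 : 0 ≤ B := (hnn 0).trans (hbd 0 le_rfl)
  have hint0 : ∀ T : ℝ, 0 ≤ T → IntervalIntegrable (fun s => u s ^ k) volume 0 T := by
    intro T hT
    rw [intervalIntegrable_iff_integrableOn_Ioc_of_le hT]
    refine Measure.integrableOn_of_bounded (M := B ^ k) (by simp)
      (hmeas.pow_const k).aestronglyMeasurable ?_
    filter_upwards [ae_restrict_mem measurableSet_Ioc] with s hs
    rw [Real.norm_eq_abs, abs_of_nonneg (pow_nonneg (hnn s) k)]
    exact pow_le_pow_left₀ (hnn s) (hbd s hs.1.le) k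
  have hint : ∀ (i : ℕ) (T : ℝ), 0 ≤ T →
      IntervalIntegrable (fun s => s ^ i * u s ^ k) volume 0 T := by
    intro i T hT
    exact (hint0 T hT).continuousOn_mul (f := fun s => u s ^ k) (g := fun s => s ^ i)
      (by fun_prop)
  have hnnI : ∀ i : ℕ, 0 ≤ ∫ s in (0:ℝ)..M, s ^ i * u s ^ k := by
    intro i
    refine intervalIntegral.integral_nonneg hM.le (fun s hs => ?_)
    exact mul_nonneg (pow_nonneg hs.1 i) (pow_nonneg (hnn s) k)
  set A0 : ℝ := ∫ s in (0:ℝ)..M, s ^ j * u s ^ k with hA0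
  set A1 : ℝ := ∫ s in (0:ℝ)..M, s ^ (j + 1) * u s ^ k with hA1
  set A2 : ℝ := ∫ s in (0:ℝ)..M, s ^ (j + 2) * u s ^ k with hA2
  have hA21 : A2 ≤ M * A1 := by
    rw [hA2, hA1, ← intervalIntegral.integral_const_mul]
    refine intervalIntegral.integral_mono_on hM.le (hint _ _ hM.le)
      ((hint _ _ hM.le).const_mul M) ?_
    intro s hs
    have h1 : 0 ≤ s ^ (j + 1) * u s ^ k := mul_nonneg (pow_nonneg hs.1 _) (pow_nonneg (hnn s) k)
    calc s ^ (j + 2) * u s ^ k = s * (s ^ (j + 1) * u s ^ k) := by ring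
      _ ≤ M * (s ^ (j + 1) * u s ^ k) := mul_le_mul_of_nonneg_right hs.2 h1
  have hA1nn : 0 ≤ A1 := hnnI _
  have hA2nn : 0 ≤ A2 := hnnI _
  have hA0nn : 0 ≤ A0 := hnnI _
  rcases hA1nn.eq_or_lt with h10 | h1pos
  · rw [← h10, mul_zero] at hA21
    have : A2 = 0 := le_antisymm hA21 hA2nn
    rw [this, zero_mul, mul_zero]
    positivity
  rcases hA0nn.eq_or_lt with h00 | h0pos
  · rw [← h00, mul_zero, mul_zero]
    positivity
  -- the matched extremal function
  have a0 := bet_pos j k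
  have a1 := bet_pos (j + 1) k
  have a2 := bet_pos (j + 2) k
  set b : ℝ := A1 * bet j k / (A0 * bet (j + 1) k) with hb
  have hbp : 0 < b := by positivity
  have hq0 : 0 < A0 / (b ^ (j + 1) * bet j k) := by positivity
  set c : ℝ := (A0 / (b ^ (j + 1) * bet j k)) ^ ((1:ℝ) / k) with hc
  have hc0 : 0 < c := Real.rpow_pos_of_pos hq0 _
  have hkk : (k:ℝ) ≠ 0 := by exact_mod_cast hk.ne'
  have hck : c ^ k = A0 / (b ^ (j + 1) * bet j k) := by
    rw [hc, ← Real.rpow_natCast, ← Real.rpow_mul hq0.le]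
    simp [hkk]
  set T : ℝ := max M b with hTdef
  have hMT : M ≤ T := le_max_left _ _
  have hbT : b ≤ T := le_max_right _ _
  have hT0 : 0 ≤ T := hM.le.trans hMT
  set l : ℝ → ℝ := fun s => max 0 (c * (1 - s / b)) with hl
  have hl0 : ∀ s, 0 ≤ l s := fun s => le_max_left _ _
  have hlc : Continuous l := by fun_prop
  have hlconv : ∀ s t θ : ℝ, 0 < θ → θ < 1 →
      l ((1 - θ) * s + θ * t) ≤ (1 - θ) * l s + θ * l t := by
    intro s t θ h0 h1
    have e0 : 0 ≤ (1 - θ) * l s + θ * l t :=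
      add_nonneg (mul_nonneg (by linarith) (hl0 s)) (mul_nonneg h0.le (hl0 t))
    refine max_le e0 ?_
    have e1 : c * (1 - s / b) ≤ l s := le_max_right _ _
    have e2 : c * (1 - t / b) ≤ l t := le_max_right _ _
    have e3 : c * (1 - ((1 - θ) * s + θ * t) / b) =
        (1 - θ) * (c * (1 - s / b)) + θ * (c * (1 - t / b)) := by
      field_simp
      ring
    rw [e3]
    have e4 := mul_le_mul_of_nonneg_left e1 (by linarith : (0:ℝ) ≤ 1 - θ)
    have e5 := mul_le_mul_of_nonneg_left e2 h0.le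
    linarith
  set P : Set ℝ := {s | 0 ≤ s ∧ 0 < u s ∧ l s ≤ u s} with hP
  have hPb : ∀ s ∈ P, s ≤ M := by
    intro s hs
    by_contra hcon
    have := hz s (not_le.mp hcon)
    linarith [hs.2.1]
  have hPconv : ∀ s ∈ P, ∀ t ∈ P, ∀ r, s < r → r < t → r ∈ P := by
    intro s hs t ht r hsr hrt
    have hst : 0 < t - s := by linarith
    set θ : ℝ := (r - s) / (t - s) with hθ
    have h0 : 0 < θ := div_pos (by linarith) hst
    have h1 : θ < 1 := by rw [hθ, div_lt_one hst]; linarith
    have hr : (1 - θ) * s + θ * t = r := by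
      rw [hθ]; field_simp; ring
    have e1 := hcc s t θ hs.1 ht.1 hs.2.1 ht.2.1 h0 h1
    have e2 := hlconv s t θ h0 h1
    rw [hr] at e1 e2
    have e3 : 0 < (1 - θ) * u s := mul_pos (by linarith) hs.2.1
    have e4 : 0 < θ * u t := mul_pos h0 ht.2.1
    have e5 := mul_le_mul_of_nonneg_left hs.2.2 (by linarith : (0:ℝ) ≤ 1 - θ)
    have e6 := mul_le_mul_of_nonneg_left ht.2.2 h0.le
    exact ⟨by linarith [hs.1], by linarith, by linarith⟩
  have hout : ∀ s, 0 ≤ s → s ∉ P → u s ≤ l s := by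
    intro s hs hsP
    by_contra hcon
    push Not at hcon
    exact hsP ⟨hs, (hl0 s).trans_lt hcon, hcon.le⟩
  obtain ⟨p, q, hpq⟩ : ∃ p q : ℝ, ∀ s, 0 ≤ s → (s - p) * (s - q) * (u s ^ k - l s ^ k) ≤ 0 := by
    rcases P.eq_empty_or_nonempty with he | hne
    · refine ⟨0, 0, fun s hs => ?_⟩
      have h1 : u s ≤ l s := hout s hs (by rw [he]; exact notMem_empty s)
      have h2 : u s ^ k ≤ l s ^ k := pow_le_pow_left₀ (hnn s) h1 k
      have h3 : 0 ≤ (s - 0) * (s - 0) := mul_self_nonneg _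
      exact mul_nonpos_of_nonneg_of_nonpos h3 (by linarith)
    · have hbb : BddBelow P := ⟨0, fun s hs => hs.1⟩
      have hba : BddAbove P := ⟨M, fun s hs => hPb s hs⟩
      refine ⟨sInf P, sSup P, fun s hs => ?_⟩
      have hle : sInf P ≤ sSup P := csInf_le_csSup hne hbb hba
      rcases lt_trichotomy s (sInf P) with h1 | h1 | h1
      · have h2 : s ∉ P := fun hh => absurd (csInf_le hbb hh) (not_le.mpr h1)
        have h3 := pow_le_pow_left₀ (hnn s) (hout s hs h2) k
        have h4 : 0 ≤ (s - sInf P) * (s - sSup P) :=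
          mul_nonneg_of_nonpos_of_nonpos (by linarith) (by linarith)
        exact mul_nonpos_of_nonneg_of_nonpos h4 (by linarith)
      · rw [h1]; simp
      rcases lt_trichotomy s (sSup P) with h2 | h2 | h2
      · obtain ⟨s1, hs1, hs1'⟩ := exists_lt_of_csInf_lt hne h1
        obtain ⟨s2, hs2, hs2'⟩ := exists_lt_of_lt_csSup hne h2
        have h3 := hPconv s1 hs1 s2 hs2 s hs1' hs2'
        have h4 := pow_le_pow_left₀ (hl0 s) h3.2.2 k
        have h5 : (s - sInf P) * (s - sSup P) ≤ 0 :=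
          mul_nonpos_of_nonneg_of_nonpos (by linarith) (by linarith)
        exact mul_nonpos_of_nonpos_of_nonneg h5 (by linarith)
      · rw [h2]; simp
      · have h3 : s ∉ P := fun hh => absurd (le_csSup hba hh) (not_le.mpr h2)
        have h4 := pow_le_pow_left₀ (hnn s) (hout s hs h3) k
        have h5 : 0 ≤ (s - sInf P) * (s - sSup P) :=
          mul_nonneg (by linarith) (by linarith)
        exact mul_nonpos_of_nonneg_of_nonpos h5 (by linarith)
  -- integrate
  have hlint : ∀ i : ℕ, IntervalIntegrable (fun s => s ^ i * l s ^ k) volume 0 T := fun i =>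
    Continuous.intervalIntegrable (by fun_prop) _ _
  have hmain : ∫ s in (0:ℝ)..T, s ^ j * ((s - p) * (s - q) * (u s ^ k - l s ^ k)) ≤ 0 := by
    have := intervalIntegral.integral_nonneg
      (f := fun s => -(s ^ j * ((s - p) * (s - q) * (u s ^ k - l s ^ k))))
      (μ := volume) hT0 (fun s hs => by
        have h1 := hpq s hs.1
        have h2 : 0 ≤ s ^ j := pow_nonneg hs.1 j
        have := mul_nonpos_of_nonneg_of_nonpos h2 h1
        linarith)
    rw [intervalIntegral.integral_neg] at this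
    linarith
  have hexp : ∫ s in (0:ℝ)..T, s ^ j * ((s - p) * (s - q) * (u s ^ k - l s ^ k)) =
      ((∫ s in (0:ℝ)..T, s ^ (j + 2) * u s ^ k) - ∫ s in (0:ℝ)..T, s ^ (j + 2) * l s ^ k) -
      (p + q) * ((∫ s in (0:ℝ)..T, s ^ (j + 1) * u s ^ k) - ∫ s in (0:ℝ)..T, s ^ (j + 1) * l s ^ k)
      + p * q * ((∫ s in (0:ℝ)..T, s ^ j * u s ^ k) - ∫ s in (0:ℝ)..T, s ^ j * l s ^ k) := by
    rw [← intervalIntegral.integral_sub (hint _ _ hT0) (hlint _),
      ← intervalIntegral.integral_sub (hint _ _ hT0) (hlint _),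
      ← intervalIntegral.integral_sub (hint _ _ hT0) (hlint _),
      ← intervalIntegral.integral_const_mul, ← intervalIntegral.integral_const_mul,
      ← intervalIntegral.integral_sub ((hint _ _ hT0).sub (hlint _))
        (((hint _ _ hT0).sub (hlint _)).const_mul _),
      ← intervalIntegral.integral_add (((hint _ _ hT0).sub (hlint _)).sub
        (((hint _ _ hT0).sub (hlint _)).const_mul _))
        (((hint _ _ hT0).sub (hlint _)).const_mul _)]
    refine intervalIntegral.integral_congr ?_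
    intro s _
    simp only
    ring
  have hTM : ∀ i : ℕ, ∫ s in (0:ℝ)..T, s ^ i * u s ^ k = ∫ s in (0:ℝ)..M, s ^ i * u s ^ k := by
    intro i
    rw [← intervalIntegral.integral_add_adjacent_intervals (hint i M hM.le)
      ((hint i M hM.le).symm.trans (hint i T hT0))]
    have h2 : ∫ s in M..T, s ^ i * u s ^ k = 0 := by
      rw [intervalIntegral.integral_of_le hMT]
      refine (setIntegral_congr_fun (g := fun _ => (0:ℝ)) measurableSet_Ioc ?_).trans (by simp)
      intro s hs
      simp [hz s hs.1, hk.ne']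
    rw [h2, add_zero]
  have hl_0 : ∫ s in (0:ℝ)..T, s ^ j * l s ^ k = A0 := by
    rw [lin_moment hbp hbT c hk j hc0.le, hck]
    field_simp
  have hl_1 : ∫ s in (0:ℝ)..T, s ^ (j + 1) * l s ^ k = A1 := by
    rw [lin_moment hbp hbT c hk (j + 1) hc0.le, hck]
    have : A1 = A0 * b * bet (j + 1) k / bet j k := by
      rw [hb]; field_simp
    rw [this]
    have hbj : b ^ (j + 1) ≠ 0 := by positivity
    rw [pow_succ b (j + 1)]
    field_simp
  have hl_2 : ∫ s in (0:ℝ)..T, s ^ (j + 2) * l s ^ k = A0 * b ^ 2 * bet (j + 2) k / bet j k := by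
    rw [lin_moment hbp hbT c hk (j + 2) hc0.le, hck]
    have hbj : b ^ (j + 1) ≠ 0 := by positivity
    rw [show j + 2 + 1 = (j + 1) + 2 by ring, pow_add b (j + 1) 2]
    field_simp
  rw [hexp, hTM, hTM, hTM, hl_0, hl_1, hl_2, ← hA0, ← hA1, ← hA2, sub_self, sub_self, mul_zero,
    mul_zero, add_zero, sub_zero, sub_nonpos] at hmain
  have s0 := bet_succ j k
  have s1 := bet_succ (j + 1) k
  push_cast at s1
  have hb1 : A0 * b = A1 * bet j k / bet (j + 1) k := by
    rw [hb]; field_simp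
  have hkey : A2 * A0 ≤ A1 ^ 2 * bet j k * bet (j + 2) k / bet (j + 1) k ^ 2 := by
    calc A2 * A0 ≤ (A0 * b ^ 2 * bet (j + 2) k / bet j k) * A0 :=
          mul_le_mul_of_nonneg_right hmain h0pos.le
      _ = (A0 * b) ^ 2 * bet (j + 2) k / bet j k := by ring
      _ = _ := by rw [hb1]; field_simp
  have hcf : (0:ℝ) ≤ ((j:ℝ) + 1) * (j + k + 3) := by positivity
  calc ((j:ℝ) + 1) * (j + k + 3) * (A2 * A0)
      ≤ ((j:ℝ) + 1) * (j + k + 3) *
          (A1 ^ 2 * bet j k * bet (j + 2) k / bet (j + 1) k ^ 2) :=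
        mul_le_mul_of_nonneg_left hkey hcf
    _ = A1 ^ 2 * ((((j:ℝ) + 1) * bet j k) * (((j:ℝ) + 1 + k + 2) * bet (j + 1 + 1) k)) /
          bet (j + 1) k ^ 2 := by ring
    _ = ((j:ℝ) + 2) * (j + k + 2) * A1 ^ 2 := by
        rw [← s0, s1]
        field_simp
        ring

/-- layer cake for a power -/
theorem layer {k : ℕ} (C : Set (Fin k → ℝ)) (hCm : MeasurableSet C) (hCf : volume C ≠ ∞)
    (h : (Fin k → ℝ) → ℝ) (hh : Measurable h) (h0 : ∀ x ∈ C, 0 ≤ h x) (M : ℝ) (hM0 : 0 < M)
    (hM : ∀ x ∈ C, h x ≤ M) (i : ℕ) :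
    ∫ x in C, h x ^ (i + 1) =
      ((i:ℝ) + 1) * ∫ t in (0:ℝ)..M, t ^ i * (volume (C ∩ {x | t ≤ h x})).toReal := by
  set v : ℝ → ℝ := fun t => (volume (C ∩ {x | t ≤ h x})).toReal with hv
  have hfin : ∀ t, volume (C ∩ {x | t ≤ h x}) ≠ ∞ := fun t =>
    ((measure_mono inter_subset_left).trans_lt hCf.lt_top).ne
  have hvnn : ∀ t, 0 ≤ v t := fun t => ENNReal.toReal_nonneg
  have hanti : Antitone v := by
    intro s t hst
    refine ENNReal.toReal_mono (hfin s) (measure_mono ?_)
    exact inter_subset_inter_right C (fun x hx => le_trans hst hx)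
  have hvM : ∀ s, M < s → v s = 0 := by
    intro s hs
    have : C ∩ {x | s ≤ h x} = ∅ := by
      ext x
      simp only [mem_inter_iff, mem_ofPred_eq, mem_empty_iff_false, iff_false, not_and, not_le]
      intro hx
      exact lt_of_le_of_lt (hM x hx) hs
    simp only [hv, this, measure_empty, ENNReal.toReal_zero]
  have hmeq' : ∀ t, (volume.restrict C) {x : Fin k → ℝ | t ≤ h x} =
      volume (C ∩ {x | t ≤ h x}) := by
    intro t
    rw [Measure.restrict_apply (measurableSet_le measurable_const hh), inter_comm]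
  have hint : Integrable (fun x => h x ^ (i + 1)) (volume.restrict C) := by
    refine Measure.integrableOn_of_bounded (M := M ^ (i + 1)) hCf
      (hh.pow_const _).aestronglyMeasurable ?_
    filter_upwards [ae_restrict_mem hCm] with x hx
    rw [Real.norm_eq_abs, abs_of_nonneg (pow_nonneg (h0 x hx) _)]
    exact pow_le_pow_left₀ (h0 x hx) (hM x hx) _
  have h1 := lintegral_comp_eq_lintegral_meas_le_mul (volume.restrict C)
    (f := h) (g := fun t => ((i:ℝ) + 1) * t ^ i)
    (by filter_upwards [ae_restrict_mem hCm] with x hx using h0 x hx)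
    hh.aemeasurable
    (fun t _ => Continuous.intervalIntegrable (by fun_prop) _ _)
    (by filter_upwards [ae_restrict_mem measurableSet_Ioi] with t ht
        have : (0:ℝ) < t := ht
        positivity)
  have h2 : ∀ y : ℝ, ∫ t in (0:ℝ)..y, ((i:ℝ) + 1) * t ^ i = y ^ (i + 1) := by
    intro y
    rw [intervalIntegral.integral_const_mul, integral_pow]
    have : (i:ℝ) + 1 ≠ 0 := by positivity
    field_simp
    simp
  simp only [h2, hmeq'] at h1
  rw [integral_eq_lintegral_of_nonneg_ae (by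
      filter_upwards [ae_restrict_mem hCm] with x hx using pow_nonneg (h0 x hx) _)
    hint.aestronglyMeasurable, h1, ← intervalIntegral.integral_const_mul,
    intervalIntegral.integral_of_le hM0.le, integral_eq_lintegral_of_nonneg_ae]
  · congr 1
    have h3 : ∀ t : ℝ, volume (C ∩ {x | t ≤ h x}) * ENNReal.ofReal (((i:ℝ) + 1) * t ^ i) =
        ENNReal.ofReal (((i:ℝ) + 1) * (t ^ i * v t)) := by
      intro t
      rw [show ((i:ℝ) + 1) * (t ^ i * v t) = v t * (((i:ℝ) + 1) * t ^ i) by ring,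
        ENNReal.ofReal_mul (hvnn t)]
      simp only [hv]
      rw [ENNReal.ofReal_toReal (hfin t)]
    simp only [h3]
    have h4 : Ioi (0:ℝ) = Ioc 0 M ∪ Ioi M := (Ioc_union_Ioi_eq_Ioi hM0.le).symm
    rw [h4, lintegral_union measurableSet_Ioi]
    · have h5 : ∫⁻ t in Ioi M, ENNReal.ofReal (((i:ℝ) + 1) * (t ^ i * v t)) = 0 := by
        rw [setLIntegral_congr_fun (g := fun _ => 0) measurableSet_Ioi]
        · simp
        · intro t ht
          have : v t = 0 := hvM t ht
          simp [this]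
      rw [h5, add_zero]
    · exact Set.disjoint_left.mpr fun x hx hx' => absurd hx.2 (not_le.mpr hx')
  · filter_upwards [ae_restrict_mem measurableSet_Ioc] with t ht
    have h6 := hvnn t
    have h7 : (0:ℝ) < t := ht.1
    positivity
  · exact (measurable_const.mul ((measurable_id.pow_const i).mul
      hanti.measurable)).aestronglyMeasurable

/-- **Berwald's inequality** for the powers `m, m+1, m+2` of a concave function. -/
theorem berwald_gen {k m : ℕ} (hm : 0 < m) (C : Set (Fin k → ℝ)) (hC : Convex ℝ C)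
    (hCm : MeasurableSet C) (hCf : volume C ≠ ∞) (h : (Fin k → ℝ) → ℝ) (hh : Measurable h)
    (hc : ConcaveOn ℝ C h) (h0 : ∀ x ∈ C, 0 ≤ h x) (B : ℝ) (hB : ∀ x ∈ C, h x ≤ B) :
    ((m:ℝ) + 1) * (m + k + 2) * ((∫ x in C, h x ^ (m + 2)) * ∫ x in C, h x ^ m) ≤
      ((m:ℝ) + 2) * (m + k + 1) * (∫ x in C, h x ^ (m + 1)) ^ 2 := by
  rcases Nat.eq_zero_or_pos k with hk | hk
  · subst hk
    rcases C.eq_empty_or_nonempty with he | hne
    · simp [he]
    · have hu : C = univ := Subsingleton.eq_univ_of_nonempty hne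
      subst hu
      simp only [Measure.restrict_univ]
      rw [Measure.volume_pi_eq_dirac (fun _ => (0:ℝ))]
      simp only [integral_dirac, Nat.cast_zero, add_zero]
      have hx : 0 ≤ h (fun _ => 0) := h0 _ (mem_univ _)
      have e : h (fun _ => 0) ^ (m + 2) * h (fun _ => 0) ^ m = (h (fun _ => 0) ^ (m + 1)) ^ 2 := by
        rw [← pow_mul, ← pow_add]
        congr 1
        ring
      rw [e]
      exact le_of_eq (by ring)
  set M : ℝ := max B 1 with hMdef
  have hM0 : 0 < M := lt_of_lt_of_le one_pos (le_max_right _ _)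
  have hM : ∀ x ∈ C, h x ≤ M := fun x hx => (hB x hx).trans (le_max_left _ _)
  have hkk : (k:ℝ) ≠ 0 := by exact_mod_cast hk.ne'
  set v : ℝ → ℝ := fun t => (volume (C ∩ {x | t ≤ h x})).toReal with hv
  have hfin : ∀ t, volume (C ∩ {x | t ≤ h x}) ≠ ∞ := fun t =>
    ((measure_mono inter_subset_left).trans_lt hCf.lt_top).ne
  have hms : ∀ t, MeasurableSet (C ∩ {x | t ≤ h x}) := fun t =>
    hCm.inter (measurableSet_le measurable_const hh)
  have hvnn : ∀ t, 0 ≤ v t := fun t => ENNReal.toReal_nonneg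
  have hanti : Antitone v := by
    intro s t hst
    refine ENNReal.toReal_mono (hfin s) (measure_mono ?_)
    exact inter_subset_inter_right C (fun x hx => le_trans hst hx)
  have hvM : ∀ s, M < s → v s = 0 := by
    intro s hs
    have : C ∩ {x | s ≤ h x} = ∅ := by
      ext x
      simp only [mem_inter_iff, mem_ofPred_eq, mem_empty_iff_false, iff_false, not_and, not_le]
      intro hx
      exact lt_of_le_of_lt (hM x hx) hs
    simp only [hv, this, measure_empty, ENNReal.toReal_zero]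
  set u : ℝ → ℝ := fun s => v s ^ ((1:ℝ) / k) with hu
  have hupos : ∀ s, 0 < u s → 0 < v s := by
    intro s hs
    rcases (hvnn s).eq_or_lt with h1 | h1
    · exfalso
      have : u s = 0 := by
        simp only [hu, ← h1]
        exact Real.zero_rpow (by positivity)
      linarith
    · exact h1
  have huk : ∀ s, u s ^ k = v s := by
    intro s
    simp only [hu]
    rw [← Real.rpow_natCast, ← Real.rpow_mul (hvnn s)]
    simp [hkk]
  obtain ⟨j, rfl⟩ : ∃ j, m = j + 1 := ⟨m - 1, by omega⟩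
  have key := core hk j u M hM0 (hanti.measurable.pow_const _)
    (fun s => Real.rpow_nonneg (hvnn s) _) (v 0 ^ ((1:ℝ) / k))
    (fun s hs => Real.rpow_le_rpow (hvnn s) (hanti hs) (by positivity))
    (fun s hs => by
      simp only [hu, hvM s hs]
      exact Real.zero_rpow (by positivity))
    (by
      intro s t θ hs ht hus hut hθ0 hθ1
      refine Vale.Agent.P254.Unc.B966.bm_add hk (hms s) (hms t) (hms ((1 - θ) * s + θ * t))
        (hupos s hus) (hupos t hut) (hfin _) hθ0 hθ1 ?_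
      intro a ha b hb
      have ha2 : s ≤ h a := ha.2
      have hb2 : t ≤ h b := hb.2
      refine ⟨hC ha.1 hb.1 (by linarith) hθ0.le (by ring), ?_⟩
      have h1 := hc.2 ha.1 hb.1 (by linarith : (0:ℝ) ≤ 1 - θ) hθ0.le (by ring)
      simp only [smul_eq_mul] at h1
      have h2 := mul_le_mul_of_nonneg_left ha2 (by linarith : (0:ℝ) ≤ 1 - θ)
      have h3 := mul_le_mul_of_nonneg_left hb2 hθ0.le
      simp only [mem_ofPred_eq]
      linarith)
  simp only [huk] at key
  have l0 := layer C hCm hCf h hh h0 M hM0 hM j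
  have l1 := layer C hCm hCf h hh h0 M hM0 hM (j + 1)
  have l2 := layer C hCm hCf h hh h0 M hM0 hM (j + 2)
  rw [show j + 1 + 2 = j + 2 + 1 by ring, l0, l1, l2]
  have hcf : (0:ℝ) ≤ ((j:ℝ) + 2) * (j + 3) := by positivity
  have := mul_le_mul_of_nonneg_left key hcf
  push_cast
  calc _ = ((j:ℝ) + 2) * (j + 3) * (((j:ℝ) + 1) * (j + k + 3) *
        ((∫ s in (0:ℝ)..M, s ^ (j + 2) * v s) * ∫ s in (0:ℝ)..M, s ^ j * v s)) := by
        simp only [hv]
        ring
    _ ≤ _ := this
    _ = _ := by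
        simp only [hv]
        ring

end Vale.Agent.P254.Refl.Ber568
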