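import Vale.Agent.P254.Unc.Berwald

/-!
# Berwald's inequality for consecutive powers of a concave function
`(∫ h^(m+2)) (∫ h^m) (m+1) (n+2) ≤ (m+2) (n+1) (∫ h^(m+1))^2`, `n = m + d`, `h` concave on a convex
set of dimension `d`.
-/

open MeasureTheory Set

namespace Vale.Agent.P254.Refl.Ber586

/-- `∫ s^k (1 - s/a)^d` on `[0, a]` -/
noncomputable def cc (d : ℕ) (a : ℝ) (k : ℕ) : ℝ := ∫ s in (0:ℝ)..a, s ^ k * (1 - s / a) ^ d

theorem cc_succ {d : ℕ} {a : ℝ} (ha : 0 < a) (k : ℕ) :
    ((k : ℝ) + d + 2) * cc d a (k + 1) = a * ((k : ℝ) + 1) * cc d a k := by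
  have hd : ∀ s ∈ uIcc (0:ℝ) a, HasDerivAt (fun s : ℝ => s ^ (k + 1) * (1 - s / a) ^ (d + 1))
      (((k : ℝ) + 1) * (s ^ k * (1 - s / a) ^ d)
        - (((k : ℝ) + d + 2) / a) * (s ^ (k + 1) * (1 - s / a) ^ d)) s := by
    intro s _
    have h1 : HasDerivAt (fun s : ℝ => 1 - s / a) (-(1 / a)) s := by
      simpa using ((hasDerivAt_id s).div_const a).const_sub 1
    have h2 := h1.pow (d + 1)
    have h3 := hasDerivAt_pow (k + 1) s
    refine HasDerivAt.congr_deriv (h3.mul h2) ?_
    push_cast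
    ring
  have hint := intervalIntegral.integral_eq_sub_of_hasDerivAt hd
    ((Continuous.intervalIntegrable (by fun_prop) _ _))
  rw [intervalIntegral.integral_sub ((Continuous.intervalIntegrable (by fun_prop) _ _))
    ((Continuous.intervalIntegrable (by fun_prop) _ _)), intervalIntegral.integral_const_mul,
    intervalIntegral.integral_const_mul] at hint
  have e1 : (1 : ℝ) - a / a = 0 := by rw [div_self ha.ne', sub_self]
  rw [e1] at hint
  simp only [ne_eq, Nat.add_eq_zero_iff, one_ne_zero, and_false, not_false_eq_true, zero_pow,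
    mul_zero, zero_div, sub_zero, zero_mul, sub_self] at hint
  unfold cc
  have hane : a ≠ 0 := ha.ne'
  have h5 := congrArg (fun x => a * x) hint
  simp only [mul_sub, mul_zero] at h5
  have h6 : a * (((k : ℝ) + d + 2) / a * ∫ s in (0:ℝ)..a, s ^ (k + 1) * (1 - s / a) ^ d) =
      ((k : ℝ) + d + 2) * ∫ s in (0:ℝ)..a, s ^ (k + 1) * (1 - s / a) ^ d := by
    field_simp
  rw [h6] at h5
  linarith

theorem cc_pos {d : ℕ} {a : ℝ} (ha : 0 < a) (k : ℕ) : 0 < cc d a k := by
  unfold cc
  refine intervalIntegral.intervalIntegral_pos_of_pos_on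
    (Continuous.intervalIntegrable (by fun_prop) _ _) ?_ ha
  intro s hs
  have : 0 < 1 - s / a := by
    rw [sub_pos, div_lt_one ha]; exact hs.2
  have h0 : 0 < s := hs.1
  positivity

/-- the comparison profile -/
noncomputable def ww (d : ℕ) (a β : ℝ) (s : ℝ) : ℝ := β * (max (1 - s / a) 0) ^ d

theorem ww_int {d : ℕ} (hd : 0 < d) {a β T : ℝ} (ha : 0 < a) (haT : a ≤ T) (k : ℕ) :
    ∫ s in (0:ℝ)..T, s ^ k * ww d a β s = β * cc d a k := by
  have hc : Continuous fun s : ℝ => s ^ k * ww d a β s := by unfold ww; fun_prop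
  rw [← intervalIntegral.integral_add_adjacent_intervals (b := a)
    (hc.intervalIntegrable _ _) (hc.intervalIntegrable _ _)]
  have h1 : ∫ s in a..T, s ^ k * ww d a β s = 0 := by
    rw [intervalIntegral.integral_congr (g := fun _ => (0:ℝ))]
    · simp
    · intro s hs
      rw [uIcc_of_le haT] at hs
      have : 1 - s / a ≤ 0 := by
        rw [sub_nonpos, one_le_div ha]; exact hs.1
      simp only [ww, max_eq_right this]
      rw [zero_pow hd.ne']; ring
  have h2 : ∫ s in (0:ℝ)..a, s ^ k * ww d a β s = β * cc d a k := by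
    unfold cc
    rw [← intervalIntegral.integral_const_mul]
    refine intervalIntegral.integral_congr ?_
    intro s hs
    rw [uIcc_of_le ha.le] at hs
    have : 0 ≤ 1 - s / a := by
      rw [sub_nonneg, div_le_one ha]; exact hs.2
    simp only [ww, max_eq_left this]
    ring
  rw [h1, h2, add_zero]

/-- one-dimensional comparison -/
theorem core {d m : ℕ} (hd : 0 < d) (v : ℝ → ℝ) {T : ℝ} (hT : 0 < T)
    (hv0 : ∀ s, 0 ≤ v s) (hanti : Antitone v) (hvT : ∀ s, T ≤ s → v s = 0)
    (hconc : ∀ s t θ : ℝ, 0 < s → s < t → 0 < θ → θ < 1 → 0 < v s → 0 < v t →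
      (1 - θ) * v s ^ ((1:ℝ) / d) + θ * v t ^ ((1:ℝ) / d) ≤
        v ((1 - θ) * s + θ * t) ^ ((1:ℝ) / d))
    (hpos : 0 < ∫ s in (0:ℝ)..T, s ^ m * v s) (hpos' : 0 < ∫ s in (0:ℝ)..T, s ^ (m + 1) * v s) :
    ((m : ℝ) + 1) * ((m : ℝ) + d + 3) * ((∫ s in (0:ℝ)..T, s ^ (m + 2) * v s) *
      ∫ s in (0:ℝ)..T, s ^ m * v s) ≤
      ((m : ℝ) + 2) * ((m : ℝ) + d + 2) * (∫ s in (0:ℝ)..T, s ^ (m + 1) * v s) ^ 2 := by
  have hvint : ∀ (a b : ℝ) (k : ℕ), IntervalIntegrable (fun s => s ^ k * v s) volume a b := by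
    intro a b k
    have h1 : IntervalIntegrable v volume a b := hanti.intervalIntegrable
    exact h1.continuousOn_mul (by fun_prop)
  set J0 := ∫ s in (0:ℝ)..T, s ^ m * v s with hJ0
  set J1 := ∫ s in (0:ℝ)..T, s ^ (m + 1) * v s with hJ1
  set J2 := ∫ s in (0:ℝ)..T, s ^ (m + 2) * v s with hJ2
  set a : ℝ := (J1 / J0) * (((m : ℝ) + d + 2) / ((m : ℝ) + 1)) with ha
  have ha0 : 0 < a := by positivity
  set β : ℝ := J0 / cc d a m with hβ
  have hβ0 : 0 < β := div_pos hpos (cc_pos ha0 m)
  have hb0 : β * cc d a m = J0 := by rw [hβ]; field_simp [(cc_pos ha0 m).ne']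
  have hb1 : β * cc d a (m + 1) = J1 := by
    have h1 := cc_succ (d := d) ha0 m
    have h2 : cc d a (m + 1) = a * ((m : ℝ) + 1) / ((m : ℝ) + d + 2) * cc d a m := by
      field_simp
      linarith
    rw [h2, show β * (a * ((m : ℝ) + 1) / ((m : ℝ) + d + 2) * cc d a m) =
      a * ((m : ℝ) + 1) / ((m : ℝ) + d + 2) * (β * cc d a m) by ring, hb0, ha]
    field_simp
  have hb2 : β * cc d a (m + 2) = a * ((m : ℝ) + 2) / ((m : ℝ) + d + 3) * J1 := by
    have h1 := cc_succ (d := d) ha0 (m + 1)
    push_cast at h1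
    have h2 : cc d a (m + 2) = a * ((m : ℝ) + 2) / ((m : ℝ) + d + 3) * cc d a (m + 1) := by
      field_simp
      rw [show (m : ℝ) + 1 + 1 = m + 2 by ring] at h1
      rw [show m + 1 + 1 = m + 2 from rfl] at h1
      linarith
    rw [h2, ← hb1]
    ring
  -- intervals
  set T' : ℝ := max T a with hT'
  have hTT : T ≤ T' := le_max_left _ _
  have haT : a ≤ T' := le_max_right _ _
  have hT'0 : 0 < T' := lt_of_lt_of_le hT hTT
  have hext : ∀ k : ℕ, ∫ s in (0:ℝ)..T', s ^ k * v s = ∫ s in (0:ℝ)..T, s ^ k * v s := by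
    intro k
    rw [← intervalIntegral.integral_add_adjacent_intervals (hvint 0 T k) (hvint T T' k)]
    rw [intervalIntegral.integral_congr (a := T) (b := T') (g := fun _ => (0:ℝ))]
    · simp
    · intro s hs
      rw [uIcc_of_le hTT] at hs
      simp [hvT s hs.1]
  -- sign pattern
  set w : ℝ → ℝ := ww d a β with hw
  have hw0 : ∀ s, 0 ≤ w s := by
    intro s; rw [hw]; unfold ww; positivity
  have hwroot : ∀ s, w s ^ ((1:ℝ) / d) = β ^ ((1:ℝ) / d) * max (1 - s / a) 0 := by
    intro s
    rw [hw]; unfold ww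
    rw [Real.mul_rpow hβ0.le (by positivity)]
    congr 1
    rw [← Real.rpow_natCast, ← Real.rpow_mul (le_max_right _ _)]
    have : (d : ℝ) ≠ 0 := by exact_mod_cast hd.ne'
    rw [mul_one_div, div_self this, Real.rpow_one]
  have hP : ∀ s u t : ℝ, 0 < s → s < u → u < t → w s < v s → w t < v t → w u < v u := by
    intro s u t hs hsu hut h1 h2
    have hdn : (0:ℝ) < 1 / (d : ℝ) := by
      have : (0:ℝ) < d := by exact_mod_cast hd
      positivity
    set θ : ℝ := (u - s) / (t - s) with hθ
    have hts : 0 < t - s := by linarith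
    have hθ0 : 0 < θ := div_pos (by linarith) hts
    have hθ1 : θ < 1 := by rw [hθ, div_lt_one hts]; linarith
    have hu : (1 - θ) * s + θ * t = u := by
      rw [hθ]; field_simp; ring
    have hc := hconc s t θ hs (hsu.trans hut) hθ0 hθ1 ((hw0 s).trans_lt h1) ((hw0 t).trans_lt h2)
    rw [hu] at hc
    have h3 : w s ^ ((1:ℝ) / d) < v s ^ ((1:ℝ) / d) := Real.rpow_lt_rpow (hw0 s) h1 hdn
    have h4 : w t ^ ((1:ℝ) / d) < v t ^ ((1:ℝ) / d) := Real.rpow_lt_rpow (hw0 t) h2 hdn
    have h5 : w u ^ ((1:ℝ) / d) ≤ (1 - θ) * w s ^ ((1:ℝ) / d) + θ * w t ^ ((1:ℝ) / d) := by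
      rw [hwroot, hwroot, hwroot]
      have hbp : 0 < β ^ ((1:ℝ) / d) := Real.rpow_pos_of_pos hβ0 _
      have h6 : max (1 - u / a) 0 ≤ (1 - θ) * max (1 - s / a) 0 + θ * max (1 - t / a) 0 := by
        have h7 : 0 < 1 - θ := by linarith
        refine max_le ?_ (by positivity)
        have h8 := mul_le_mul_of_nonneg_left (le_max_left (1 - s / a) 0) h7.le
        have h9 := mul_le_mul_of_nonneg_left (le_max_left (1 - t / a) 0) hθ0.le
        have h10 : 1 - u / a = (1 - θ) * (1 - s / a) + θ * (1 - t / a) := by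
          rw [← hu]; field_simp; ring
        linarith
      calc β ^ ((1:ℝ) / d) * max (1 - u / a) 0
          ≤ β ^ ((1:ℝ) / d) * ((1 - θ) * max (1 - s / a) 0 + θ * max (1 - t / a) 0) :=
            mul_le_mul_of_nonneg_left h6 hbp.le
        _ = _ := by ring
    have h11 : w u ^ ((1:ℝ) / d) < v u ^ ((1:ℝ) / d) := by
      have h7 : 0 < 1 - θ := by linarith
      have := mul_lt_mul_of_pos_left h3 h7
      have := mul_lt_mul_of_pos_left h4 hθ0
      linarith
    by_contra hcon
    push Not at hcon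
    exact absurd (Real.rpow_le_rpow (hv0 u) hcon hdn.le) (not_le.mpr h11)
  obtain ⟨s1, s2, hs12⟩ : ∃ s1 s2 : ℝ, ∀ s : ℝ, 0 < s → (s - s1) * (s - s2) * (v s - w s) ≤ 0 := by
    set P : Set ℝ := {s | 0 < s ∧ w s < v s} with hPdef
    rcases P.eq_empty_or_nonempty with he | hne
    · refine ⟨0, 0, fun s hs => ?_⟩
      have : ¬ (w s < v s) := fun h => by
        have : s ∈ P := ⟨hs, h⟩
        rw [he] at this
        exact this
      push Not at this
      have h2 : 0 ≤ (s - 0) * (s - 0) := mul_self_nonneg _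
      exact mul_nonpos_of_nonneg_of_nonpos h2 (by linarith)
    · have hbdd : BddAbove P := by
        refine ⟨T, fun s hs => ?_⟩
        by_contra hc
        push Not at hc
        have h1 := hs.2
        rw [hvT s hc.le] at h1
        exact absurd (hw0 s) (not_le.mpr h1)
      have hbdb : BddBelow P := ⟨0, fun s hs => hs.1.le⟩
      refine ⟨sInf P, sSup P, fun s hs => ?_⟩
      by_cases hsP : w s < v s
      · have h1 : sInf P ≤ s := csInf_le hbdb ⟨hs, hsP⟩
        have h2 : s ≤ sSup P := le_csSup hbdd ⟨hs, hsP⟩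
        have h3 : (s - sInf P) * (s - sSup P) ≤ 0 :=
          mul_nonpos_of_nonneg_of_nonpos (by linarith) (by linarith)
        exact mul_nonpos_of_nonpos_of_nonneg h3 (by linarith)
      · have h4 : 0 ≤ (s - sInf P) * (s - sSup P) := by
          by_contra hc
          push Not at hc
          have h5 : sInf P < s ∧ s < sSup P := by
            have hle : sInf P ≤ sSup P := csInf_le_csSup hne hbdb hbdd
            constructor
            · by_contra h6
              push Not at h6
              have := mul_nonneg_of_nonpos_of_nonpos (by linarith : s - sInf P ≤ 0)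
                (by linarith : s - sSup P ≤ 0)
              linarith
            · by_contra h6
              push Not at h6
              have := mul_nonneg (by linarith : 0 ≤ s - sInf P) (by linarith : 0 ≤ s - sSup P)
              linarith
          obtain ⟨p, hp, hps⟩ := exists_lt_of_csInf_lt hne h5.1
          obtain ⟨q, hq, hqs⟩ := exists_lt_of_lt_csSup hne h5.2
          exact hsP (hP p s q hp.1 hps hqs hp.2 hq.2)
        exact mul_nonpos_of_nonneg_of_nonpos h4 (by linarith)
  -- integrate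
  have hwint : ∀ k : ℕ, IntervalIntegrable (fun s => s ^ k * w s) volume 0 T' := by
    intro k
    refine Continuous.intervalIntegrable ?_ _ _
    rw [hw]; unfold ww; fun_prop
  have hi : ∀ k : ℕ, IntervalIntegrable (fun s => s ^ k * v s - s ^ k * w s) volume 0 T' :=
    fun k => (hvint 0 T' k).sub (hwint k)
  have hval : ∀ k : ℕ, ∫ s in (0:ℝ)..T', (s ^ k * v s - s ^ k * w s) =
      (∫ s in (0:ℝ)..T, s ^ k * v s) - β * cc d a k := by
    intro k
    rw [intervalIntegral.integral_sub (hvint 0 T' k) (hwint k), hext, hw, ww_int hd ha0 haT]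
  have hmain : ∫ s in (0:ℝ)..T', s ^ m * ((s - s1) * (s - s2) * (v s - w s)) ≤ 0 := by
    rw [intervalIntegral.integral_of_le hT'0.le]
    refine setIntegral_nonpos measurableSet_Ioc ?_
    intro s hs
    exact mul_nonpos_of_nonneg_of_nonpos (pow_nonneg hs.1.le _) (hs12 s hs.1)
  have hexp : ∫ s in (0:ℝ)..T', s ^ m * ((s - s1) * (s - s2) * (v s - w s)) =
      (∫ s in (0:ℝ)..T', (s ^ (m + 2) * v s - s ^ (m + 2) * w s))
      - (s1 + s2) * (∫ s in (0:ℝ)..T', (s ^ (m + 1) * v s - s ^ (m + 1) * w s))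
      + s1 * s2 * (∫ s in (0:ℝ)..T', (s ^ m * v s - s ^ m * w s)) := by
    rw [← intervalIntegral.integral_const_mul, ← intervalIntegral.integral_const_mul,
      ← intervalIntegral.integral_sub (hi _) ((hi _).const_mul _),
      ← intervalIntegral.integral_add ((hi _).sub ((hi _).const_mul _)) ((hi _).const_mul _)]
    refine intervalIntegral.integral_congr ?_
    intro s _
    simp only
    ring
  rw [hexp, hval, hval, hval, ← hJ0, ← hJ1, ← hJ2, hb0, hb1, hb2] at hmain
  have hfin : J2 ≤ a * ((m : ℝ) + 2) / ((m : ℝ) + d + 3) * J1 := by linarith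
  have h20 : J2 * J0 ≤ a * ((m : ℝ) + 2) / ((m : ℝ) + d + 3) * J1 * J0 :=
    mul_le_mul_of_nonneg_right hfin hpos.le
  calc ((m : ℝ) + 1) * ((m : ℝ) + d + 3) * (J2 * J0)
      ≤ ((m : ℝ) + 1) * ((m : ℝ) + d + 3) *
        (a * ((m : ℝ) + 2) / ((m : ℝ) + d + 3) * J1 * J0) :=
        mul_le_mul_of_nonneg_left h20 (by positivity)
    _ = _ := by
        rw [ha]
        field_simp

/-- layer cake -/
theorem layer {d : ℕ} (h : (Fin d → ℝ) → ℝ) (hm : Measurable h) (h0 : ∀ x, 0 ≤ h x) {T : ℝ}
    (hT : 0 < T) (hM : ∀ x, h x < T) (hfin : volume {x | 0 < h x} ≠ ⊤) (p : ℕ) :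
    ∫ x, h x ^ (p + 1) =
      ((p : ℝ) + 1) * ∫ s in (0:ℝ)..T, s ^ p * (volume {x | s ≤ h x}).toReal := by
  have hfin' : ∀ s : ℝ, 0 < s → volume {x | s ≤ h x} ≠ ⊤ := by
    intro s hs
    refine ((measure_mono ?_).trans_lt (lt_top_iff_ne_top.mpr hfin)).ne
    intro x hx
    exact lt_of_lt_of_le hs hx
  have h1 := lintegral_comp_eq_lintegral_meas_le_mul (volume : Measure (Fin d → ℝ))
    (f := h) (g := fun t => ((p : ℝ) + 1) * t ^ p)
    (Filter.Eventually.of_forall h0) hm.aemeasurable
    (fun t _ => Continuous.intervalIntegrable (by fun_prop) _ _)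
    (by filter_upwards [ae_restrict_mem measurableSet_Ioi] with t ht
        have : (0:ℝ) < t := ht
        positivity)
  have h2 : ∀ y : ℝ, ∫ t in (0:ℝ)..y, ((p : ℝ) + 1) * t ^ p = y ^ (p + 1) := by
    intro y
    rw [intervalIntegral.integral_const_mul, integral_pow]
    have : (p : ℝ) + 1 ≠ 0 := by positivity
    field_simp
    simp
  simp only [h2] at h1
  rw [integral_eq_lintegral_of_nonneg_ae (Filter.Eventually.of_forall fun x =>
      pow_nonneg (h0 x) _) (hm.pow_const _).aestronglyMeasurable, h1,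
      ← intervalIntegral.integral_const_mul, intervalIntegral.integral_of_le hT.le,
      integral_eq_lintegral_of_nonneg_ae]
  · congr 1
    have h4 : Ioi (0:ℝ) = Ioc 0 T ∪ Ioi T := (Ioc_union_Ioi_eq_Ioi hT.le).symm
    rw [h4, lintegral_union measurableSet_Ioi]
    · have h5 : ∫⁻ t in Ioi T, volume {x | t ≤ h x} * ENNReal.ofReal (((p : ℝ) + 1) * t ^ p) =
          0 := by
        rw [setLIntegral_congr_fun (g := fun _ => 0) measurableSet_Ioi]
        · simp
        · intro t ht
          have : {x | t ≤ h x} = ∅ := by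
            ext x
            simp only [mem_ofPred_eq, mem_empty_iff_false, iff_false, not_le]
            exact (hM x).trans ht
          simp [this]
      rw [h5, add_zero]
      refine setLIntegral_congr_fun measurableSet_Ioc ?_
      intro t ht
      simp only
      rw [show ((p : ℝ) + 1) * (t ^ p * (volume {x | t ≤ h x}).toReal) =
        (volume {x | t ≤ h x}).toReal * (((p : ℝ) + 1) * t ^ p) by ring,
        ENNReal.ofReal_mul ENNReal.toReal_nonneg, ENNReal.ofReal_toReal (hfin' t ht.1)]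
    · exact Set.disjoint_left.mpr fun x hx hx' => absurd hx.2 (not_le.mpr hx')
  · filter_upwards [ae_restrict_mem measurableSet_Ioc] with t ht
    have h7 : (0:ℝ) < t := ht.1
    have h8 : 0 ≤ (volume {x | t ≤ h x}).toReal := ENNReal.toReal_nonneg
    simp only [Pi.zero_apply]
    positivity
  · have hanti : AntitoneOn (fun t : ℝ => (volume {x | t ≤ h x}).toReal) (Ioc 0 T) := by
      intro s hs t _ hst
      refine ENNReal.toReal_mono (hfin' s hs.1) (measure_mono ?_)
      intro x hx
      exact le_trans hst hx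
    have h9 : AEMeasurable (fun t : ℝ => (volume {x | t ≤ h x}).toReal)
        (volume.restrict (Ioc 0 T)) := aemeasurable_restrict_of_antitoneOn measurableSet_Ioc hanti
    exact ((aemeasurable_const (b := (p : ℝ) + 1)).mul
      ((measurable_id.pow_const p).aemeasurable.mul h9)).aestronglyMeasurable

/-- **Berwald's inequality** for consecutive powers. -/
theorem berwald {d : ℕ} (hd : 0 < d) (h : (Fin d → ℝ) → ℝ) (hm : Measurable h)
    (h0 : ∀ x, 0 ≤ h x) {M : ℝ} (hM : ∀ x, h x ≤ M) (hfin : volume {x | 0 < h x} ≠ ⊤)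
    (hconc : ∀ x y, 0 < h x → 0 < h y → ∀ θ : ℝ, 0 < θ → θ < 1 →
      (1 - θ) * h x + θ * h y ≤ h ((1 - θ) • x + θ • y)) {m : ℕ} (hm0 : 0 < m) :
    ((m : ℝ) + 1) * ((m : ℝ) + d + 2) * ((∫ x, h x ^ (m + 2)) * ∫ x, h x ^ m) ≤
      ((m : ℝ) + 2) * ((m : ℝ) + d + 1) * (∫ x, h x ^ (m + 1)) ^ 2 := by
  obtain ⟨k, rfl⟩ : ∃ k, m = k + 1 := ⟨m - 1, by omega⟩
  set T : ℝ := max M 0 + 1 with hT
  have hT0 : 0 < T := by positivity
  have hMT : ∀ x, h x < T := fun x => by
    have := le_max_left M 0
    linarith [hM x]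
  have hfin' : ∀ s : ℝ, 0 < s → volume {x | s ≤ h x} ≠ ⊤ := by
    intro s hs
    refine ((measure_mono ?_).trans_lt (lt_top_iff_ne_top.mpr hfin)).ne
    intro x hx
    exact lt_of_lt_of_le hs hx
  -- globally antitone version of the distribution function
  set v : ℝ → ℝ := fun s => if 0 < s then (volume {x | s ≤ h x}).toReal
    else (volume {x | 0 < h x}).toReal with hv
  have hvs : ∀ s : ℝ, 0 < s → v s = (volume {x | s ≤ h x}).toReal := fun s hs => by
    simp only [hv, if_pos hs]
  have hv0 : ∀ s, 0 ≤ v s := by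
    intro s
    simp only [hv]
    split_ifs <;> exact ENNReal.toReal_nonneg
  have hanti : Antitone v := by
    intro s t hst
    by_cases hs : 0 < s
    · rw [hvs s hs, hvs t (hs.trans_le hst)]
      refine ENNReal.toReal_mono (hfin' s hs) (measure_mono ?_)
      intro x hx
      exact le_trans hst hx
    · by_cases ht : 0 < t
      · rw [hvs t ht]
        simp only [hv, if_neg hs]
        refine ENNReal.toReal_mono hfin (measure_mono ?_)
        intro x hx
        exact lt_of_lt_of_le ht hx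
      · simp only [hv, if_neg hs, if_neg ht, le_refl]
  have hvT : ∀ s, T ≤ s → v s = 0 := by
    intro s hs
    rw [hvs s (hT0.trans_le hs)]
    have : {x | s ≤ h x} = ∅ := by
      ext x
      simp only [mem_ofPred_eq, mem_empty_iff_false, iff_false, not_le]
      exact (hMT x).trans_le hs
    simp [this]
  have hlay : ∀ p : ℕ, ∫ x, h x ^ (p + 1) = ((p : ℝ) + 1) * ∫ s in (0:ℝ)..T, s ^ p * v s := by
    intro p
    rw [layer h hm h0 hT0 hMT hfin p]
    congr 1
    rw [intervalIntegral.integral_of_le hT0.le, intervalIntegral.integral_of_le hT0.le]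
    refine setIntegral_congr_fun measurableSet_Ioc ?_
    intro s hs
    simp only
    rw [hvs s hs.1]
  have hvint : ∀ k : ℕ, IntervalIntegrable (fun s => s ^ k * v s) volume 0 T := by
    intro k
    have h1 : IntervalIntegrable v volume 0 T := hanti.intervalIntegrable
    exact h1.continuousOn_mul (by fun_prop)
  have hnn : ∀ k : ℕ, 0 ≤ ∫ s in (0:ℝ)..T, s ^ k * v s := by
    intro k
    rw [intervalIntegral.integral_of_le hT0.le]
    exact setIntegral_nonneg measurableSet_Ioc fun s hs => mul_nonneg (pow_nonneg hs.1.le _) (hv0 s)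
  rw [hlay k, show k + 1 + 1 = (k + 1) + 1 from rfl, hlay (k + 1),
    show k + 1 + 2 = (k + 2) + 1 from rfl, hlay (k + 2)]
  rcases (hnn k).eq_or_lt with hz | hpos
  · rw [← hz, mul_zero, mul_zero, mul_zero]
    positivity
  · have hpos' : 0 < ∫ s in (0:ℝ)..T, s ^ (k + 1) * v s := by
      rcases (hnn (k + 1)).eq_or_lt with hz | hp
      · exfalso
        rw [intervalIntegral.integral_of_le hT0.le] at hz hpos
        have hae := (setIntegral_eq_zero_iff_of_nonneg_ae (μ := volume) (s := Ioc 0 T)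
          (f := fun s : ℝ => s ^ (k + 1) * v s)
          (by filter_upwards [ae_restrict_mem measurableSet_Ioc] with s hs
              exact mul_nonneg (pow_nonneg hs.1.le _) (hv0 s))
          ((intervalIntegrable_iff_integrableOn_Ioc_of_le hT0.le).1 (hvint (k + 1)))).1 hz.symm
        have : ∫ s in Ioc 0 T, s ^ k * v s = 0 := by
          rw [integral_congr_ae (g := fun _ => (0:ℝ))]
          · simp
          · filter_upwards [hae, ae_restrict_mem measurableSet_Ioc] with s hs1 hs2
            have h3 : (s : ℝ) ^ (k + 1) ≠ 0 := (pow_pos hs2.1 _).ne'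
            have h4 : v s = 0 := by
              simpa [h3, hs2.1.ne'] using hs1
            rw [h4, mul_zero]
        linarith
      · exact hp
    have hcore := core hd v hT0 hv0 hanti hvT (by
      intro s t θ hs hst hθ0 hθ1 hvs0 hvt0
      have ht : 0 < t := hs.trans hst
      have hu : 0 < (1 - θ) * s + θ * t := by
        have : 0 < 1 - θ := by linarith
        positivity
      rw [hvs s hs] at hvs0 ⊢
      rw [hvs t ht] at hvt0 ⊢
      rw [hvs _ hu]
      refine Vale.Agent.P254.Unc.B966.bm_add hd (measurableSet_le measurable_const hm)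
        (measurableSet_le measurable_const hm) (measurableSet_le measurable_const hm)
        hvs0 hvt0 (hfin' _ hu) hθ0 hθ1 ?_
      intro a ha b hb
      have ha' : s ≤ h a := ha
      have hb' : t ≤ h b := hb
      have h1 := hconc a b (hs.trans_le ha') (ht.trans_le hb') θ hθ0 hθ1
      have h2 : (1 - θ) * s ≤ (1 - θ) * h a := mul_le_mul_of_nonneg_left ha' (by linarith)
      have h3 : θ * t ≤ θ * h b := mul_le_mul_of_nonneg_left hb' hθ0.le
      show (1 - θ) * s + θ * t ≤ h ((1 - θ) • a + θ • b)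
      linarith) hpos hpos'
    have h4 := mul_le_mul_of_nonneg_left hcore
      (show (0:ℝ) ≤ ((k : ℝ) + 3) * ((k : ℝ) + 2) by positivity)
    push_cast
    calc _ = ((k : ℝ) + 3) * ((k : ℝ) + 2) * (((k : ℝ) + 1) * ((k : ℝ) + d + 3) *
          ((∫ s in (0:ℝ)..T, s ^ (k + 2) * v s) * ∫ s in (0:ℝ)..T, s ^ k * v s)) := by ring
      _ ≤ _ := h4
      _ = _ := by ring

end Vale.Agent.P254.Refl.Ber586
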