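import Vale.Agent.P254.Unc.BerH

/-!
P254/Refl: Berwald's inequality with general exponents `m, m + 1, m + 2`.
-/

open MeasureTheory Set

namespace Vale.Agent.P254.Refl.H972

open Vale.Agent.P254.Unc.BerH (cone cone_integral)

/-- the Beta integral -/
noncomputable def bet (j d : ℕ) : ℝ := ∫ u in (0 : ℝ)..1, (1 - u) ^ j * u ^ d

theorem bet_zero (d : ℕ) : bet 0 d = 1 / ((d : ℝ) + 1) := by
  simp [bet, integral_pow]

theorem bet_succ' (j d : ℕ) : bet (j + 1) d = bet j d - bet j (d + 1) := by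
  unfold bet
  rw [← intervalIntegral.integral_sub (Continuous.intervalIntegrable (by fun_prop) _ _)
    (Continuous.intervalIntegrable (by fun_prop) _ _)]
  refine intervalIntegral.integral_congr fun u _ => ?_
  ring

theorem bet_eq (j : ℕ) : ∀ d : ℕ, bet j d = (j.factorial : ℝ) * d.factorial /
    (j + d + 1).factorial := by
  induction j with
  | zero =>
    intro d
    rw [bet_zero, Nat.zero_add, Nat.factorial_zero, Nat.factorial_succ]
    have : (d.factorial : ℝ) ≠ 0 := by exact_mod_cast d.factorial_ne_zero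
    push_cast
    field_simp
  | succ j ih =>
    intro d
    rw [bet_succ', ih, ih]
    have h1 : (j + 1 + d + 1).factorial = (j + d + 2) * (j + d + 1).factorial := by
      rw [show j + 1 + d + 1 = (j + d + 1) + 1 by ring, Nat.factorial_succ]
    have h2 : (j + (d + 1) + 1).factorial = (j + d + 2) * (j + d + 1).factorial := by
      rw [show j + (d + 1) + 1 = (j + d + 1) + 1 by ring, Nat.factorial_succ]
    rw [h1, h2, Nat.factorial_succ j, Nat.factorial_succ d]
    have : ((j + d + 1).factorial : ℝ) ≠ 0 := by exact_mod_cast (j + d + 1).factorial_ne_zero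
    push_cast
    field_simp
    ring

theorem bet_pos (j d : ℕ) : 0 < bet j d := by
  rw [bet_eq]
  have h1 : (0 : ℝ) < j.factorial := by exact_mod_cast j.factorial_pos
  have h2 : (0 : ℝ) < d.factorial := by exact_mod_cast d.factorial_pos
  have h3 : (0 : ℝ) < (j + d + 1).factorial := by exact_mod_cast (j + d + 1).factorial_pos
  positivity

theorem bet_step (j d : ℕ) : bet (j + 1) d * ((j : ℝ) + d + 2) = (j + 1) * bet j d := by
  rw [bet_eq, bet_eq]
  have h1 : (j + 1 + d + 1).factorial = (j + d + 2) * (j + d + 1).factorial := by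
    rw [show j + 1 + d + 1 = (j + d + 1) + 1 by ring, Nat.factorial_succ]
  rw [h1, Nat.factorial_succ]
  have : ((j + d + 1).factorial : ℝ) ≠ 0 := by exact_mod_cast (j + d + 1).factorial_ne_zero
  push_cast
  field_simp

/-- Comparison lemma in one variable, moments `j, j + 1, j + 2` of a profile. -/
theorem berwald_one (d j : ℕ) {F : ℝ → ℝ} {R : ℝ}
    (hF : ∀ t, t < 0 → F t = 0) (i0 : Integrable (fun t => t ^ j * F t))
    (i1 : Integrable (fun t => t ^ (j + 1) * F t))
    (i2 : Integrable (fun t => t ^ (j + 2) * F t)) (hm0 : 0 < ∫ t, t ^ j * F t)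
    (hm1 : 0 < ∫ t, t ^ (j + 1) * F t)
    (hT : ∀ c b : ℝ, 0 < c → 0 < b → ∃ T : Set ℝ, T ⊆ Icc 0 R ∧ T.OrdConnected ∧
      (∀ t ∈ T, cone d c b t ≤ F t) ∧ ∀ t, 0 ≤ t → t ∉ T → F t ≤ cone d c b t) :
    (j + 1) * ((j : ℝ) + d + 3) * (∫ t, t ^ j * F t) * ∫ t, t ^ (j + 2) * F t ≤
      (j + 2) * ((j : ℝ) + d + 2) * (∫ t, t ^ (j + 1) * F t) ^ 2 := by
  set M0 := ∫ t, t ^ j * F t with hM0
  set M1 := ∫ t, t ^ (j + 1) * F t with hM1
  set M2 := ∫ t, t ^ (j + 2) * F t with hM2
  set b := ((j : ℝ) + d + 2) * M1 / ((j + 1) * M0) with hb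
  have hbp : 0 < b := by positivity
  have hβ := bet_pos j d
  set c := M0 / (b ^ (j + 1) * bet j d) with hc
  have hcp : 0 < c := by positivity
  obtain ⟨T, hT1, hT2, hT3, hT4⟩ := hT c b hcp hbp
  have hbb : BddBelow T := ⟨0, fun t ht => (hT1 ht).1⟩
  have hba : BddAbove T := ⟨R, fun t ht => (hT1 ht).2⟩
  set α := sInf T
  set β := sSup T
  have key : ∀ t, t ^ j * ((t - α) * (t - β) * (F t - cone d c b t)) ≤ 0 := by
    intro t
    rcases lt_or_ge t 0 with h0 | h0
    · rw [hF t h0]
      unfold cone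
      rw [indicator_of_notMem (fun h => absurd h.1 (not_le.2 h0))]
      simp
    · refine mul_nonpos_of_nonneg_of_nonpos (pow_nonneg h0 j) ?_
      by_cases ht : t ∈ T
      · have h1 : α ≤ t := csInf_le hbb ht
        have h2 : t ≤ β := le_csSup hba ht
        have h3 := hT3 t ht
        have : (t - α) * (t - β) ≤ 0 := mul_nonpos_of_nonneg_of_nonpos (by linarith) (by linarith)
        exact mul_nonpos_of_nonpos_of_nonneg this (by linarith)
      · have h3 := hT4 t h0 ht
        refine mul_nonpos_of_nonneg_of_nonpos ?_ (by linarith)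
        rcases T.eq_empty_or_nonempty with hE | hE
        · have ha : α = 0 := by simp [α, hE]
          have hb' : β = 0 := by simp [β, hE]
          rw [ha, hb']
          nlinarith
        · have hab : α ≤ β := csInf_le_csSup hE hbb hba
          rcases le_or_gt t α with h | h
          · exact mul_nonneg_of_nonpos_of_nonpos (by linarith) (by linarith)
          · rcases le_or_gt β t with h' | h'
            · exact mul_nonneg (by linarith) (by linarith)
            · obtain ⟨s, hs, hs'⟩ := exists_lt_of_csInf_lt hE h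
              obtain ⟨s2, hs2, hs2'⟩ := exists_lt_of_lt_csSup hE h'
              exact absurd (hT2.out hs hs2 ⟨hs'.le, hs2'.le⟩) ht
  have hint : ∫ t, t ^ j * ((t - α) * (t - β) * (F t - cone d c b t)) ≤ 0 :=
    integral_nonpos key
  obtain ⟨j0, g0⟩ := cone_integral d j c hbp
  obtain ⟨j1, g1⟩ := cone_integral d (j + 1) c hbp
  obtain ⟨j2, g2⟩ := cone_integral d (j + 2) c hbp
  rw [← bet] at g0 g1 g2
  have hexp : ∫ t, t ^ j * ((t - α) * (t - β) * (F t - cone d c b t)) =
      (M2 - ∫ t, t ^ (j + 2) * cone d c b t) - (α + β) * (M1 - ∫ t, t ^ (j + 1) * cone d c b t) +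
        α * β * (M0 - ∫ t, t ^ j * cone d c b t) := by
    have e1 : ∀ t, t ^ j * ((t - α) * (t - β) * (F t - cone d c b t)) =
        (t ^ (j + 2) * F t - t ^ (j + 2) * cone d c b t) -
          (α + β) * (t ^ (j + 1) * F t - t ^ (j + 1) * cone d c b t) +
          α * β * (t ^ j * F t - t ^ j * cone d c b t) := fun t => by ring
    simp only [e1]
    have k2 : Integrable (fun t => t ^ (j + 2) * F t - t ^ (j + 2) * cone d c b t) := i2.sub j2
    have k1 : Integrable (fun t => (α + β) *
      (t ^ (j + 1) * F t - t ^ (j + 1) * cone d c b t)) := (i1.sub j1).const_mul _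
    have k0 : Integrable (fun t => α * β * (t ^ j * F t - t ^ j * cone d c b t)) :=
      (i0.sub j0).const_mul _
    have k21 : Integrable (fun t => t ^ (j + 2) * F t - t ^ (j + 2) * cone d c b t -
      (α + β) * (t ^ (j + 1) * F t - t ^ (j + 1) * cone d c b t)) := k2.sub k1
    rw [integral_add k21 k0, integral_sub k2 k1, integral_const_mul, integral_const_mul,
      integral_sub i2 j2, integral_sub i1 j1, integral_sub i0 j0]
  rw [hexp, g0, g1, g2] at hint
  have hs1 := bet_step j d
  have hs2 := bet_step (j + 1) d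
  push_cast at hs2
  have h0 : c * b ^ (j + 1) * bet j d = M0 := by rw [hc]; field_simp
  have hb0 : b * ((j + 1) * M0) = ((j : ℝ) + d + 2) * M1 := by rw [hb]; field_simp
  have hp1 : (0 : ℝ) < (j : ℝ) + d + 2 := by positivity
  have hp2 : (0 : ℝ) < (j : ℝ) + 1 + d + 2 := by positivity
  have h1 : c * b ^ (j + 1 + 1) * bet (j + 1) d = M1 := by
    have e : c * b ^ (j + 1 + 1) * bet (j + 1) d * ((j : ℝ) + d + 2) = M1 * ((j : ℝ) + d + 2) := by
      calc c * b ^ (j + 1 + 1) * bet (j + 1) d * ((j : ℝ) + d + 2)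
          = b * (c * b ^ (j + 1)) * (bet (j + 1) d * ((j : ℝ) + d + 2)) := by ring
        _ = b * (c * b ^ (j + 1)) * ((j + 1) * bet j d) := by rw [hs1]
        _ = b * ((j + 1) * (c * b ^ (j + 1) * bet j d)) := by ring
        _ = M1 * ((j : ℝ) + d + 2) := by rw [h0, hb0]; ring
    exact mul_right_cancel₀ hp1.ne' e
  have h2 : (j + 1) * ((j : ℝ) + d + 3) * M0 * (c * b ^ (j + 2 + 1) * bet (j + 2) d) =
      (j + 2) * ((j : ℝ) + d + 2) * M1 ^ 2 := by
    calc (j + 1) * ((j : ℝ) + d + 3) * M0 * (c * b ^ (j + 2 + 1) * bet (j + 2) d)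
        = (b * ((j + 1) * M0)) * (c * b ^ (j + 1 + 1)) *
            (bet (j + 1 + 1) d * ((j : ℝ) + 1 + d + 2)) := by ring
      _ = (b * ((j + 1) * M0)) * (c * b ^ (j + 1 + 1)) *
            (((j : ℝ) + 1 + 1) * bet (j + 1) d) := by rw [hs2]
      _ = (b * ((j + 1) * M0)) * (((j : ℝ) + 1 + 1) * (c * b ^ (j + 1 + 1) * bet (j + 1) d)) := by
          ring
      _ = (j + 2) * ((j : ℝ) + d + 2) * M1 ^ 2 := by rw [h1, hb0]; ring
  rw [h0, h1] at hint
  simp only [sub_self, mul_zero, sub_zero, add_zero] at hint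
  rw [← h2]
  have h3 : M2 ≤ c * b ^ (j + 2 + 1) * bet (j + 2) d := by linarith
  have hp : 0 ≤ (j + 1) * ((j : ℝ) + d + 3) * M0 := by positivity
  exact mul_le_mul_of_nonneg_left h3 hp

end Vale.Agent.P254.Refl.H972
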