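import Vale.Agent.P254.Unc.BerH
import Mathlib.Analysis.Convex.Continuous
import Mathlib.Analysis.Convex.Measure

/-!
P254: the inequality of Borell and Berwald for the moments `m`, `m + 1`, `m + 2` of a concave
function on a bounded convex set (helper898).
-/

open MeasureTheory Set

namespace Vale.Agent.P254.Refl.BG898

variable {d : ℕ} {D : Set (Fin d → ℝ)} {f : (Fin d → ℝ) → ℝ}

/-- the open hypograph -/
def hyp (D : Set (Fin d → ℝ)) (f : (Fin d → ℝ) → ℝ) : Set (Fin (d + 1) → ℝ) :=
  {z | Fin.tail z ∈ D ∧ 0 < z 0 ∧ z 0 < f (Fin.tail z)}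

structure Ok (D : Set (Fin d → ℝ)) (f : (Fin d → ℝ) → ℝ) : Prop where
  op : IsOpen D
  bdd : Bornology.IsBounded D
  conc : ConcaveOn ℝ D f
  nn : ∀ x ∈ D, 0 ≤ f x
  le : ∃ R, ∀ x ∈ D, f x ≤ R

theorem tail_add (z w : Fin (d + 1) → ℝ) (a b : ℝ) :
    Fin.tail (a • z + b • w) = a • Fin.tail z + b • Fin.tail w := rfl

theorem cont_tail : Continuous (Fin.tail : (Fin (d + 1) → ℝ) → Fin d → ℝ) :=
  continuous_pi fun i => continuous_apply i.succ

theorem Ok.cont (h : Ok D f) : ContinuousOn f D := h.conc.continuousOn h.op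

theorem Ok.hyp_convex (h : Ok D f) : Convex ℝ (hyp D f) := by
  intro z hz w hw a b ha hb hab
  refine ⟨?_, ?_, ?_⟩
  · rw [tail_add]
    exact h.conc.1 hz.1 hw.1 ha hb hab
  · have := (convex_Ioi (0 : ℝ)) hz.2.1 hw.2.1 ha hb hab
    simpa using this
  · have h1 : 0 < a * (f (Fin.tail z) - z 0) + b * (f (Fin.tail w) - w 0) := by
      have := (convex_Ioi (0 : ℝ)) (sub_pos.2 hz.2.2) (sub_pos.2 hw.2.2) ha hb hab
      simpa using this
    have h2 := h.conc.2 hz.1 hw.1 ha hb hab
    rw [tail_add]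
    simp only [Pi.add_apply, Pi.smul_apply, smul_eq_mul] at h2 ⊢
    linarith

theorem Ok.cont1 (h : Ok D f) :
    ContinuousOn (fun z : Fin (d + 1) → ℝ => f (Fin.tail z) - z 0) (Fin.tail ⁻¹' D) :=
  (h.cont.comp cont_tail.continuousOn fun _ hz => hz).sub (continuous_apply 0).continuousOn

theorem Ok.hyp_open (h : Ok D f) : IsOpen (hyp D f) := by
  have h1 : IsOpen (Fin.tail ⁻¹' D : Set (Fin (d + 1) → ℝ)) := h.op.preimage cont_tail
  have h2 := h.cont1.isOpen_inter_preimage h1 (isOpen_Ioi (a := (0 : ℝ)))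
  have h3 : IsOpen {z : Fin (d + 1) → ℝ | 0 < z 0} :=
    isOpen_lt continuous_const (continuous_apply 0)
  convert h2.inter h3 using 1
  ext z
  simp only [hyp, mem_ofPred_eq, mem_inter_iff, mem_preimage, mem_Ioi, sub_pos]
  tauto

theorem Ok.hyp_bdd (h : Ok D f) : Bornology.IsBounded (hyp D f) := by
  obtain ⟨R, hR⟩ := h.le
  obtain ⟨r, hr⟩ := h.bdd.exists_norm_le
  refine (Metric.isBounded_iff_subset_closedBall 0).2 ⟨max r R, fun z hz => ?_⟩
  rw [mem_closedBall_zero_iff]
  have h1 := hr _ hz.1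
  have h0 : 0 ≤ r := (norm_nonneg _).trans h1
  rw [pi_norm_le_iff_of_nonneg h0] at h1
  rw [pi_norm_le_iff_of_nonneg (h0.trans (le_max_left _ _))]
  intro i
  refine Fin.cases ?_ (fun j => ?_) i
  · rw [Real.norm_eq_abs, abs_of_pos hz.2.1]
    exact (hz.2.2.le.trans (hR _ hz.1)).trans (le_max_right _ _)
  · exact (h1 j).trans (le_max_left _ _)

theorem Ok.next (h : Ok D f) : Ok (hyp D f) (fun z => f (Fin.tail z) - z 0) := by
  obtain ⟨R, hR⟩ := h.le
  refine ⟨h.hyp_open, h.hyp_bdd, ⟨h.hyp_convex, ?_⟩, fun z hz => sub_nonneg.2 hz.2.2.le,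
    R, fun z hz => ?_⟩
  · intro z hz w hw a b ha hb hab
    have h2 := h.conc.2 hz.1 hw.1 ha hb hab
    simp only [tail_add, Pi.add_apply, Pi.smul_apply, smul_eq_mul] at h2 ⊢
    linarith
  · have := hR _ hz.1
    have := hz.2.1
    linarith

theorem int_hyp (h : Ok D f) {G : ℝ → (Fin d → ℝ) → ℝ}
    (hG : ContinuousOn (fun z : Fin (d + 1) → ℝ => G (z 0) (Fin.tail z)) (hyp D f)) {C : ℝ}
    (hB : ∀ z ∈ hyp D f, |G (z 0) (Fin.tail z)| ≤ C) :
    ∫ z in hyp D f, G (z 0) (Fin.tail z) = ∫ x in D, ∫ t in (0 : ℝ)..f x, G t x := by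
  have mp := (volume_preserving_piFinSuccAbove (fun _ : Fin (d + 1) => ℝ) 0).symm
  have hm : MeasurableSet (hyp D f) := h.hyp_open.measurableSet
  have hfin : volume (hyp D f) < ⊤ := h.hyp_bdd.measure_lt_top
  have hio : IntegrableOn (fun z : Fin (d + 1) → ℝ => G (z 0) (Fin.tail z)) (hyp D f) := by
    have : IsFiniteMeasure (volume.restrict (hyp D f)) := ⟨by simpa using hfin⟩
    refine Integrable.of_bound (hG.aestronglyMeasurable hm) C ?_
    filter_upwards [ae_restrict_mem hm] with z hz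
    rw [Real.norm_eq_abs]
    exact hB z hz
  set g : (Fin (d + 1) → ℝ) → ℝ := (hyp D f).indicator (fun z => G (z 0) (Fin.tail z)) with hg
  have hint : Integrable g := (integrable_indicator_iff hm).2 hio
  have hint2 : Integrable (fun p : ℝ × (Fin d → ℝ) => g
      ((MeasurableEquiv.piFinSuccAbove (fun _ : Fin (d + 1) => ℝ) 0).symm p))
      (volume.prod volume) := (mp.integrable_comp_emb (MeasurableEquiv.measurableEmbedding _)).2 hint
  have e2 := mp.integral_comp' (g := g)
  rw [← integral_indicator hm, ← hg, ← e2]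
  rw [Measure.volume_eq_prod, integral_prod_symm _ hint2, ← integral_indicator h.op.measurableSet]
  refine integral_congr_ae (Filter.Eventually.of_forall fun x => ?_)
  simp only
  have hs : ∀ t : ℝ, (MeasurableEquiv.piFinSuccAbove (fun _ : Fin (d + 1) => ℝ) 0).symm (t, x) =
      Fin.cons t x := fun t => by
    have h0 : (MeasurableEquiv.piFinSuccAbove (fun _ : Fin (d + 1) => ℝ) 0).symm (t, x) =
        (0 : Fin (d + 1)).insertNth t x := rfl
    rw [h0, Fin.insertNth_zero]
    rfl
  simp only [hs]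
  by_cases hx : x ∈ D
  · rw [indicator_of_mem hx, intervalIntegral.integral_of_le (h.nn x hx),
      integral_Ioc_eq_integral_Ioo, ← integral_indicator measurableSet_Ioo]
    refine integral_congr_ae (Filter.Eventually.of_forall fun t => ?_)
    simp only [hg]
    by_cases ht : t ∈ Ioo 0 (f x)
    · have hz : (Fin.cons t x : Fin (d + 1) → ℝ) ∈ hyp D f := by
        refine ⟨by simpa using hx, by simpa using ht.1, by simpa using ht.2⟩
      rw [indicator_of_mem ht, indicator_of_mem hz]
      simp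
    · have hz : (Fin.cons t x : Fin (d + 1) → ℝ) ∉ hyp D f := fun hh =>
        ht ⟨by simpa using hh.2.1, by simpa using hh.2.2⟩
      rw [indicator_of_notMem ht, indicator_of_notMem hz]
  · rw [indicator_of_notMem hx]
    have : ∀ t : ℝ, g (Fin.cons t x) = 0 := fun t => by
      rw [hg, indicator_of_notMem]
      intro hh
      exact hx (by simpa using hh.1)
    simp [this]

theorem int_f1 (h : Ok D f) (p : ℕ) :
    ∫ z in hyp D f, (f (Fin.tail z) - z 0) ^ p = (∫ x in D, f x ^ (p + 1)) / (p + 1) := by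
  obtain ⟨R, hR⟩ := h.le
  have h1 := int_hyp h (G := fun t x => (f x - t) ^ p) (C := R ^ p)
    ((h.cont1.mono fun z hz => hz.1).pow p) (fun z hz => by
      rw [abs_of_nonneg (pow_nonneg (sub_nonneg.2 hz.2.2.le) _)]
      refine pow_le_pow_left₀ (sub_nonneg.2 hz.2.2.le) ?_ p
      have := hR _ hz.1
      have := hz.2.1
      linarith)
  rw [h1, ← integral_div]
  refine setIntegral_congr_fun h.op.measurableSet fun x _ => ?_
  have h2 := intervalIntegral.integral_comp_sub_left (a := 0) (b := f x) (fun u : ℝ => u ^ p) (f x)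
  simp only [sub_self, sub_zero] at h2
  simp only [h2, integral_pow]
  simp

theorem int_z0 (h : Ok D f) (p : ℕ) :
    ∫ z in hyp D f, z 0 ^ p = (∫ x in D, f x ^ (p + 1)) / (p + 1) := by
  obtain ⟨R, hR⟩ := h.le
  have h1 := int_hyp h (G := fun t _ => t ^ p) (C := R ^ p)
    ((continuous_apply 0).continuousOn.pow p) (fun z hz => by
      rw [abs_of_nonneg (pow_nonneg hz.2.1.le _)]
      exact pow_le_pow_left₀ hz.2.1.le (hz.2.2.le.trans (hR _ hz.1)) p)
  rw [h1, ← integral_div]
  refine setIntegral_congr_fun h.op.measurableSet fun x _ => ?_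
  simp only [integral_pow]
  simp

/-- the case `m = 1` -/
theorem ber_one (h : Ok D f) :
    2 * ((d : ℝ) + 3) * ((∫ x in D, f x ^ 1) * ∫ x in D, f x ^ 3) ≤
      3 * ((d : ℝ) + 2) * (∫ x in D, f x ^ 2) ^ 2 := by
  have i0 := int_z0 h 0
  have i1 := int_z0 h 1
  have i2 := int_z0 h 2
  have hK : IsCompact (closure (hyp D f)) := h.hyp_bdd.isCompact_closure
  have hae : (closure (hyp D f) : Set (Fin (d + 1) → ℝ)) =ᵐ[volume] hyp D f := by
    have h1 := h.hyp_convex.addHaar_frontier volume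
    have h2 : closure (hyp D f) = hyp D f ∪ frontier (hyp D f) := by
      rw [closure_eq_self_union_frontier]
    rw [h2]
    exact union_ae_eq_left_of_ae_eq_empty (ae_eq_empty.2 h1)
  simp only [pow_zero, Nat.cast_zero, zero_add, div_one, pow_one, Nat.cast_one,
    integral_const, smul_eq_mul, mul_one, measureReal_restrict_apply_univ, Nat.cast_ofNat] at i0 i1 i2
  by_cases hv : 0 < volume.real (hyp D f)
  · have hv' : 0 < volume.real (closure (hyp D f)) := by
      rwa [measureReal_congr hae]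
    have hk : ∀ x ∈ closure (hyp D f), 0 ≤ x 0 := by
      have : closure (hyp D f) ⊆ {x | 0 ≤ x 0} :=
        closure_minimal (fun z hz => hz.2.1.le) (isClosed_le continuous_const (continuous_apply 0))
      exact fun x hx => this hx
    have hb := Unc.BerH.berwald h.hyp_convex.closure hK 0 hk hv'
    rw [measureReal_congr hae, setIntegral_congr_set hae, setIntegral_congr_set hae, i0, i1, i2] at hb
    simp only [pow_one]
    ring_nf at hb ⊢
    nlinarith [hb]
  · have hz : volume.real (hyp D f) = 0 := le_antisymm (not_lt.1 hv) measureReal_nonneg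
    have hz' : volume (hyp D f) = 0 := by
      rwa [measureReal_eq_zero_iff h.hyp_bdd.measure_lt_top.ne] at hz
    have hE : hyp D f = ∅ := by
      by_contra hne
      exact (h.hyp_open.measure_pos volume (nonempty_iff_ne_empty.2 hne)).ne' hz'
    have hf0 : ∀ x ∈ D, f x = 0 := by
      intro x hx
      refine le_antisymm (not_lt.1 fun hlt => ?_) (h.nn x hx)
      have : (Fin.cons (f x / 2) x : Fin (d + 1) → ℝ) ∈ hyp D f := by
        refine ⟨by simpa using hx, ?_, ?_⟩
        · simpa using hlt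
        · simp only [Fin.cons_zero, Fin.tail_cons]
          linarith
      rw [hE] at this
      exact this
    have h1 : ∫ x in D, f x ^ 1 = 0 := by
      rw [setIntegral_congr_fun (g := fun _ => 0) h.op.measurableSet fun x hx => by simp [hf0 x hx]]
      simp
    have h2 : ∫ x in D, f x ^ 2 = 0 := by
      rw [setIntegral_congr_fun (g := fun _ => 0) h.op.measurableSet fun x hx => by simp [hf0 x hx]]
      simp
    rw [h1, h2]
    simp

/-- the inequality for open sets -/
theorem ber_open (m : ℕ) : ∀ {d : ℕ} {D : Set (Fin d → ℝ)} {f : (Fin d → ℝ) → ℝ}, Ok D f →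
    ((m : ℝ) + 2) * ((d : ℝ) + m + 3) * ((∫ x in D, f x ^ (m + 1)) * ∫ x in D, f x ^ (m + 3)) ≤
      ((m : ℝ) + 3) * ((d : ℝ) + m + 2) * (∫ x in D, f x ^ (m + 2)) ^ 2 := by
  induction m with
  | zero =>
    intro d D f h
    have := ber_one h
    simpa using this
  | succ m ih =>
    intro d D f h
    have h1 := ih h.next
    rw [int_f1 h, int_f1 h, int_f1 h] at h1
    push_cast at h1 ⊢
    set a := ∫ x in D, f x ^ (m + 1 + 1)
    set b := ∫ x in D, f x ^ (m + 3 + 1)
    set c := ∫ x in D, f x ^ (m + 2 + 1)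
    have e1 : ((m : ℝ) + 2) * ((d : ℝ) + 1 + m + 3) * (a / (m + 1 + 1) * (b / (m + 3 + 1))) =
        ((d : ℝ) + m + 4) * (a * b) / (m + 4) := by
      field_simp
      ring
    have e2 : ((m : ℝ) + 3) * ((d : ℝ) + 1 + m + 2) * (c / (m + 2 + 1)) ^ 2 =
        ((d : ℝ) + m + 3) * c ^ 2 / (m + 3) := by
      field_simp
      ring
    rw [e1, e2, div_le_div_iff₀ (by positivity) (by positivity)] at h1
    have e5 : ((m : ℝ) + 1 + 2) * ((d : ℝ) + (m + 1) + 3) * (a * b) =
        ((d : ℝ) + m + 4) * (a * b) * (m + 3) := by ring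
    have e6 : ((m : ℝ) + 1 + 3) * ((d : ℝ) + (m + 1) + 2) * c ^ 2 =
        ((d : ℝ) + m + 3) * c ^ 2 * (m + 4) := by ring
    rw [e5, e6]
    exact h1

end Vale.Agent.P254.Refl.BG898

namespace Vale.Agent.P254.Refl

/-- **Borell's inequality** for the moments `m`, `m + 1`, `m + 2` of a concave function on a
bounded convex set of dimension `d`. -/
theorem berwald_gen (m d : ℕ) (hm : 1 ≤ m) {D : Set (Fin d → ℝ)} (hD : Convex ℝ D)
    (hb : Bornology.IsBounded D) {f : (Fin d → ℝ) → ℝ} (hf : ConcaveOn ℝ D f)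
    (h0 : ∀ x ∈ D, 0 ≤ f x) {R : ℝ} (hR : ∀ x ∈ D, f x ≤ R) :
    ((m : ℝ) + 1) * ((d : ℝ) + m + 2) * ((∫ x in D, f x ^ m) * ∫ x in D, f x ^ (m + 2)) ≤
      ((m : ℝ) + 2) * ((d : ℝ) + m + 1) * (∫ x in D, f x ^ (m + 1)) ^ 2 := by
  have hae : (interior D : Set (Fin d → ℝ)) =ᵐ[volume] D := by
    have h1 := hD.addHaar_frontier volume
    have h2 : D \ interior D ⊆ frontier D := fun x hx => ⟨subset_closure hx.1, hx.2⟩
    refine (ae_eq_set.2 ⟨?_, measure_mono_null h2 h1⟩)
    rw [sdiff_eq_empty.2 interior_subset, measure_empty]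
  have hok : BG898.Ok (interior D) f :=
    ⟨isOpen_interior, hb.subset interior_subset, hf.subset interior_subset hD.interior,
      fun x hx => h0 x (interior_subset hx), R, fun x hx => hR x (interior_subset hx)⟩
  obtain ⟨m, rfl⟩ : ∃ j, m = j + 1 := ⟨m - 1, by omega⟩
  have h := BG898.ber_open m hok
  rw [setIntegral_congr_set hae, setIntegral_congr_set hae, setIntegral_congr_set hae] at h
  push_cast
  rw [show (m : ℝ) + 1 + 1 = m + 2 by ring, show (d : ℝ) + (m + 1) + 2 = d + m + 3 by ring,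
    show (m : ℝ) + 1 + 2 = m + 3 by ring, show (d : ℝ) + (m + 1) + 1 = d + m + 2 by ring]
  exact h

end Vale.Agent.P254.Refl
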