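import Mathlib.MeasureTheory.Integral.IntegralEqImproper
import Mathlib.Analysis.SpecialFunctions.Integrals.Basic

/-!
# Three-moment inequality for powers of concave functions (one variable)
-/

open MeasureTheory Set

namespace Vale.Agent.P254.Refl.H103

theorem intOn {φ : ℝ → ℝ} {M : ℝ} (hM : 0 < M) (h0 : ∀ t, 0 ≤ φ t) (hanti : Antitone φ)
    (hφM : ∀ t, M < t → φ t = 0) {d : ℕ} (hd : 0 < d) (k : ℕ) :
    IntegrableOn (fun t => t ^ k * φ t ^ d) (Ioi 0) := by
  have h1 : IntegrableOn (fun t => t ^ k * φ t ^ d) (Ioc 0 M) := by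
    refine IntegrableOn.of_bound (C := M ^ k * φ 0 ^ d) (by simp) ?_ ?_
    · exact ((measurable_id.pow_const k).mul (hanti.measurable.pow_const d)).aestronglyMeasurable
    · filter_upwards [ae_restrict_mem measurableSet_Ioc] with t ht
      have ht0 : 0 < t := ht.1
      rw [Real.norm_eq_abs, abs_of_nonneg (mul_nonneg (by positivity) (pow_nonneg (h0 t) d))]
      exact mul_le_mul (pow_le_pow_left₀ ht0.le ht.2 k)
        (pow_le_pow_left₀ (h0 t) (hanti ht0.le) d) (pow_nonneg (h0 t) d) (by positivity)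
  refine h1.of_forall_sdiff_eq_zero measurableSet_Ioi ?_
  intro t ht
  have h2 : M < t := by
    by_contra hc
    exact ht.2 ⟨ht.1, not_lt.1 hc⟩
  rw [hφM t h2, zero_pow hd.ne', mul_zero]

/-- moments of the linear profile: recursion -/
theorem cone_rec {a : ℝ} (ha : 0 < a) (d k : ℕ) :
    ∫ t in (0:ℝ)..a, t ^ (k + 1) * (1 - t / a) ^ d =
      a * ((k:ℝ) + 1) / (k + d + 2) * ∫ t in (0:ℝ)..a, t ^ k * (1 - t / a) ^ d := by
  have hd : ∀ t ∈ uIcc (0:ℝ) a, HasDerivAt (fun t => t ^ (k + 1) * (1 - t / a) ^ (d + 1))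
      (((k:ℝ) + 1) * (t ^ k * (1 - t / a) ^ d)
        - ((k:ℝ) + d + 2) / a * (t ^ (k + 1) * (1 - t / a) ^ d)) t := by
    intro t _
    have h1 : HasDerivAt (fun s : ℝ => 1 - s / a) (-(1 / a)) t := by
      simpa using ((hasDerivAt_id t).div_const a).const_sub 1
    have h2 := (hasDerivAt_pow (k + 1) t).mul (h1.pow (d + 1))
    refine HasDerivAt.congr_deriv h2 ?_
    simp only [Pi.pow_apply, Nat.add_sub_cancel]
    push_cast
    obtain ⟨y, hy⟩ : ∃ y, y = 1 - t / a := ⟨_, rfl⟩
    rw [← hy]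
    linear_combination (t ^ k * y ^ d * ((k:ℝ) + 1)) * hy
  have h3 := intervalIntegral.integral_eq_sub_of_hasDerivAt hd
    (Continuous.intervalIntegrable (by fun_prop) _ _)
  rw [intervalIntegral.integral_sub (Continuous.intervalIntegrable (by fun_prop) _ _)
    (Continuous.intervalIntegrable (by fun_prop) _ _), intervalIntegral.integral_const_mul,
    intervalIntegral.integral_const_mul] at h3
  have e1 : a / a = 1 := div_self ha.ne'
  simp only [e1, sub_self] at h3
  rw [zero_pow (Nat.succ_ne_zero d), zero_pow (Nat.succ_ne_zero k)] at h3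
  simp only [mul_zero, zero_mul, sub_zero] at h3
  have h4 : ((k:ℝ) + d + 2) ≠ 0 := by positivity
  have h5 : ((k:ℝ) + d + 2) / a * ∫ t in (0:ℝ)..a, t ^ (k + 1) * (1 - t / a) ^ d =
      ((k:ℝ) + 1) * ∫ t in (0:ℝ)..a, t ^ k * (1 - t / a) ^ d := by linarith
  field_simp at h5 ⊢
  linarith

theorem cone_pos {a : ℝ} (ha : 0 < a) (d k : ℕ) :
    0 < ∫ t in (0:ℝ)..a, t ^ k * (1 - t / a) ^ d := by
  refine intervalIntegral.intervalIntegral_pos_of_pos_on
    (Continuous.intervalIntegrable (by fun_prop) _ _) ?_ ha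
  intro t ht
  have h1 : t / a < 1 := (div_lt_one ha).2 ht.2
  have h2 : 0 < t := ht.1
  have h3 : 0 < 1 - t / a := by linarith
  positivity

/-- moments of the truncated linear profile on the half line -/
theorem cone_Ioi {a c : ℝ} (ha : 0 < a) {d : ℕ} (hd : 0 < d) (k : ℕ) :
    ∫ t in Ioi (0:ℝ), t ^ k * (c * max (1 - t / a) 0) ^ d =
      c ^ d * ∫ t in (0:ℝ)..a, t ^ k * (1 - t / a) ^ d := by
  have h1 : ∫ t in Ioc (0:ℝ) a, t ^ k * (c * max (1 - t / a) 0) ^ d =
      ∫ t in Ioi (0:ℝ), t ^ k * (c * max (1 - t / a) 0) ^ d := by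
    symm
    refine setIntegral_eq_of_subset_of_forall_sdiff_eq_zero measurableSet_Ioi
      (fun t ht => ht.1) ?_
    intro t ht
    have h2 : a < t := by
      by_contra hc
      exact ht.2 ⟨ht.1, not_lt.1 hc⟩
    have h3 : 1 - t / a ≤ 0 := by
      have : 1 < t / a := (one_lt_div ha).2 h2
      linarith
    rw [max_eq_right h3, mul_zero, zero_pow hd.ne', mul_zero]
  rw [← h1, intervalIntegral.integral_of_le ha.le, ← integral_const_mul]
  refine setIntegral_congr_fun measurableSet_Ioc ?_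
  intro t ht
  have h3 : 0 ≤ 1 - t / a := by
    have : t / a ≤ 1 := (div_le_one ha).2 ht.2
    linarith
  simp only
  rw [max_eq_left h3, mul_pow]
  ring

theorem one_var {d p : ℕ} (hd : 0 < d) {φ : ℝ → ℝ} {M : ℝ} (hM : 0 < M) (h0 : ∀ t, 0 ≤ φ t)
    (hanti : Antitone φ) (hφM : ∀ t, M < t → φ t = 0)
    (hconc : ∀ s u θ : ℝ, 0 < s → s < u → 0 < θ → θ < 1 → 0 < φ u →
      (1 - θ) * φ s + θ * φ u ≤ φ ((1 - θ) * s + θ * u))
    (hJ0 : 0 < ∫ t in Ioi (0:ℝ), t ^ p * φ t ^ d)
    (hJ1 : 0 < ∫ t in Ioi (0:ℝ), t ^ (p + 1) * φ t ^ d) :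
    (∫ t in Ioi (0:ℝ), t ^ (p + 2) * φ t ^ d) * (∫ t in Ioi (0:ℝ), t ^ p * φ t ^ d) ≤
      (((p:ℝ) + d + 2) * (p + 2) / ((p + 1) * (p + d + 3))) *
        (∫ t in Ioi (0:ℝ), t ^ (p + 1) * φ t ^ d) ^ 2 := by
  set J : ℕ → ℝ := fun k => ∫ t in Ioi (0:ℝ), t ^ k * φ t ^ d with hJ
  change 0 < J p at hJ0
  change 0 < J (p + 1) at hJ1
  change J (p + 2) * J p ≤ (((p:ℝ) + d + 2) * (p + 2) / ((p + 1) * (p + d + 3))) * J (p + 1) ^ 2
  set a : ℝ := ((p:ℝ) + d + 2) * J (p + 1) / ((p + 1) * J p) with ha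
  have ha0 : 0 < a := by positivity
  set w : ℕ → ℝ := fun k => ∫ t in (0:ℝ)..a, t ^ k * (1 - t / a) ^ d with hw
  have hwp : 0 < w p := cone_pos ha0 d p
  have hw1 : w (p + 1) = a * ((p:ℝ) + 1) / (p + d + 2) * w p := cone_rec ha0 d p
  have hw2 : w (p + 2) = a * ((p:ℝ) + 2) / (p + d + 3) * w (p + 1) := by
    have := cone_rec ha0 d (p + 1)
    push_cast at this
    have e : (p:ℝ) + 1 + 1 = p + 2 := by ring
    have e2 : (p:ℝ) + 1 + d + 2 = p + d + 3 := by ring
    rw [e, e2] at this
    exact this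
  set A : ℝ := J p / w p with hA
  have hA0 : 0 < A := by positivity
  set c : ℝ := A ^ ((1:ℝ) / d) with hc
  have hdd : (d:ℝ) ≠ 0 := by exact_mod_cast hd.ne'
  have hcd : c ^ d = A := by
    rw [hc, ← Real.rpow_natCast, ← Real.rpow_mul hA0.le]
    simp [hdd]
  have hc0 : 0 < c := Real.rpow_pos_of_pos hA0 _
  set ψ : ℝ → ℝ := fun t => c * max (1 - t / a) 0 with hψ
  have hψ0 : ∀ t, 0 ≤ ψ t := fun t => mul_nonneg hc0.le (le_max_right _ _)
  have hψanti : Antitone ψ := by
    intro s t hst
    refine mul_le_mul_of_nonneg_left (max_le_max ?_ le_rfl) hc0.le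
    have : s / a ≤ t / a := div_le_div_of_nonneg_right hst ha0.le
    linarith
  have hψa : ∀ t, a < t → ψ t = 0 := by
    intro t ht
    have : 1 < t / a := (one_lt_div ha0).2 ht
    simp only [hψ]
    rw [max_eq_right (by linarith), mul_zero]
  have hψconv : ∀ s u θ : ℝ, 0 < θ → θ < 1 →
      ψ ((1 - θ) * s + θ * u) ≤ (1 - θ) * ψ s + θ * ψ u := by
    intro s u θ hθ0 hθ1
    simp only [hψ]
    have e : (1 - θ) * (c * max (1 - s / a) 0) + θ * (c * max (1 - u / a) 0) =
        c * ((1 - θ) * max (1 - s / a) 0 + θ * max (1 - u / a) 0) := by ring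
    rw [e]
    refine mul_le_mul_of_nonneg_left (max_le ?_ ?_) hc0.le
    · have e2 : 1 - ((1 - θ) * s + θ * u) / a = (1 - θ) * (1 - s / a) + θ * (1 - u / a) := by
        field_simp
        ring
      rw [e2]
      have := le_max_left (1 - s / a) 0
      have := le_max_left (1 - u / a) 0
      nlinarith
    · have h1 := le_max_right (1 - s / a) 0
      have h2 := le_max_right (1 - u / a) 0
      have h3 : 0 ≤ 1 - θ := by linarith
      positivity
  have hWk : ∀ k, ∫ t in Ioi (0:ℝ), t ^ k * ψ t ^ d = A * w k := by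
    intro k
    rw [← hcd]
    exact cone_Ioi ha0 hd k
  have iV : ∀ k, IntegrableOn (fun t => t ^ k * φ t ^ d) (Ioi 0) :=
    fun k => intOn hM h0 hanti hφM hd k
  have iW : ∀ k, IntegrableOn (fun t => t ^ k * ψ t ^ d) (Ioi 0) :=
    fun k => intOn ha0 hψ0 hψanti hψa hd k
  have m0 : A * w p = J p := by rw [hA]; field_simp
  have m1 : A * w (p + 1) = J (p + 1) := by
    rw [hw1, ha]
    have : A * (((p:ℝ) + d + 2) * J (p + 1) / ((p + 1) * J p) * ((p:ℝ) + 1) / (p + d + 2) * w p)
        = (A * w p) * J (p + 1) / J p := by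
      field_simp
    rw [this, m0]
    field_simp
  -- the main comparison
  have key : J (p + 2) ≤ A * w (p + 2) := by
    by_cases hE : ∀ t, 0 < t → φ t ≤ ψ t
    · rw [← hWk (p + 2)]
      refine setIntegral_mono_on (iV _) (iW _) measurableSet_Ioi ?_
      intro t ht
      have ht0 : 0 < t := ht
      exact mul_le_mul_of_nonneg_left (pow_le_pow_left₀ (h0 t) (hE t ht0) d) (by positivity)
    · push Not at hE
      obtain ⟨t0, ht0, ht0'⟩ := hE
      set E : Set ℝ := {t | 0 < t ∧ ψ t < φ t} with hEdef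
      have hEne : E.Nonempty := ⟨t0, ht0, ht0'⟩
      have hEb : BddBelow E := ⟨0, fun t ht => ht.1.le⟩
      have hEa : BddAbove E := ⟨M, fun t ht => by
        by_contra hcon
        have h1 := hφM t (not_le.1 hcon)
        have h2 := ht.2
        rw [h1] at h2
        exact absurd h2 (not_lt.2 (hψ0 t))⟩
      set t1 := sInf E with ht1
      set t2 := sSup E with ht2
      have h12 : t1 ≤ t2 := (csInf_le hEb hEne.some_mem).trans (le_csSup hEa hEne.some_mem)
      have hsign : ∀ t, 0 < t → (φ t ^ d - ψ t ^ d) * ((t - t1) * (t - t2)) ≤ 0 := by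
        intro t ht
        rcases lt_trichotomy t t1 with hlt | heq | hgt
        · have hnot : t ∉ E := fun hh => absurd (csInf_le hEb hh) (not_le.2 hlt)
          have hle : φ t ≤ ψ t := by
            by_contra hcon
            exact hnot ⟨ht, not_le.1 hcon⟩
          have hle' := pow_le_pow_left₀ (h0 t) hle d
          have : 0 ≤ (t - t1) * (t - t2) :=
            mul_nonneg_of_nonpos_of_nonpos (by linarith) (by linarith)
          exact mul_nonpos_of_nonpos_of_nonneg (by linarith) this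
        · rw [heq]; simp
        · rcases lt_trichotomy t t2 with hlt | heq | hgt2
          · obtain ⟨s, hs, hst⟩ := exists_lt_of_csInf_lt hEne hgt
            obtain ⟨u, hu, htu⟩ := exists_lt_of_lt_csSup hEne hlt
            have hus : 0 < u - s := by linarith
            set θ : ℝ := (t - s) / (u - s) with hθ
            have hθ0 : 0 < θ := div_pos (by linarith) hus
            have hθ1 : θ < 1 := (div_lt_one hus).2 (by linarith)
            have hteq : (1 - θ) * s + θ * u = t := by
              rw [hθ]; field_simp; ring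
            have hφu : 0 < φ u := lt_of_le_of_lt (hψ0 u) hu.2
            have h3 := hconc s u θ hs.1 (by linarith) hθ0 hθ1 hφu
            have h4 := hψconv s u θ hθ0 hθ1
            rw [hteq] at h3 h4
            have h5 : (1 - θ) * ψ s + θ * ψ u ≤ (1 - θ) * φ s + θ * φ u := by
              have := mul_le_mul_of_nonneg_left hs.2.le (by linarith : 0 ≤ 1 - θ)
              have := mul_le_mul_of_nonneg_left hu.2.le hθ0.le
              linarith
            have hle : ψ t ≤ φ t := h4.trans (h5.trans h3)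
            have hle' := pow_le_pow_left₀ (hψ0 t) hle d
            have : (t - t1) * (t - t2) ≤ 0 :=
              mul_nonpos_of_nonneg_of_nonpos (by linarith) (by linarith)
            exact mul_nonpos_of_nonneg_of_nonpos (by linarith) this
          · rw [heq]; simp
          · have hnot : t ∉ E := fun hh => absurd (le_csSup hEa hh) (not_le.2 hgt2)
            have hle : φ t ≤ ψ t := by
              by_contra hcon
              exact hnot ⟨ht, not_le.1 hcon⟩
            have hle' := pow_le_pow_left₀ (h0 t) hle d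
            have : 0 ≤ (t - t1) * (t - t2) := mul_nonneg (by linarith) (by linarith)
            exact mul_nonpos_of_nonpos_of_nonneg (by linarith) this
      have hint : ∫ t in Ioi (0:ℝ), t ^ p * ((φ t ^ d - ψ t ^ d) * ((t - t1) * (t - t2))) ≤ 0 := by
        refine setIntegral_nonpos measurableSet_Ioi ?_
        intro t ht
        have ht0 : 0 < t := ht
        exact mul_nonpos_of_nonneg_of_nonpos (by positivity) (hsign t ht0)
      have hexp : ∀ t : ℝ, t ^ p * ((φ t ^ d - ψ t ^ d) * ((t - t1) * (t - t2))) =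
          ((t ^ (p + 2) * φ t ^ d - t ^ (p + 2) * ψ t ^ d)
            - (t1 + t2) * (t ^ (p + 1) * φ t ^ d - t ^ (p + 1) * ψ t ^ d))
            + t1 * t2 * (t ^ p * φ t ^ d - t ^ p * ψ t ^ d) := by
        intro t; ring
      simp only [hexp] at hint
      have j : ∀ k, Integrable (fun t => t ^ k * φ t ^ d - t ^ k * ψ t ^ d)
          (volume.restrict (Ioi (0:ℝ))) := fun k => (iV k).sub (iW k)
      have i2 := j (p + 2)
      have i1 : Integrable (fun t => (t1 + t2) * (t ^ (p + 1) * φ t ^ d - t ^ (p + 1) * ψ t ^ d))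
          (volume.restrict (Ioi (0:ℝ))) := (j (p + 1)).const_mul (t1 + t2)
      have i0 : Integrable (fun t => t1 * t2 * (t ^ p * φ t ^ d - t ^ p * ψ t ^ d))
          (volume.restrict (Ioi (0:ℝ))) := (j p).const_mul (t1 * t2)
      have i21 : Integrable (fun t => (t ^ (p + 2) * φ t ^ d - t ^ (p + 2) * ψ t ^ d)
            - (t1 + t2) * (t ^ (p + 1) * φ t ^ d - t ^ (p + 1) * ψ t ^ d))
          (volume.restrict (Ioi (0:ℝ))) := i2.sub i1
      rw [integral_add i21 i0, integral_sub i2 i1, integral_const_mul, integral_const_mul,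
        integral_sub (iV _) (iW _), integral_sub (iV _) (iW _), integral_sub (iV _) (iW _),
        hWk, hWk, hWk, m0, m1] at hint
      change (J (p + 2) - A * w (p + 2)) - (t1 + t2) * (J (p + 1) - J (p + 1))
        + t1 * t2 * (J p - J p) ≤ 0 at hint
      linarith
  have e2 : A * w (p + 2) = ((p:ℝ) + d + 2) * (p + 2) / ((p + 1) * (p + d + 3)) *
      J (p + 1) ^ 2 / J p := by
    have : A * w (p + 2) = a * ((p:ℝ) + 2) / (p + d + 3) * (A * w (p + 1)) := by
      rw [hw2]; ring
    rw [this, m1, ha]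
    field_simp
  rw [e2, le_div_iff₀ hJ0] at key
  exact key

end Vale.Agent.P254.Refl.H103
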