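import Vale.Agent.P254.Unc.BerH

/-!
P254, bodies with reflection symmetries: Berwald's inequality with a power weight.

For a convex body K in the half space x_k ≥ 0 of R^n, n = d + 1, and a natural number j:
(j + 1) (j + d + 3) ∫ x_k^j ∫ x_k^(j+2) ≤ (j + 2) (j + d + 2) (∫ x_k^(j+1))².
-/

open MeasureTheory Set
open scoped ENNReal Pointwise

namespace Vale.Agent.P254.Refl.BerW

open Vale.Agent.P254.Unc Vale.Agent.P254.Unc.BerH

/-- the Beta integral -/
noncomputable def bet (d p : ℕ) : ℝ := ∫ u in (0 : ℝ)..1, (1 - u) ^ p * u ^ d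

theorem bet_pos (d p : ℕ) : 0 < bet d p := by
  unfold bet
  apply intervalIntegral.intervalIntegral_pos_of_pos_on
  · exact Continuous.intervalIntegrable (by fun_prop) _ _
  · intro u hu
    have h1 : 0 < 1 - u := by linarith [hu.2]
    have h2 : 0 < u := hu.1
    positivity
  · norm_num

theorem bet_succ (d p : ℕ) : ((p : ℝ) + d + 2) * bet d (p + 1) = (p + 1) * bet d p := by
  have hder : ∀ u : ℝ, HasDerivAt (fun u : ℝ => (1 - u) ^ (p + 1) * u ^ (d + 1))
      (((d : ℝ) + 1) * ((1 - u) ^ (p + 1) * u ^ d) -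
        ((p : ℝ) + 1) * ((1 - u) ^ p * u ^ (d + 1))) u := by
    intro u
    have h1 : HasDerivAt (fun u : ℝ => (1 - u) ^ (p + 1))
        (((p + 1 : ℕ) : ℝ) * (1 - u) ^ (p + 1 - 1) * (-1)) u :=
      ((hasDerivAt_id u).const_sub 1).pow (p + 1)
    have h2 := hasDerivAt_pow (d + 1) u
    refine (h1.mul h2).congr_deriv ?_
    simp only [Nat.add_sub_cancel]
    push_cast
    ring
  have hint := intervalIntegral.integral_eq_sub_of_hasDerivAt (a := 0) (b := 1)
    (fun u _ => hder u) (Continuous.intervalIntegrable (by fun_prop) _ _)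
  have i1 : IntervalIntegrable (fun u : ℝ => (1 - u) ^ p * u ^ (d + 1)) volume 0 1 :=
    Continuous.intervalIntegrable (by fun_prop) _ _
  have i2 : IntervalIntegrable (fun u : ℝ => (1 - u) ^ (p + 1) * u ^ d) volume 0 1 :=
    Continuous.intervalIntegrable (by fun_prop) _ _
  have i3 : IntervalIntegrable (fun u : ℝ => (1 - u) ^ p * u ^ d) volume 0 1 :=
    Continuous.intervalIntegrable (by fun_prop) _ _
  rw [intervalIntegral.integral_sub (i2.const_mul _) (i1.const_mul _),
    intervalIntegral.integral_const_mul, intervalIntegral.integral_const_mul] at hint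
  have e : ∫ u in (0 : ℝ)..1, (1 - u) ^ p * u ^ (d + 1) = bet d p - bet d (p + 1) := by
    unfold bet
    rw [← intervalIntegral.integral_sub i3 i2]
    congr 1
    ext u
    ring
  rw [e] at hint
  have e2 : ∫ u in (0 : ℝ)..1, (1 - u) ^ (p + 1) * u ^ d = bet d (p + 1) := rfl
  rw [e2] at hint
  simp at hint
  linarith

/-- Comparison lemma in one variable. -/
theorem berwald_one_w (d j : ℕ) {F : ℝ → ℝ} {R : ℝ}
    (hF : ∀ t, t < 0 → F t = 0) (i0 : Integrable (fun t => t ^ j * F t))
    (i1 : Integrable (fun t => t ^ (j + 1) * F t))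
    (i2 : Integrable (fun t => t ^ (j + 2) * F t)) (hm0 : 0 < ∫ t, t ^ j * F t)
    (hm1 : 0 < ∫ t, t ^ (j + 1) * F t)
    (hT : ∀ c b : ℝ, 0 < c → 0 < b → ∃ T : Set ℝ, T ⊆ Icc 0 R ∧ T.OrdConnected ∧
      (∀ t ∈ T, cone d c b t ≤ F t) ∧ ∀ t, 0 ≤ t → t ∉ T → F t ≤ cone d c b t) :
    ((j : ℝ) + 1) * (j + d + 3) * ((∫ t, t ^ j * F t) * ∫ t, t ^ (j + 2) * F t) ≤
      (j + 2) * (j + d + 2) * (∫ t, t ^ (j + 1) * F t) ^ 2 := by
  set M0 := ∫ t, t ^ j * F t with hM0
  set M1 := ∫ t, t ^ (j + 1) * F t with hM1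
  set M2 := ∫ t, t ^ (j + 2) * F t with hM2
  set b := ((j : ℝ) + d + 2) * M1 / ((j + 1) * M0) with hb
  have hbp : 0 < b := by positivity
  have hbet := bet_pos d j
  set c := M0 / (b ^ (j + 1) * bet d j) with hc
  have hcp : 0 < c := by positivity
  obtain ⟨T, hT1, hT2, hT3, hT4⟩ := hT c b hcp hbp
  have hbb : BddBelow T := ⟨0, fun t ht => (hT1 ht).1⟩
  have hba : BddAbove T := ⟨R, fun t ht => (hT1 ht).2⟩
  set α := sInf T
  set β := sSup T
  have key : ∀ t, t ^ j * ((t - α) * (t - β) * (F t - cone d c b t)) ≤ 0 := by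
    intro t
    rcases lt_or_ge t 0 with h0 | h0
    · rw [hF t h0]
      unfold cone
      rw [indicator_of_notMem (fun h => absurd h.1 (not_le.2 h0))]
      simp
    · refine mul_nonpos_of_nonneg_of_nonpos (by positivity) ?_
      by_cases ht : t ∈ T
      · have h1 : α ≤ t := csInf_le hbb ht
        have h2 : t ≤ β := le_csSup hba ht
        have h3 := hT3 t ht
        have : (t - α) * (t - β) ≤ 0 := mul_nonpos_of_nonneg_of_nonpos (by linarith) (by linarith)
        exact mul_nonpos_of_nonpos_of_nonneg this (by linarith)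
      · have h3 := hT4 t h0 ht
        refine mul_nonpos_of_nonneg_of_nonpos ?_ (by linarith)
        rcases T.eq_empty_or_nonempty with hE | hE
        · have ha : α = 0 := by simp [α, hE]
          have hb' : β = 0 := by simp [β, hE]
          rw [ha, hb']
          nlinarith
        · have hab : α ≤ β := csInf_le_csSup hE hbb hba
          rcases le_or_gt t α with h | h
          · exact mul_nonneg_of_nonpos_of_nonpos (by linarith) (by linarith)
          · rcases le_or_gt β t with h' | h'
            · exact mul_nonneg (by linarith) (by linarith)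
            · obtain ⟨s, hs, hs'⟩ := exists_lt_of_csInf_lt hE h
              obtain ⟨s2, hs2, hs2'⟩ := exists_lt_of_lt_csSup hE h'
              exact absurd (hT2.out hs hs2 ⟨hs'.le, hs2'.le⟩) ht
  have hint : ∫ t, t ^ j * ((t - α) * (t - β) * (F t - cone d c b t)) ≤ 0 :=
    integral_nonpos key
  obtain ⟨j0, g0⟩ := cone_integral d j c hbp
  obtain ⟨j1, g1⟩ := cone_integral d (j + 1) c hbp
  obtain ⟨j2, g2⟩ := cone_integral d (j + 2) c hbp
  have hexp : ∫ t, t ^ j * ((t - α) * (t - β) * (F t - cone d c b t)) =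
      (M2 - ∫ t, t ^ (j + 2) * cone d c b t) - (α + β) * (M1 - ∫ t, t ^ (j + 1) * cone d c b t) +
        α * β * (M0 - ∫ t, t ^ j * cone d c b t) := by
    have e1 : ∀ t, t ^ j * ((t - α) * (t - β) * (F t - cone d c b t)) =
        (t ^ (j + 2) * F t - t ^ (j + 2) * cone d c b t) -
          (α + β) * (t ^ (j + 1) * F t - t ^ (j + 1) * cone d c b t) +
          α * β * (t ^ j * F t - t ^ j * cone d c b t) := fun t => by ring
    simp only [e1]
    have k2 : Integrable (fun t => t ^ (j + 2) * F t - t ^ (j + 2) * cone d c b t) := i2.sub j2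
    have k1 : Integrable (fun t => (α + β) * (t ^ (j + 1) * F t - t ^ (j + 1) * cone d c b t)) :=
      (i1.sub j1).const_mul _
    have k0 : Integrable (fun t => α * β * (t ^ j * F t - t ^ j * cone d c b t)) :=
      (i0.sub j0).const_mul _
    have k21 : Integrable (fun t => t ^ (j + 2) * F t - t ^ (j + 2) * cone d c b t -
      (α + β) * (t ^ (j + 1) * F t - t ^ (j + 1) * cone d c b t)) := k2.sub k1
    rw [integral_add k21 k0, integral_sub k2 k1, integral_const_mul, integral_const_mul,
      integral_sub i2 j2, integral_sub i1 j1, integral_sub i0 j0]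
  have b0 : ∫ u in (0 : ℝ)..1, (1 - u) ^ j * u ^ d = bet d j := rfl
  have b1 : ∫ u in (0 : ℝ)..1, (1 - u) ^ (j + 1) * u ^ d = bet d (j + 1) := rfl
  have b2 : ∫ u in (0 : ℝ)..1, (1 - u) ^ (j + 2) * u ^ d = bet d (j + 2) := rfl
  rw [b0] at g0
  rw [b1] at g1
  rw [b2] at g2
  have r1 : bet d (j + 1) = (j + 1) / (j + d + 2) * bet d j := by
    have := bet_succ d j
    field_simp
    linarith
  have r2 : bet d (j + 2) = (j + 2) / (j + d + 3) * bet d (j + 1) := by
    have := bet_succ d (j + 1)
    push_cast at this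
    have e : bet d (j + 1 + 1) = bet d (j + 2) := rfl
    rw [e] at this
    field_simp
    linarith
  have q0 : c * b ^ (j + 1) * bet d j = M0 := by
    rw [hc]; field_simp
  have q1 : c * b ^ (j + 1 + 1) * bet d (j + 1) = M1 := by
    rw [r1, pow_succ b (j + 1)]
    calc c * (b ^ (j + 1) * b) * ((j + 1) / (j + d + 2) * bet d j)
        = (c * b ^ (j + 1) * bet d j) * (b * ((j + 1) / (j + d + 2))) := by ring
      _ = M1 := by rw [q0, hb]; field_simp
  have q2 : c * b ^ (j + 2 + 1) * bet d (j + 2) = M1 * b * ((j + 2) / (j + d + 3)) := by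
    rw [r2, pow_succ b (j + 2), show j + 2 = j + 1 + 1 from rfl]
    calc c * (b ^ (j + 1 + 1) * b) * ((j + 2) / (j + d + 3) * bet d (j + 1))
        = (c * b ^ (j + 1 + 1) * bet d (j + 1)) * b * ((j + 2) / (j + d + 3)) := by ring
      _ = _ := by rw [q1]
  rw [hexp, g0, g1, g2, q0, q1, q2] at hint
  have h3 : M2 ≤ M1 * b * ((j + 2) / (j + d + 3)) := by linarith
  have h4 : ((j : ℝ) + 1) * (j + d + 3) * (M0 * (M1 * b * ((j + 2) / (j + d + 3)))) =
      (j + 2) * (j + d + 2) * M1 ^ 2 := by
    rw [hb]; field_simp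
  rw [← h4]
  gcongr

theorem exists_T {d : ℕ} {K : Set (Fin (d + 1) → ℝ)} (hK : Convex ℝ K) (hc : IsCompact K)
    (k : Fin (d + 1)) (hk : ∀ x ∈ K, 0 ≤ x k) {R : ℝ} (hR : ∀ x ∈ K, x k ≤ R) :
    ∀ c b : ℝ, 0 < c → 0 < b → ∃ T : Set ℝ, T ⊆ Icc 0 R ∧ T.OrdConnected ∧
      (∀ t ∈ T, cone d c b t ≤ volume.real (slice K k t)) ∧
        ∀ t, 0 ≤ t → t ∉ T → volume.real (slice K k t) ≤ cone d c b t := by
  have hneg : ∀ t, t < 0 → slice K k t = ∅ := by
    intro t ht
    ext y
    simp only [slice, mem_ofPred_eq, mem_empty_iff_false, iff_false]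
    intro h
    have := hk _ h
    simp at this
    linarith
  have hle : ∀ t, (slice K k t).Nonempty → t ≤ R := by
    rintro t ⟨y, hy⟩
    have := hR _ hy
    simpa using this
  have hge : ∀ t, (slice K k t).Nonempty → 0 ≤ t := by
    rintro t ⟨y, hy⟩
    have := hk _ hy
    simpa using this
  have hfin : ∀ t, volume (slice K k t) ≠ ∞ := by
    intro t
    have hb : Bornology.IsBounded (slice K k t) := by
      obtain ⟨r, hr⟩ := hc.isBounded.exists_norm_le
      refine (Metric.isBounded_iff_subset_closedBall 0).2 ⟨r, fun y hy => ?_⟩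
      rw [mem_closedBall_zero_iff]
      have h1 := hr _ hy
      have h0 : 0 ≤ r := (norm_nonneg _).trans h1
      rw [pi_norm_le_iff_of_nonneg h0] at h1 ⊢
      intro i
      simpa using h1 (k.succAbove i)
    exact hb.measure_lt_top.ne
  intro c b hcp hbp
  have hcone : ∀ t, 0 ≤ t → t < b → cone d c b t = c * (1 - t / b) ^ d := fun t h1 h2 => by
    unfold cone; rw [indicator_of_mem (show t ∈ Ico 0 b from ⟨h1, h2⟩)]
  have hcone' : ∀ t, b ≤ t → cone d c b t = 0 := fun t h1 => by
    unfold cone; rw [indicator_of_notMem (fun h => absurd h.2 (not_lt.2 h1))]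
  have hpos : ∀ t, 0 ≤ t → t < b → 0 < 1 - t / b := fun t _ h2 => by
    rw [sub_pos, div_lt_one hbp]; exact h2
  have hmem : ∀ t, 0 ≤ t → t < b → cone d c b t ≤ volume.real (slice K k t) →
      ENNReal.ofReal (c * (1 - t / b) ^ d) ≤ volume (slice K k t) := by
    intro t h1 h2 h3
    rw [hcone t h1 h2] at h3
    exact ENNReal.ofReal_le_of_le_toReal h3
  have hmem' : ∀ t, 0 ≤ t → t < b → ENNReal.ofReal (c * (1 - t / b) ^ d) ≤ volume (slice K k t) →
      cone d c b t ≤ volume.real (slice K k t) := by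
    intro t h1 h2 h3
    rw [hcone t h1 h2]
    exact (ENNReal.ofReal_le_iff_le_toReal (hfin t)).1 h3
  have hne : ∀ t, 0 ≤ t → t < b → cone d c b t ≤ volume.real (slice K k t) →
      (slice K k t).Nonempty := by
    intro t h1 h2 h3
    rw [nonempty_iff_ne_empty]
    intro h
    have := hmem t h1 h2 h3
    rw [h, measure_empty, nonpos_iff_eq_zero, ENNReal.ofReal_eq_zero] at this
    have h4 := hpos t h1 h2
    have : 0 < c * (1 - t / b) ^ d := by positivity
    linarith
  refine ⟨{t | (0 ≤ t ∧ t < b ∧ cone d c b t ≤ volume.real (slice K k t)) ∨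
    (b ≤ t ∧ (slice K k t).Nonempty)}, ?_, ?_, ?_, ?_⟩
  · rintro t (⟨h1, h2, h3⟩ | ⟨h1, h2⟩)
    · exact ⟨h1, hle t (hne t h1 h2 h3)⟩
    · exact ⟨hbp.le.trans h1, hle t h2⟩
  · rw [ordConnected_iff]
    intro s hs t ht _ u hu
    rcases hu.1.eq_or_lt with rfl | hsu
    · exact hs
    rcases hu.2.eq_or_lt with rfl | hut
    · exact ht
    have hst : s < t := hsu.trans hut
    have hts : 0 < t - s := sub_pos.2 hst
    set l := (t - u) / (t - s) with hl
    set m := (u - s) / (t - s) with hm
    have hl0 : 0 < l := div_pos (sub_pos.2 hut) hts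
    have hm0 : 0 < m := div_pos (sub_pos.2 hsu) hts
    have hlm : l + m = 1 := by rw [hl, hm]; field_simp; ring
    have hu' : l * s + m * t = u := by rw [hl, hm]; field_simp; ring
    have hsne : (slice K k s).Nonempty := by
      rcases hs with ⟨h1, h2, h3⟩ | ⟨h1, h2⟩
      · exact hne s h1 h2 h3
      · exact h2
    have htne : (slice K k t).Nonempty := by
      rcases ht with ⟨h1, h2, h3⟩ | ⟨h1, h2⟩
      · exact hne t h1 h2 h3
      · exact h2
    have hs0 : 0 ≤ s := hge s hsne
    have hu0 : 0 ≤ u := hs0.trans hsu.le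
    have hune : (slice K k u).Nonempty := by
      obtain ⟨x, hx⟩ := hsne
      obtain ⟨y, hy⟩ := htne
      exact ⟨_, hu' ▸ slice_conv hK k hl0.le hm0.le hlm hx hy⟩
    rcases le_or_gt b u with hbu | hub
    · exact Or.inr ⟨hbu, hune⟩
    refine Or.inl ⟨hu0, hub, hmem' u hu0 hub ?_⟩
    have hs3 : cone d c b s ≤ volume.real (slice K k s) := by
      rcases hs with ⟨h1, h2, h3⟩ | ⟨h1, h2⟩
      · exact h3
      · linarith
    have hsb : s < b := hsu.trans hub
    have hS := hmem s hs0 hsb hs3
    rcases le_or_gt b t with hbt | htb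
    · obtain ⟨y, hy⟩ := htne
      have := bm_point (A := slice K k s) (C := slice K k u) (m := m) hl0 (y := y)
        (fun x hx => hu' ▸ slice_conv hK k hl0.le hm0.le hlm hx hy)
      refine le_trans ?_ this
      refine le_trans ?_ (mul_le_mul_right hS _)
      rw [← ENNReal.ofReal_mul (by positivity)]
      apply ENNReal.ofReal_le_ofReal
      have h1 : 1 - u / b ≤ l * (1 - s / b) := by
        have e : 1 - u / b = l * (1 - s / b) + m * (1 - t / b) := by
          rw [← hu']
          have : (1 : ℝ) = l + m := hlm.symm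
          field_simp
          linear_combination (b : ℝ) * this
        have h2 : m * (1 - t / b) ≤ 0 := by
          apply mul_nonpos_of_nonneg_of_nonpos hm0.le
          rw [sub_nonpos, one_le_div hbp]
          exact hbt
        linarith
      have h2 := hpos u hu0 hub
      calc c * (1 - u / b) ^ d ≤ c * (l * (1 - s / b)) ^ d := by gcongr
        _ = _ := by rw [mul_pow]; ring
    · have ht0 : 0 ≤ t := hge t htne
      have ht3 : cone d c b t ≤ volume.real (slice K k t) := by
        rcases ht with ⟨h1, h2, h3⟩ | ⟨h1, h2⟩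
        · exact h3
        · linarith
      have := bm_scaled (measurableSet_slice hc k s) (measurableSet_slice hc k t)
        (measurableSet_slice hc k u) (hpos s hs0 hsb) (hpos t ht0 htb) hcp hl0 hm0
        (fun x hx y hy => hu' ▸ slice_conv hK k hl0.le hm0.le hlm hx hy) hS (hmem t ht0 htb ht3)
      convert this using 4
      rw [← hu']
      have : (1 : ℝ) = l + m := hlm.symm
      field_simp
      linear_combination (b : ℝ) * this
  · rintro t (⟨h1, h2, h3⟩ | ⟨h1, h2⟩)
    · exact h3
    · rw [hcone' t h1]; exact measureReal_nonneg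
  · intro t h0 ht
    rcases lt_or_ge t b with h | h
    · by_contra hcon
      exact ht (Or.inl ⟨h0, h, (not_le.1 hcon).le⟩)
    · have : slice K k t = ∅ := by
        rw [← not_nonempty_iff_eq_empty]
        exact fun h' => ht (Or.inr ⟨h, h'⟩)
      rw [this, hcone' t h]
      simp

/-- **Berwald's inequality** with a power weight, for a convex body in a half space. -/
theorem berwald_w {d : ℕ} {K : Set (Fin (d + 1) → ℝ)} (hK : Convex ℝ K) (hc : IsCompact K)
    (k : Fin (d + 1)) (hk : ∀ x ∈ K, 0 ≤ x k) (hv : 0 < volume.real K) (j : ℕ) :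
    ((j : ℝ) + 1) * (j + d + 3) * ((∫ x in K, x k ^ j) * ∫ x in K, x k ^ (j + 2)) ≤
      (j + 2) * (j + d + 2) * (∫ x in K, x k ^ (j + 1)) ^ 2 := by
  obtain ⟨i00, f00⟩ := fubini_slice hc k (φ := fun _ => 1) continuous_const
  simp only [one_mul] at i00 f00
  have f00' : ∫ x in K, (1 : ℝ) = volume.real K := by simp
  rw [f00'] at f00
  obtain ⟨i0, f0⟩ := fubini_slice hc k (φ := fun t => t ^ j) (by fun_prop)
  obtain ⟨i1, f1⟩ := fubini_slice hc k (φ := fun t => t ^ (j + 1)) (by fun_prop)
  obtain ⟨i2, f2⟩ := fubini_slice hc k (φ := fun t => t ^ (j + 2)) (by fun_prop)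
  obtain ⟨R, hR⟩ : ∃ R : ℝ, ∀ x ∈ K, x k ≤ R := by
    obtain ⟨R, hR⟩ := (hc.image (continuous_apply k)).bddAbove
    exact ⟨R, fun x hx => hR ⟨x, hx, rfl⟩⟩
  have hneg : ∀ t, t < 0 → slice K k t = ∅ := by
    intro t ht
    ext y
    simp only [slice, mem_ofPred_eq, mem_empty_iff_false, iff_false]
    intro h
    have := hk _ h
    simp at this
    linarith
  have hposp : ∀ p : ℕ, Integrable (fun t => t ^ p * volume.real (slice K k t)) →
      0 < ∫ t, t ^ p * volume.real (slice K k t) := by
    intro p ip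
    have hnn : 0 ≤ fun t => t ^ p * volume.real (slice K k t) := by
      intro t
      rcases lt_or_ge t 0 with h | h
      · simp [hneg t h]
      · exact mul_nonneg (pow_nonneg h p) measureReal_nonneg
    refine lt_of_le_of_ne (integral_nonneg hnn) fun h0 => ?_
    have h1 := (integral_eq_zero_iff_of_nonneg hnn ip).1 h0.symm
    have h2 : ∀ᵐ t : ℝ, t ≠ 0 := by
      rw [ae_iff]
      simp
    have h3 : (fun t => volume.real (slice K k t)) =ᵐ[volume] 0 := by
      filter_upwards [h1, h2] with t h1 h2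
      simp only [Pi.zero_apply, mul_eq_zero] at h1
      rcases h1 with h1 | h1
      · exact absurd h1 (pow_ne_zero p h2)
      · exact h1
    have h4 := integral_congr_ae h3
    simp only [Pi.zero_apply, integral_zero] at h4
    rw [f00] at hv
    rw [h4] at hv
    exact lt_irrefl _ hv
  rw [f0, f1, f2]
  exact berwald_one_w d j (R := R) (fun t ht => by simp [hneg t ht]) i0 i1 i2 (hposp _ i0)
    (hposp _ i1) (exists_T hK hc k hk hR)

end Vale.Agent.P254.Refl.BerW
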