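import Vale.Agent.P254.Unc.Berwald
import Vale.Agent.P254.Unc.Ber

/-!
# P254, reflections: Berwald's inequality for a concave function and the exponents m, m+1, m+2

For a concave `h ≥ 0` on a convex set of dimension `k`:
`(m+1) (m+k+2) ∫ h^(m+2) ∫ h^m ≤ (m+2) (m+k+1) (∫ h^(m+1))^2`.
-/

open MeasureTheory Set
open scoped ENNReal NNReal Pointwise

namespace Vale.Agent.P254.Refl.B773

/-- moment of the comparison function -/
noncomputable def J (k : ℕ) (b : ℝ) (j : ℕ) : ℝ := ∫ s in (0:ℝ)..b, s ^ j * (1 - s / b) ^ k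

theorem J_succ (k : ℕ) {b : ℝ} (hb : 0 < b) (j : ℕ) :
    ((j : ℝ) + k + 2) * J k b (j + 1) = ((j : ℝ) + 1) * b * J k b j := by
  have hd : ∀ s ∈ uIcc (0:ℝ) b, HasDerivAt (fun s => b * (s ^ (j + 1) * (1 - s / b) ^ (k + 1)))
      (((j : ℝ) + 1) * b * (s ^ j * (1 - s / b) ^ k) -
        ((j : ℝ) + k + 2) * (s ^ (j + 1) * (1 - s / b) ^ k)) s := by
    intro s _
    have h1 : HasDerivAt (fun s : ℝ => 1 - s / b) (-(1 / b)) s := by
      simpa using ((hasDerivAt_id s).div_const b).const_sub 1
    have h2 := ((hasDerivAt_pow (j + 1) s).mul (h1.pow (k + 1))).const_mul b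
    refine HasDerivAt.congr_deriv h2 ?_
    simp only [Nat.add_sub_cancel]
    push_cast
    have hb0 : b ≠ 0 := hb.ne'
    simp only [Pi.pow_apply]
    rw [pow_succ (1 - s / b) k, pow_succ s j]
    generalize (1 - s / b) ^ k = u
    generalize s ^ j = v
    field_simp
    ring
  have h := intervalIntegral.integral_eq_sub_of_hasDerivAt hd
    (Continuous.intervalIntegrable (by fun_prop) _ _)
  rw [intervalIntegral.integral_sub (Continuous.intervalIntegrable (by fun_prop) _ _)
    (Continuous.intervalIntegrable (by fun_prop) _ _), intervalIntegral.integral_const_mul,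
    intervalIntegral.integral_const_mul] at h
  have h3 : b / b = 1 := div_self hb.ne'
  simp only [h3, sub_self, ne_eq, Nat.add_eq_zero_iff, one_ne_zero, and_false,
    not_false_eq_true, zero_pow, mul_zero, zero_mul] at h
  unfold J
  linarith

theorem J_pos (k : ℕ) {b : ℝ} (hb : 0 < b) (j : ℕ) : 0 < J k b j := by
  refine intervalIntegral.intervalIntegral_pos_of_pos_on
    (Continuous.intervalIntegrable (by fun_prop) _ _) ?_ hb
  intro s hs
  have h1 : 0 < 1 - s / b := by
    rw [sub_pos, div_lt_one hb]; exact hs.2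
  have h2 : 0 < s := hs.1
  positivity

/-- one-dimensional comparison -/
theorem oneD {k j : ℕ} (hk : 0 < k) (φ : ℝ → ℝ) {M C : ℝ} (hM : 0 < M)
    (hnn : ∀ s, 0 ≤ φ s) (hmeas : Measurable φ) (hC : ∀ s, φ s ≤ C)
    (hz : ∀ s, M < s → φ s = 0)
    (hcc : ∀ s t θ, 0 ≤ s → s < t → 0 < θ → θ < 1 → 0 < φ s → 0 < φ t →
      (1 - θ) * φ s + θ * φ t ≤ φ ((1 - θ) * s + θ * t)) :
    ((j : ℝ) + 1) * (j + k + 3) * (∫ s in (0:ℝ)..M, s ^ (j + 2) * φ s ^ k) *
        (∫ s in (0:ℝ)..M, s ^ j * φ s ^ k) ≤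
      ((j : ℝ) + 2) * (j + k + 2) * (∫ s in (0:ℝ)..M, s ^ (j + 1) * φ s ^ k) ^ 2 := by
  have hint0 : ∀ T : ℝ, 0 ≤ T → IntervalIntegrable (fun s => φ s ^ k) volume 0 T := by
    intro T hT
    rw [intervalIntegrable_iff_integrableOn_Ioc_of_le hT]
    refine Measure.integrableOn_of_bounded (M := C ^ k) (by simp)
      (hmeas.pow_const k).aestronglyMeasurable ?_
    filter_upwards [ae_restrict_mem measurableSet_Ioc] with s hs
    rw [Real.norm_eq_abs, abs_of_nonneg (pow_nonneg (hnn s) k)]
    exact pow_le_pow_left₀ (hnn s) (hC s) k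
  have hint : ∀ T : ℝ, 0 ≤ T → ∀ i : ℕ,
      IntervalIntegrable (fun s => s ^ i * φ s ^ k) volume 0 T := by
    intro T hT i
    exact (hint0 T hT).continuousOn_mul (f := fun s => φ s ^ k) (g := fun s => s ^ i)
      (by fun_prop)
  set P : ℝ := ∫ s in (0:ℝ)..M, s ^ j * φ s ^ k with hP
  set Q : ℝ := ∫ s in (0:ℝ)..M, s ^ (j + 1) * φ s ^ k with hQ
  set R : ℝ := ∫ s in (0:ℝ)..M, s ^ (j + 2) * φ s ^ k with hR
  have hP0 : 0 ≤ P := intervalIntegral.integral_nonneg hM.le
    (fun s hs => mul_nonneg (pow_nonneg hs.1 _) (pow_nonneg (hnn s) k))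
  have hQ0 : 0 ≤ Q := intervalIntegral.integral_nonneg hM.le
    (fun s hs => mul_nonneg (pow_nonneg hs.1 _) (pow_nonneg (hnn s) k))
  have hR0 : 0 ≤ R := intervalIntegral.integral_nonneg hM.le
    (fun s hs => mul_nonneg (pow_nonneg hs.1 _) (pow_nonneg (hnn s) k))
  rcases hP0.eq_or_lt with hPz | hPp
  · rw [← hPz]; simp only [mul_zero]; positivity
  have hRQ : R ≤ M * Q := by
    rw [hR, hQ, ← intervalIntegral.integral_const_mul]
    refine intervalIntegral.integral_mono_on hM.le (hint M hM.le _)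
      ((hint M hM.le _).const_mul M) ?_
    intro s hs
    have h1 : 0 ≤ s ^ (j + 1) * φ s ^ k :=
      mul_nonneg (pow_nonneg hs.1 _) (pow_nonneg (hnn s) k)
    calc s ^ (j + 2) * φ s ^ k = s * (s ^ (j + 1) * φ s ^ k) := by ring
      _ ≤ M * (s ^ (j + 1) * φ s ^ k) := mul_le_mul_of_nonneg_right hs.2 h1
  rcases hQ0.eq_or_lt with hQz | hQp
  · have : R = 0 := le_antisymm (by rw [← hQz, mul_zero] at hRQ; exact hRQ) hR0
    rw [this]; simp only [mul_zero, zero_mul]; positivity
  set b : ℝ := Q * ((j : ℝ) + k + 2) / (P * (j + 1)) with hb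
  have hbp : 0 < b := by positivity
  set c : ℝ := P / J k b j with hc
  have hJp := J_pos k hbp j
  have hcp : 0 < c := by positivity
  set γ : ℝ := c ^ ((1:ℝ) / k) with hγ
  have hγp : 0 < γ := Real.rpow_pos_of_pos hcp _
  have hkn : (k:ℝ) ≠ 0 := by exact_mod_cast hk.ne'
  have hγk : γ ^ k = c := by
    rw [hγ, ← Real.rpow_natCast, ← Real.rpow_mul hcp.le]
    simp [hkn]
  set l : ℝ → ℝ := fun s => γ * max 0 (1 - s / b) with hl
  have hlc : Continuous l := by fun_prop
  have hl0 : ∀ s, 0 ≤ l s := fun s => mul_nonneg hγp.le (le_max_left _ _)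
  have hlconv : ∀ s t θ, 0 < θ → θ < 1 → l ((1 - θ) * s + θ * t) ≤ (1 - θ) * l s + θ * l t := by
    intro s t θ h0 h1
    have h2 : 0 < 1 - θ := by linarith
    have h3 : max 0 (1 - ((1 - θ) * s + θ * t) / b) ≤
        (1 - θ) * max 0 (1 - s / b) + θ * max 0 (1 - t / b) := by
      refine max_le (add_nonneg (mul_nonneg h2.le (le_max_left _ _))
        (mul_nonneg h0.le (le_max_left _ _))) ?_
      have h4 : (1 - θ) * (1 - s / b) ≤ (1 - θ) * max 0 (1 - s / b) :=
        mul_le_mul_of_nonneg_left (le_max_right _ _) h2.le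
      have h5 : θ * (1 - t / b) ≤ θ * max 0 (1 - t / b) :=
        mul_le_mul_of_nonneg_left (le_max_right _ _) h0.le
      have h6 : 1 - ((1 - θ) * s + θ * t) / b = (1 - θ) * (1 - s / b) + θ * (1 - t / b) := by
        field_simp
        ring
      linarith
    calc l ((1 - θ) * s + θ * t) ≤ γ * ((1 - θ) * max 0 (1 - s / b) + θ * max 0 (1 - t / b)) :=
          mul_le_mul_of_nonneg_left h3 hγp.le
      _ = _ := by simp only [hl]; ring
  -- sign pattern
  obtain ⟨s1, s2, hs12⟩ : ∃ s1 s2 : ℝ, ∀ s, 0 ≤ s →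
      (s - s1) * (s - s2) * (φ s ^ k - l s ^ k) ≤ 0 := by
    set A : Set ℝ := {s | 0 ≤ s ∧ 0 < φ s ∧ l s ≤ φ s} with hA
    have hout : ∀ s, 0 ≤ s → s ∉ A → φ s ^ k - l s ^ k ≤ 0 := by
      intro s hs hn
      have : φ s ≤ l s := by
        by_contra hcon
        push Not at hcon
        exact hn ⟨hs, lt_of_le_of_lt (hl0 s) hcon, hcon.le⟩
      have := pow_le_pow_left₀ (hnn s) this k
      linarith
    by_cases hne : A.Nonempty
    · have hbb : BddBelow A := ⟨0, fun s hs => hs.1⟩
      have hba : BddAbove A := ⟨M, fun s hs => by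
        by_contra hcon
        push Not at hcon
        have := hz s hcon
        linarith [hs.2.1]⟩
      refine ⟨sInf A, sSup A, fun s hs => ?_⟩
      have hle : sInf A ≤ sSup A := csInf_le_csSup hne hbb hba
      rcases lt_or_ge s (sInf A) with h1 | h1
      · have hn : s ∉ A := fun hh => absurd (csInf_le hbb hh) (not_le.mpr h1)
        have h2 := hout s hs hn
        have h3 : 0 ≤ (s - sInf A) * (s - sSup A) :=
          mul_nonneg_of_nonpos_of_nonpos (by linarith) (by linarith)
        exact mul_nonpos_of_nonneg_of_nonpos h3 h2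
      rcases lt_or_ge (sSup A) s with h2 | h2
      · have hn : s ∉ A := fun hh => absurd (le_csSup hba hh) (not_le.mpr h2)
        have h4 := hout s hs hn
        have h3 : 0 ≤ (s - sInf A) * (s - sSup A) :=
          mul_nonneg (by linarith) (by linarith)
        exact mul_nonpos_of_nonneg_of_nonpos h3 h4
      rcases h1.eq_or_lt with h3 | h3
      · rw [← h3]; simp
      rcases h2.eq_or_lt with h4 | h4
      · rw [h4]; simp
      obtain ⟨p, hp, hps⟩ := exists_lt_of_csInf_lt hne h3
      obtain ⟨q, hq, hqs⟩ := exists_lt_of_lt_csSup hne h4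
      have hpq : p < q := lt_trans hps hqs
      set θ : ℝ := (s - p) / (q - p) with hθ
      have hθ0 : 0 < θ := div_pos (by linarith) (by linarith)
      have hθ1 : θ < 1 := by rw [hθ, div_lt_one (by linarith)]; linarith
      have hsθ : (1 - θ) * p + θ * q = s := by
        have h5 : θ * (q - p) = s - p := div_mul_cancel₀ _ (by linarith)
        linarith [h5]
      have h5 := hcc p q θ hp.1 hpq hθ0 hθ1 hp.2.1 hq.2.1
      have h6 := hlconv p q θ hθ0 hθ1
      rw [hsθ] at h5 h6
      have h7 : (1 - θ) * l p ≤ (1 - θ) * φ p :=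
        mul_le_mul_of_nonneg_left hp.2.2 (by linarith)
      have h8 : θ * l q ≤ θ * φ q := mul_le_mul_of_nonneg_left hq.2.2 hθ0.le
      have h9 : l s ≤ φ s := by linarith
      have h10 := pow_le_pow_left₀ (hl0 s) h9 k
      have h11 : (s - sInf A) * (s - sSup A) ≤ 0 :=
        mul_nonpos_of_nonneg_of_nonpos (by linarith) (by linarith)
      exact mul_nonpos_of_nonpos_of_nonneg h11 (by linarith)
    · refine ⟨0, 0, fun s hs => ?_⟩
      have h2 := hout s hs (fun hh => hne ⟨s, hh⟩)
      have h3 : 0 ≤ (s - 0) * (s - 0) := mul_self_nonneg _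
      exact mul_nonpos_of_nonneg_of_nonpos h3 h2
  -- integrals up to T
  set T : ℝ := max M b with hT
  have hMT : M ≤ T := le_max_left _ _
  have hbT : b ≤ T := le_max_right _ _
  have hTp : 0 < T := lt_of_lt_of_le hM hMT
  have hφT : ∀ i : ℕ, ∫ s in (0:ℝ)..T, s ^ i * φ s ^ k = ∫ s in (0:ℝ)..M, s ^ i * φ s ^ k := by
    intro i
    have h1 : IntervalIntegrable (fun s => s ^ i * φ s ^ k) volume M T :=
      (hint T hTp.le i).mono_set (by
        rw [uIcc_of_le hMT, uIcc_of_le hTp.le]
        exact Icc_subset_Icc_left hM.le)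
    rw [← intervalIntegral.integral_add_adjacent_intervals (hint M hM.le i) h1]
    have h2 : ∫ s in M..T, s ^ i * φ s ^ k = 0 := by
      rw [intervalIntegral.integral_of_le hMT]
      rw [setIntegral_congr_fun (g := fun _ => (0:ℝ)) measurableSet_Ioc]
      · simp
      · intro s hs
        simp only [hz s hs.1]
        rw [zero_pow hk.ne', mul_zero]
    rw [h2, add_zero]
  have hlint : ∀ i : ℕ, IntervalIntegrable (fun s => s ^ i * l s ^ k) volume 0 T := fun i =>
    Continuous.intervalIntegrable (by fun_prop) _ _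
  have hlT : ∀ i : ℕ, ∫ s in (0:ℝ)..T, s ^ i * l s ^ k = c * J k b i := by
    intro i
    rw [← intervalIntegral.integral_add_adjacent_intervals (b := b)
      (Continuous.intervalIntegrable (by fun_prop) _ _)
      (Continuous.intervalIntegrable (by fun_prop) _ _)]
    have h2 : ∫ s in b..T, s ^ i * l s ^ k = 0 := by
      rw [intervalIntegral.integral_congr (g := fun _ => (0:ℝ))]
      · simp
      · intro s hs
        rw [uIcc_of_le hbT] at hs
        have : l s = 0 := by
          simp only [hl]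
          rw [max_eq_left, mul_zero]
          rw [sub_nonpos, le_div_iff₀ hbp]
          linarith [hs.1]
        simp [this, hk.ne']
    rw [h2, add_zero, J, ← intervalIntegral.integral_const_mul]
    refine intervalIntegral.integral_congr ?_
    intro s hs
    rw [uIcc_of_le hbp.le] at hs
    have : l s = γ * (1 - s / b) := by
      simp only [hl]
      rw [max_eq_right]
      rw [sub_nonneg, div_le_iff₀ hbp]
      linarith [hs.2]
    simp only [this, mul_pow, hγk]
    ring
  have hJ1 := J_succ k hbp j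
  have hJ2 := J_succ k hbp (j + 1)
  push_cast at hJ2
  have e0 : c * J k b j = P := by
    rw [hc]; exact div_mul_cancel₀ _ hJp.ne'
  have e1 : c * J k b (j + 1) = Q := by
    have h1 : ((j : ℝ) + k + 2) * (c * J k b (j + 1)) = ((j : ℝ) + 1) * b * P := by
      rw [← e0]; linear_combination c * hJ1
    have h2 : ((j : ℝ) + 1) * b * P = ((j : ℝ) + k + 2) * Q := by
      rw [hb]; field_simp
    have h3 : ((j : ℝ) + k + 2) ≠ 0 := by positivity
    exact mul_left_cancel₀ h3 (h1.trans h2)
  have e2 : ((j : ℝ) + k + 3) * (c * J k b (j + 2)) = ((j : ℝ) + 2) * b * Q := by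
    rw [← e1]; linear_combination c * hJ2
  have hmain : ∫ s in (0:ℝ)..T, s ^ j * ((s - s1) * (s - s2) * (φ s ^ k - l s ^ k)) ≤ 0 := by
    have := intervalIntegral.integral_nonneg
      (f := fun s => -(s ^ j * ((s - s1) * (s - s2) * (φ s ^ k - l s ^ k))))
      (μ := volume) hTp.le (fun s hs => by
        have h1 := mul_nonpos_of_nonneg_of_nonpos (pow_nonneg hs.1 j) (hs12 s hs.1)
        linarith)
    rw [intervalIntegral.integral_neg] at this
    linarith
  have hexp : ∫ s in (0:ℝ)..T, s ^ j * ((s - s1) * (s - s2) * (φ s ^ k - l s ^ k)) =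
      (R - c * J k b (j + 2)) - (s1 + s2) * (Q - c * J k b (j + 1)) +
        s1 * s2 * (P - c * J k b j) := by
    rw [← hlT, ← hlT, ← hlT, hP, hQ, hR, ← hφT, ← hφT, ← hφT,
      ← intervalIntegral.integral_sub (hint T hTp.le _) (hlint _),
      ← intervalIntegral.integral_sub (hint T hTp.le _) (hlint _),
      ← intervalIntegral.integral_sub (hint T hTp.le _) (hlint _),
      ← intervalIntegral.integral_const_mul, ← intervalIntegral.integral_const_mul,
      ← intervalIntegral.integral_sub ((hint T hTp.le _).sub (hlint _))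
        (((hint T hTp.le _).sub (hlint _)).const_mul _),
      ← intervalIntegral.integral_add (((hint T hTp.le _).sub (hlint _)).sub
        (((hint T hTp.le _).sub (hlint _)).const_mul _))
        (((hint T hTp.le _).sub (hlint _)).const_mul _)]
    refine intervalIntegral.integral_congr ?_
    intro s _
    simp only
    ring
  rw [hexp, e0, e1, sub_self, mul_zero, sub_self, mul_zero, sub_zero, add_zero, sub_nonpos] at hmain
  have h3 : ((j : ℝ) + k + 3) * R ≤ ((j : ℝ) + 2) * b * Q := by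
    rw [← e2]
    exact mul_le_mul_of_nonneg_left hmain (by positivity)
  have h4 : ((j : ℝ) + 1) * b * P = ((j : ℝ) + k + 2) * Q := by
    rw [hb]; field_simp
  calc ((j : ℝ) + 1) * (j + k + 3) * R * P
      = (((j : ℝ) + 1) * P) * ((j + k + 3) * R) := by ring
    _ ≤ (((j : ℝ) + 1) * P) * (((j : ℝ) + 2) * b * Q) :=
        mul_le_mul_of_nonneg_left h3 (by positivity)
    _ = ((j : ℝ) + 2) * Q * (((j : ℝ) + 1) * b * P) := by ring
    _ = ((j : ℝ) + 2) * Q * (((j : ℝ) + k + 2) * Q) := by rw [h4]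
    _ = _ := by ring

/-- Berwald's inequality for a concave function on a convex set of dimension `k`, exponents
`j + 1`, `j + 2`, `j + 3`. -/
theorem berwald_fun {k : ℕ} (hk : 0 < k) (j : ℕ) {D : Set (Fin k → ℝ)} (hD : MeasurableSet D)
    (hDf : volume D ≠ ∞) {h : (Fin k → ℝ) → ℝ} (hmeas : Measurable h)
    (h0 : ∀ x ∈ D, 0 ≤ h x) {M : ℝ} (hM0 : 0 < M) (hM : ∀ x ∈ D, h x ≤ M)
    (hcc : ∀ x ∈ D, ∀ y ∈ D, ∀ θ : ℝ, 0 < θ → θ < 1 →
      (1 - θ) • x + θ • y ∈ D ∧ (1 - θ) * h x + θ * h y ≤ h ((1 - θ) • x + θ • y)) :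
    ((j : ℝ) + 2) * (j + k + 3) * (∫ x in D, h x ^ (j + 3)) * (∫ x in D, h x ^ (j + 1)) ≤
      ((j : ℝ) + 3) * (j + k + 2) * (∫ x in D, h x ^ (j + 2)) ^ 2 := by
  have : IsFiniteMeasure (volume.restrict D) := ⟨by
    rw [Measure.restrict_apply_univ]; exact hDf.lt_top⟩
  set F : ℝ → ℝ := fun t => (volume.restrict D).real {a | t ≤ h a} with hF
  have hset : ∀ t, MeasurableSet {a | t ≤ h a} := fun t => measurableSet_le measurable_const hmeas
  set E : ℝ → Set (Fin k → ℝ) := fun t => {a | t ≤ h a} ∩ D with hE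
  have hEm : ∀ t, MeasurableSet (E t) := fun t => (hset t).inter hD
  have hEf : ∀ t, volume (E t) ≠ ∞ := fun t =>
    ((measure_mono inter_subset_right).trans_lt hDf.lt_top).ne
  have hFE : ∀ t, F t = (volume (E t)).toReal := by
    intro t
    simp only [hF, hE, Measure.real]
    rw [Measure.restrict_apply (hset t)]
  have hanti : Antitone F := Unc.antitone_meas_le _ h
  have hFnn : ∀ t, 0 ≤ F t := fun t => measureReal_nonneg
  have hlay : ∀ i : ℕ, ∫ x in D, h x ^ (i + 1) = ((i : ℝ) + 1) * ∫ t in (0:ℝ)..M, t ^ i * F t := by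
    intro i
    have h1 := Unc.layer (volume.restrict D) hmeas
      (by filter_upwards [ae_restrict_mem hD] with x hx using h0 x hx) (M := M)
      (by filter_upwards [ae_restrict_mem hD] with x hx using hM x hx) hM0.le
      (g := fun t => t ^ i) (by fun_prop) (fun t ht => pow_nonneg ht i)
    have h2 : ∀ x, ∫ t in (0:ℝ)..h x, t ^ i = h x ^ (i + 1) / (i + 1) := by
      intro x
      rw [integral_pow]
      simp
    simp only [h2] at h1
    rw [integral_div] at h1
    have h3 : ((i : ℝ) + 1) ≠ 0 := by positivity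
    rw [div_eq_iff h3] at h1
    rw [h1, mul_comm]
  set φ : ℝ → ℝ := fun t => F t ^ ((1:ℝ) / k) with hφ
  have hkn : (k:ℝ) ≠ 0 := by exact_mod_cast hk.ne'
  have hφk : ∀ t, φ t ^ k = F t := by
    intro t
    simp only [hφ]
    rw [← Real.rpow_natCast, ← Real.rpow_mul (hFnn t)]
    simp [hkn]
  have key := oneD (j := j) hk φ (M := M) (C := ((volume D).toReal) ^ ((1:ℝ) / k)) hM0
    (fun s => Real.rpow_nonneg (hFnn s) _) (hanti.measurable.pow_const _)
    (fun s => by
      refine Real.rpow_le_rpow (hFnn s) ?_ (by positivity)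
      rw [hFE]
      exact ENNReal.toReal_mono hDf (measure_mono inter_subset_right))
    (fun s hs => by
      have : E s = ∅ := by
        ext x
        simp only [hE, mem_inter_iff, mem_ofPred_eq, mem_empty_iff_false, iff_false, not_and]
        intro h1 h2
        exact absurd (h1.trans (hM x h2)) (not_le.mpr hs)
      simp only [hφ]
      rw [hFE, this]
      simp [hkn])
    (by
      intro s t θ hs hst hθ0 hθ1 hps hpt
      have hpos : ∀ u, 0 < φ u → 0 < F u := by
        intro u hu
        rcases (hFnn u).eq_or_lt with h1 | h1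
        · exfalso
          simp only [hφ, ← h1] at hu
          rw [Real.zero_rpow (by positivity)] at hu
          exact lt_irrefl _ hu
        · exact h1
      have h1 := hpos s hps
      have h2 := hpos t hpt
      have h3 := Unc.B966.bm_add hk (hEm s) (hEm t) (hEm ((1 - θ) * s + θ * t))
        (by rw [← hFE]; exact h1) (by rw [← hFE]; exact h2) (hEf _) hθ0 hθ1 (by
          intro a ha b hb
          obtain ⟨h4, h5⟩ := hcc a ha.2 b hb.2 θ hθ0 hθ1
          refine ⟨?_, h4⟩
          have h6 : (1 - θ) * s ≤ (1 - θ) * h a :=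
            mul_le_mul_of_nonneg_left ha.1 (by linarith)
          have h7 : θ * t ≤ θ * h b := mul_le_mul_of_nonneg_left hb.1 hθ0.le
          simp only [mem_ofPred_eq]
          linarith)
      rw [← hFE, ← hFE, ← hFE] at h3
      exact h3)
  simp only [hφk] at key
  have e1 := hlay j
  have e2 := hlay (j + 1)
  have e3 := hlay (j + 2)
  rw [show j + 3 = j + 2 + 1 from rfl, show j + 2 = j + 1 + 1 from rfl] at *
  rw [e1, e2, e3]
  push_cast
  have hj : (0:ℝ) ≤ j := Nat.cast_nonneg j
  have h5 : (0:ℝ) ≤ ((j:ℝ) + 2) * ((j:ℝ) + 3) := by positivity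
  have h6 := mul_le_mul_of_nonneg_left key h5
  calc _ = ((j:ℝ) + 2) * ((j:ℝ) + 3) * (((j : ℝ) + 1) * (j + k + 3) *
        (∫ s in (0:ℝ)..M, s ^ (j + 1 + 1) * F s) * (∫ s in (0:ℝ)..M, s ^ j * F s)) := by ring
    _ ≤ _ := h6
    _ = _ := by ring

end Vale.Agent.P254.Refl.B773
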