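import Vale.Agent.P254.Refl.C2H154
import Vale.Agent.P254.Refl.B2h898
import Vale.Agent.P254.Refl.C1H545

/-!
P254/Refl, leaf C2 (helper154), complete: all blocks, without hypotheses on the leaves.
-/

open MeasureTheory Set Matrix

namespace Vale.Agent.P254.Refl.C2F

open Classical in
/-- [C2] in the `D`-form. -/
theorem all_blocks_D {n : ℕ} {β : Type}
    (hI : ∀ m, 1 ≤ m → IrrBd m) {a : Fin n → Fin n → ℝ} {lab : Fin n → β} (hB : Blk a lab)
    {D : ℝ}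
    (hD : ∀ m, 1 ≤ m → (∃ b, (Finset.univ.filter fun i => lab i = b).card = m) →
      cst m ^ (1 / (m : ℝ)) *
        (((m : ℝ) + 2) * ((n : ℝ) + 1) / (((m : ℝ) + 1) * ((n : ℝ) + 2))) ≤ D)
    {K : Set (Fin n → ℝ)} (hc : Convex ℝ K) (hK : IsCompact K) (hR : RInv a K) :
    ∃ K' : Set (Fin n → ℝ), Convex ℝ K' ∧ IsCompact K' ∧
      (volume K').toReal = (volume K).toReal ∧ Unc.Uncond K' ∧
      ∀ i, (volume K).toReal * ∫ x in K, x i ^ 2 ≤ 16 * D * (∫ x in K', |x i|) ^ 2 :=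
  C2H.all_blocks_D (fun hm e _ hD _ hc hK hfib => B2h.sym_step_D hm e hc hK hD hfib)
    (fun hI _ _ hB b e h1 h2 _ hc hK hR z i => C1H.fib_bd hI hB b e h1 h2 hc hK hR z i)
    hI hB hD hc hK hR

end Vale.Agent.P254.Refl.C2F
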