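import Vale.Agent.P254.Refl.Defs
import Vale.Agent.P254.Unc.FinDefs

/-!
P254/Refl, leaf C2 (hedge): induction over the labels.
-/

open MeasureTheory Set Matrix

namespace Vale.Agent.P254.Refl.C2H

/-- The statement of `sym_step_D`. -/
def SymStepD : Prop :=
  ∀ {n m p : ℕ} (_ : 1 ≤ m) (e : Fin m ⊕ Fin p ≃ Fin n) {D : ℝ}
    (_ : cst m ^ (1 / (m : ℝ)) *
      (((m : ℝ) + 2) * ((n : ℝ) + 1) / (((m : ℝ) + 1) * ((n : ℝ) + 2))) ≤ D)
    {K : Set (Fin n → ℝ)} (_ : Convex ℝ K) (_ : IsCompact K)
    (_ : ∀ (z : Fin p → ℝ) (i : Fin m), (∫ y in {y : Fin m → ℝ | cmb e y z ∈ K}, y i ^ 2) ^ m ≤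
      cst m * (volume {y : Fin m → ℝ | cmb e y z ∈ K}).toReal ^ (m + 2)),
    ∃ K' : Set (Fin n → ℝ), Convex ℝ K' ∧ IsCompact K' ∧
      (∀ φ : (Fin n → ℝ) → ℝ, Continuous φ → (∀ y y' z, φ (cmb e y z) = φ (cmb e y' z)) →
        ∫ x in K', φ x = ∫ x in K, φ x) ∧
      (∀ i : Fin m, (volume K).toReal * ∫ x in K, x (e (Sum.inl i)) ^ 2 ≤
        16 * D * (∫ x in K', |x (e (Sum.inl i))|) ^ 2) ∧
      (∀ i : Fin m, ∀ x ∈ K', rf (Pi.single (e (Sum.inl i)) 1) x ∈ K') ∧
      ∀ a : Fin n → ℝ, (∀ i : Fin m, a (e (Sum.inl i)) = 0) → (∀ x ∈ K, rf a x ∈ K) →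
        ∀ x ∈ K', rf a x ∈ K'

/-- The statement of `fib_bd`. -/
def FibBd : Prop :=
  ∀ {n m p : ℕ} {β : Type} (_ : IrrBd m) {a : Fin n → Fin n → ℝ} {lab : Fin n → β}
    (_ : Blk a lab) (b : β) (e : Fin m ⊕ Fin p ≃ Fin n) (_ : ∀ i, lab (e (Sum.inl i)) = b)
    (_ : ∀ j, lab (e (Sum.inr j)) ≠ b) {K : Set (Fin n → ℝ)} (_ : Convex ℝ K)
    (_ : IsCompact K) (_ : ∀ i : Fin m, ∀ x ∈ K, rf (a (e (Sum.inl i))) x ∈ K)
    (z : Fin p → ℝ) (i : Fin m),
    (∫ y in {y : Fin m → ℝ | cmb e y z ∈ K}, y i ^ 2) ^ m ≤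
      cst m * (volume {y : Fin m → ℝ | cmb e y z ∈ K}).toReal ^ (m + 2)

/-- The reflection in a coordinate hyperplane is a change of sign. -/
lemma rf_single {n : ℕ} (i : Fin n) (x : Fin n → ℝ) :
    rf (Pi.single i 1) x = Function.update x i (-x i) := by
  classical
  funext j
  unfold rf
  rw [single_one_dotProduct, single_one_dotProduct]
  by_cases h : j = i
  · subst h
    simp
    ring
  · simp [h]

/-- Invariance under the changes of one sign gives an unconditional set. -/
lemma uncond_of {n : ℕ} {K : Set (Fin n → ℝ)}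
    (h : ∀ i, ∀ x ∈ K, Function.update x i (-x i) ∈ K) : Unc.Uncond K := by
  classical
  intro x hx y hy
  have key : ∀ S : Finset (Fin n), (fun i => if i ∈ S then y i else x i) ∈ K := by
    intro S
    induction S using Finset.induction_on with
    | empty => simpa using hx
    | insert b S hb ih =>
      rcases abs_eq_abs.1 (hy b) with h1 | h1
      · convert ih using 1
        funext i
        by_cases hi : i = b
        · subst hi; simp [hb, h1]
        · simp [hi]
      · have := h b _ ih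
        convert this using 1
        funext i
        by_cases hi : i = b
        · subst hi; simp [hb, h1]
        · simp [hi]
  have := key Finset.univ
  simpa using this

/-- A block as the left part of an equivalence. -/
lemma exists_equiv {n : ℕ} {β : Type} [DecidableEq β] (lab : Fin n → β) (b : β) :
    ∃ (m p : ℕ) (e : Fin m ⊕ Fin p ≃ Fin n), (∀ i, lab (e (Sum.inl i)) = b) ∧
      (∀ j, lab (e (Sum.inr j)) ≠ b) ∧
      m = (Finset.univ.filter fun i => lab i = b).card := by
  classical
  have e1 : Fin (Fintype.card {i // lab i = b}) ≃ {i // lab i = b} := (Fintype.equivFin _).symm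
  have e2 : Fin (Fintype.card {i // ¬ lab i = b}) ≃ {i // ¬ lab i = b} :=
    (Fintype.equivFin _).symm
  refine ⟨_, _, (Equiv.sumCongr e1 e2).trans (Equiv.sumCompl fun i => lab i = b), ?_, ?_, ?_⟩
  · intro i
    simp only [Equiv.trans_apply, Equiv.sumCongr_apply, Sum.map_inl, Equiv.sumCompl_apply_inl]
    exact (e1 i).2
  · intro j
    simp only [Equiv.trans_apply, Equiv.sumCongr_apply, Sum.map_inr, Equiv.sumCompl_apply_inr]
    exact (e2 j).2
  · exact Fintype.card_subtype _

open Classical in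
/-- The induction over the labels. -/
theorem main (hS : SymStepD) (hF : FibBd) {n : ℕ} {β : Type} (hI : ∀ m, 1 ≤ m → IrrBd m)
    {a : Fin n → Fin n → ℝ} {lab : Fin n → β} (hB : Blk a lab) {D : ℝ}
    (hD : ∀ m, 1 ≤ m → (∃ b, (Finset.univ.filter fun i => lab i = b).card = m) →
      cst m ^ (1 / (m : ℝ)) *
        (((m : ℝ) + 2) * ((n : ℝ) + 1) / (((m : ℝ) + 1) * ((n : ℝ) + 2))) ≤ D)
    {K : Set (Fin n → ℝ)} (hc : Convex ℝ K) (hK : IsCompact K) (hR : RInv a K) (S : Finset β) :
    ∃ K' : Set (Fin n → ℝ), Convex ℝ K' ∧ IsCompact K' ∧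
      (∀ φ : (Fin n → ℝ) → ℝ, Continuous φ →
        (∀ x x' : Fin n → ℝ, (∀ i, lab i ∉ S → x i = x' i) → φ x = φ x') →
        ∫ x in K', φ x = ∫ x in K, φ x) ∧
      (∀ i, lab i ∈ S → (volume K).toReal * ∫ x in K, x i ^ 2 ≤
        16 * D * (∫ x in K', |x i|) ^ 2) ∧
      (∀ i, lab i ∈ S → ∀ x ∈ K', rf (Pi.single i 1) x ∈ K') ∧
      (∀ i, lab i ∉ S → ∀ x ∈ K', rf (a i) x ∈ K') := by
  induction S using Finset.induction_on with
  | empty =>
    refine ⟨K, hc, hK, fun φ _ _ => rfl, ?_, ?_, fun i _ x hx => hR i x hx⟩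
    · intro i hi; simp at hi
    · intro i hi; simp at hi
  | insert b S hb ih =>
    obtain ⟨L, hLc, hLk, hLi, hLm, hLs, hLr⟩ := ih
    obtain ⟨m, p, e, he1, he2, hm⟩ := exists_equiv lab b
    have hsplit : ∀ i, (∃ k, i = e (Sum.inl k)) ∨ lab i ≠ b := by
      intro i
      obtain ⟨t, rfl⟩ := e.surjective i
      cases t with
      | inl k => exact Or.inl ⟨k, rfl⟩
      | inr j => exact Or.inr (he2 j)
    have hvol : (volume L).toReal = (volume K).toReal := by
      have := hLi (fun _ => 1) continuous_const (fun _ _ _ => rfl)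
      simpa [measureReal_def] using this
    rcases Nat.eq_zero_or_pos m with hm0 | hm1
    · subst hm0
      have hne : ∀ i, lab i ≠ b := by
        intro i
        rcases hsplit i with ⟨k, _⟩ | h
        · exact k.elim0
        · exact h
      refine ⟨L, hLc, hLk, ?_, ?_, ?_, ?_⟩
      · intro φ hφ h
        refine hLi φ hφ fun x x' hx => h x x' fun i hi => hx i fun hi' => hi ?_
        exact Finset.mem_insert_of_mem hi'
      · intro i hi
        exact hLm i ((Finset.mem_insert.1 hi).resolve_left (hne i))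
      · intro i hi
        exact hLs i ((Finset.mem_insert.1 hi).resolve_left (hne i))
      · intro i hi
        exact hLr i fun h => hi (Finset.mem_insert_of_mem h)
    · have hDm := hD m hm1 ⟨b, hm.symm⟩
      have hblk : ∀ k : Fin m, lab (e (Sum.inl k)) ∉ S := by
        intro k; rw [he1]; exact hb
      have hfib := hF (hI m hm1) hB b e he1 he2 hLc hLk (fun k => hLr _ (hblk k))
      obtain ⟨K', h1, h2, h3, h4, h5, h6⟩ := hS hm1 e hDm hLc hLk hfib
      have hcmb : ∀ (y y' : Fin m → ℝ) (z : Fin p → ℝ) i, lab i ≠ b →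
          cmb e y z i = cmb e y' z i := by
        intro y y' z i hi
        obtain ⟨t, rfl⟩ := e.surjective i
        cases t with
        | inl k => exact absurd (he1 k) hi
        | inr j => simp [cmb]
      refine ⟨K', h1, h2, ?_, ?_, ?_, ?_⟩
      · intro φ hφ h
        rw [h3 φ hφ ?_, hLi φ hφ ?_]
        · intro x x' hx
          exact h x x' fun i hi => hx i fun hi' => hi (Finset.mem_insert_of_mem hi')
        · intro y y' z
          refine h _ _ fun i hi => hcmb y y' z i fun h => hi ?_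
          rw [h]; exact Finset.mem_insert_self _ _
      · intro i hi
        rcases hsplit i with ⟨k, rfl⟩ | hib
        · have := h4 k
          rw [hvol, hLi (fun x => x (e (Sum.inl k)) ^ 2) (by fun_prop) ?_] at this
          · exact this
          · intro x x' hx
            rw [hx _ (hblk k)]
        · have hiS := (Finset.mem_insert.1 hi).resolve_left hib
          have := hLm i hiS
          rw [← h3 (fun x => |x i|) (by fun_prop) ?_] at this
          · exact this
          · intro y y' z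
            rw [hcmb y y' z i hib]
      · intro i hi
        rcases hsplit i with ⟨k, rfl⟩ | hib
        · exact h5 k
        · have hiS := (Finset.mem_insert.1 hi).resolve_left hib
          refine h6 _ (fun k => ?_) (hLs i hiS)
          have : e (Sum.inl k) ≠ i := by
            rintro rfl
            exact hib (he1 k)
          simp [this]
      · intro i hi
        have hib : lab i ≠ b := fun h => hi (by rw [h]; exact Finset.mem_insert_self _ _)
        have hiS : lab i ∉ S := fun h => hi (Finset.mem_insert_of_mem h)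
        refine h6 _ (fun k => ?_) (hLr i hiS)
        refine hB.zero _ _ ?_
        rw [he1]; exact hib.symm

open Classical in
/-- [C2] in the `D`-form, from `sym_step_D` and `fib_bd`. -/
theorem all_blocks_D (hS : SymStepD) (hF : FibBd) {n : ℕ} {β : Type}
    (hI : ∀ m, 1 ≤ m → IrrBd m) {a : Fin n → Fin n → ℝ} {lab : Fin n → β} (hB : Blk a lab)
    {D : ℝ}
    (hD : ∀ m, 1 ≤ m → (∃ b, (Finset.univ.filter fun i => lab i = b).card = m) →
      cst m ^ (1 / (m : ℝ)) *
        (((m : ℝ) + 2) * ((n : ℝ) + 1) / (((m : ℝ) + 1) * ((n : ℝ) + 2))) ≤ D)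
    {K : Set (Fin n → ℝ)} (hc : Convex ℝ K) (hK : IsCompact K) (hR : RInv a K) :
    ∃ K' : Set (Fin n → ℝ), Convex ℝ K' ∧ IsCompact K' ∧
      (volume K').toReal = (volume K).toReal ∧ Unc.Uncond K' ∧
      ∀ i, (volume K).toReal * ∫ x in K, x i ^ 2 ≤ 16 * D * (∫ x in K', |x i|) ^ 2 := by
  obtain ⟨K', h1, h2, h3, h4, h5, -⟩ :=
    main hS hF hI hB hD hc hK hR (Finset.univ.image lab)
  have hmem : ∀ i, lab i ∈ Finset.univ.image lab := fun i =>
    Finset.mem_image_of_mem lab (Finset.mem_univ i)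
  refine ⟨K', h1, h2, ?_, ?_, fun i => h4 i (hmem i)⟩
  · have := h3 (fun _ => 1) continuous_const (fun _ _ _ => rfl)
    simpa [measureReal_def] using this
  · refine uncond_of fun i x hx => ?_
    rw [← rf_single]
    exact h5 i (hmem i) x hx

end Vale.Agent.P254.Refl.C2H
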