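import Vale.Agent.P254.Unc.FinBody

/-! P254, reflections: leaf C3, the unconditional inequality for the first absolute moments. -/

open MeasureTheory Set

namespace Vale.Agent.P254.Refl.H708

open Vale.Agent.P254.Unc in
open Vale.Agent.P254.Unc.FB in
/-- [C3] `UNCR` for an unconditional set -/
theorem unc_abs {n : ℕ} (hn : 1 ≤ n) (hU : Unc.UNCR n) {K : Set (Fin n → ℝ)} (hc : Convex ℝ K)
    (hK : IsCompact K) (hu : Unc.Uncond K) :
    ∏ i, (∫ x in K, |x i|) ≤ ((volume K).toReal / 4 ^ n) * (volume K).toReal ^ n := by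
  rcases K.eq_empty_or_nonempty with rfl | hne
  · have h0 : ∏ i : Fin n, (∫ x in (∅ : Set (Fin n → ℝ)), |x i|) = 0 :=
      Finset.prod_eq_zero (Finset.mem_univ (⟨0, hn⟩ : Fin n)) (by simp)
    rw [h0]
    positivity
  have hfin : volume K ≠ ⊤ := hK.measure_lt_top.ne
  set P : Set (Fin n → ℝ) := K ∩ {x | ∀ i, 0 ≤ x i} with hP
  have hPc : Convex ℝ P := hc.inter orth_convex
  have hPk : IsCompact P := hK.inter_right orth_closed
  have hPd : Down P := down hc hu
  have hPne : P.Nonempty := by
    obtain ⟨x, hx⟩ := hne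
    exact ⟨fun i => |x i|, hu x hx _ fun i => abs_abs _, fun i => abs_nonneg _⟩
  have hVP : (volume K).toReal = 2 ^ n * (volume P).toReal := by
    have h := reduct_univ hu (f := fun _ => (1 : ℝ)) (integrableOn_const hfin) (fun _ _ => rfl)
    rw [setIntegral_const, setIntegral_const] at h
    simpa [Measure.real] using h
  have hAP : ∀ i, ∫ x in K, |x i| = 2 ^ n * ∫ x in P, x i := by
    intro i
    have h1 : ∫ x in K, |x i| = 2 ^ n * ∫ x in P, |x i| := by
      refine reduct_univ hu (f := fun x => |x i|)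
        ((by fun_prop : Continuous fun x : Fin n → ℝ => |x i|).continuousOn.integrableOn_compact hK)
        ?_
      intro j x
      exact refl_abs j i x
    rw [h1]
    congr 1
    refine setIntegral_congr_fun hPk.measurableSet fun x hx => ?_
    exact abs_of_nonneg (hx.2 i)
  set V : ℝ := (volume P).toReal with hVdef
  have h := hU P hPc hPk hPne hPd
  change ∏ i, (2 * ∫ x in P, x i) ≤ V ^ (n + 1) at h
  rw [Finset.prod_mul_distrib, Finset.prod_const, Finset.card_univ, Fintype.card_fin] at h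
  have h2n : (0 : ℝ) < 2 ^ n := by positivity
  rw [hVP]
  simp_rw [hAP]
  rw [Finset.prod_mul_distrib, Finset.prod_const, Finset.card_univ, Fintype.card_fin]
  have h4 : (4 : ℝ) ^ n = 2 ^ n * 2 ^ n := by
    rw [← mul_pow]; norm_num
  rw [h4]
  have h5 : 2 ^ n * V / (2 ^ n * 2 ^ n) * (2 ^ n * V) ^ n = ((2 : ℝ) ^ n) ^ n * (V ^ (n + 1) / 2 ^ n) := by
    rw [mul_pow, pow_succ]
    field_simp
  rw [h5]
  refine mul_le_mul_of_nonneg_left ?_ (by positivity)
  rw [le_div_iff₀ h2n]
  linarith

end Vale.Agent.P254.Refl.H708
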