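import Vale.Agent.P254.Refl.Defs
import Vale.Agent.P254.Unc.FinDefs

/-! # P254/Refl, leaf C4 (hedge, helper710): the product of the second moments -/

open MeasureTheory Set Matrix

namespace Vale.Agent.P254.Refl.C4h710

/-- The arithmetic of C4, with the constant `D`. -/
theorem prod_of {n : ℕ} {D : ℝ} (hD : 0 ≤ D) {K K' : Set (Fin n → ℝ)}
    (hV : 0 < (volume K).toReal) (hv : (volume K').toReal = (volume K).toReal)
    (h : ∀ i, (volume K).toReal * ∫ x in K, x i ^ 2 ≤ 16 * D * (∫ x in K', |x i|) ^ 2)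
    (h3 : ∏ i, (∫ x in K', |x i|) ≤ ((volume K').toReal / 4 ^ n) * (volume K').toReal ^ n) :
    ∏ i, (∫ x in K, x i ^ 2) ≤ D ^ n * (volume K).toReal ^ (n + 2) := by
  set V := (volume K).toReal with hVd
  rw [hv] at h3
  have hP0 : 0 ≤ ∏ i, (∫ x in K', |x i|) :=
    Finset.prod_nonneg fun i _ => integral_nonneg fun x => abs_nonneg _
  have h1 : V ^ n * ∏ i, (∫ x in K, x i ^ 2) ≤ V ^ n * (D ^ n * V ^ (n + 2)) := by
    calc V ^ n * ∏ i, (∫ x in K, x i ^ 2) = ∏ i, (V * ∫ x in K, x i ^ 2) := by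
          rw [Finset.prod_mul_distrib, Finset.prod_const, Finset.card_univ, Fintype.card_fin]
      _ ≤ ∏ i, (16 * D * (∫ x in K', |x i|) ^ 2) :=
          Finset.prod_le_prod (fun i _ => mul_nonneg hV.le (integral_nonneg fun x => sq_nonneg _))
            fun i _ => h i
      _ = (16 * D) ^ n * (∏ i, (∫ x in K', |x i|)) ^ 2 := by
          rw [Finset.prod_mul_distrib, Finset.prod_const, Finset.card_univ, Fintype.card_fin,
            Finset.prod_pow]
      _ ≤ (16 * D) ^ n * ((V / 4 ^ n) * V ^ n) ^ 2 := by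
          gcongr
      _ = V ^ n * (D ^ n * V ^ (n + 2)) := by
          have e : (16 : ℝ) ^ n = (4 ^ n) ^ 2 := by
            rw [← pow_mul, mul_comm n 2, pow_mul]; norm_num
          rw [mul_pow, e]
          field_simp
          try ring
  exact le_of_mul_le_mul_left h1 (pow_pos hV n)

theorem cst_pos (n : ℕ) : 0 < cst n := by
  unfold cst
  positivity

/-- C4 from C2 and C3. -/
theorem prod_le_of {n : ℕ} {β : Type} (hn : 1 ≤ n) (_hU : Unc.UNCR n) (_hI : ∀ m, 1 ≤ m → IrrBd m)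
    (h2 : ∀ {a : Fin n → Fin n → ℝ} {lab : Fin n → β}, Blk a lab → ∀ {K : Set (Fin n → ℝ)},
      Convex ℝ K → IsCompact K → RInv a K → ∃ K' : Set (Fin n → ℝ), Convex ℝ K' ∧ IsCompact K' ∧
        (volume K').toReal = (volume K).toReal ∧ Unc.Uncond K' ∧
        ∀ i, (volume K).toReal * ∫ x in K, x i ^ 2 ≤
          16 * cst n ^ (1 / (n : ℝ)) * (∫ x in K', |x i|) ^ 2)
    (h3 : ∀ {K : Set (Fin n → ℝ)}, Convex ℝ K → IsCompact K → Unc.Uncond K →
      ∏ i, (∫ x in K, |x i|) ≤ ((volume K).toReal / 4 ^ n) * (volume K).toReal ^ n)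
    {a : Fin n → Fin n → ℝ} {lab : Fin n → β} (hB : Blk a lab) {K : Set (Fin n → ℝ)}
    (hc : Convex ℝ K) (hK : IsCompact K) (hV : 0 < (volume K).toReal) (hR : RInv a K) :
    ∏ i, (∫ x in K, x i ^ 2) ≤ cst n * (volume K).toReal ^ (n + 2) := by
  obtain ⟨K', hc', hK', hv, hu, h⟩ := h2 hB hc hK hR
  have h4 := prod_of (Real.rpow_nonneg (cst_pos n).le _) hV hv h (h3 hc' hK' hu)
  have e : (cst n ^ (1 / (n : ℝ))) ^ n = cst n := by
    rw [← Real.rpow_natCast, ← Real.rpow_mul (cst_pos n).le, one_div,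
      inv_mul_cancel₀ (by positivity), Real.rpow_one]
  rwa [e] at h4

end Vale.Agent.P254.Refl.C4h710
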