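import Vale.Agent.P254.Refl.A2

/-!
P254/Refl, leaf C5 (hedge): the determinant of the covariance matrix in adapted coordinates.
-/

open MeasureTheory Set Matrix

namespace Vale.Agent.P254.Refl.C5h165

/-- the covariance matrix is diagonal in adapted coordinates -/
theorem cov_blk {n : ℕ} {β : Type} {a : Fin n → Fin n → ℝ} {lab : Fin n → β} (hB : Blk a lab)
    {K : Set (Fin n → ℝ)} (hK : IsCompact K) (hR : RInv a K) :
    covMatrix K = Matrix.diagonal fun i => (volume K).toReal⁻¹ * ∫ x in K, x i ^ 2 := by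
  obtain ⟨h1, h2, -⟩ := A2.blk_mom hB hK hR
  have hc : ∀ i, centroid K i = 0 := by
    intro i
    simp only [centroid, h1 i, mul_zero]
  ext i j
  rw [Matrix.diagonal_apply]
  simp only [covMatrix, hc, sub_zero]
  by_cases hij : i = j
  · subst hij
    rw [if_pos rfl]
    congr 1
    exact integral_congr_ae (Filter.Eventually.of_forall fun x => (pow_two _).symm)
  · rw [if_neg hij, h2 i j hij, mul_zero]

/-- [C5] from the product bound [C4] -/
theorem det_blk_of {n : ℕ} {β : Type} {a : Fin n → Fin n → ℝ} {lab : Fin n → β} (hB : Blk a lab)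
    {K : Set (Fin n → ℝ)} (hK : IsCompact K) (hV : 0 < (volume K).toReal) (hR : RInv a K)
    (hP : ∏ i, (∫ x in K, x i ^ 2) ≤ cst n * (volume K).toReal ^ (n + 2)) :
    (covMatrix K).det ≤ cst n * (volume K).toReal ^ 2 := by
  rw [cov_blk hB hK hR, Matrix.det_diagonal, Finset.prod_mul_distrib, Finset.prod_const,
    Finset.card_univ, Fintype.card_fin, inv_pow]
  have hp : 0 < (volume K).toReal ^ n := pow_pos hV n
  rw [inv_mul_le_iff₀ hp]
  calc ∏ i, (∫ x in K, x i ^ 2) ≤ cst n * (volume K).toReal ^ (n + 2) := hP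
    _ = (volume K).toReal ^ n * (cst n * (volume K).toReal ^ 2) := by ring

end Vale.Agent.P254.Refl.C5h165
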