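import Vale.Agent.P254.Refl.Defs
import Mathlib.Analysis.InnerProductSpace.GramSchmidtOrtho
import Mathlib.Analysis.InnerProductSpace.PiL2

/-!
P254/Refl, leaf C6: adapted coordinates (Gram-Schmidt).
-/

open MeasureTheory Set Matrix InnerProductSpace

namespace Vale.Agent.P254.Refl.H972

/-- the inner product of the Euclidean space is the scalar product of vectors -/
theorem inner_toLp {n : ℕ} (u v : Fin n → ℝ) :
    inner ℝ (WithLp.toLp 2 u : EuclideanSpace ℝ (Fin n)) (WithLp.toLp 2 v) = u ⬝ᵥ v := by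
  rw [EuclideanSpace.inner_eq_star_dotProduct, dotProduct_comm]
  simp

theorem lk_symm {n : ℕ} {a : Fin n → Fin n → ℝ} {i j : Fin n} (h : Lk a i j) : Lk a j i := by
  induction h with
  | refl => exact Relation.ReflTransGen.refl
  | tail _ hbc ih => exact Relation.ReflTransGen.head (by rwa [dotProduct_comm]) ih

/-- the Gram-Schmidt vectors stay in the components -/
theorem gs_zero {n : ℕ} (a : Fin n → Fin n → ℝ) (i : Fin n) : ∀ j, ¬ Lk a i j →
    inner ℝ (gramSchmidt ℝ (fun i => (WithLp.toLp 2 (a i) : EuclideanSpace ℝ (Fin n))) i)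
      (WithLp.toLp 2 (a j) : EuclideanSpace ℝ (Fin n)) = 0 := by
  induction i using WellFoundedLT.induction with
  | _ i ih =>
    intro j hij
    have h1 := gramSchmidt_def'' ℝ
      (fun i => (WithLp.toLp 2 (a i) : EuclideanSpace ℝ (Fin n))) i
    have h2 := eq_sub_of_add_eq h1.symm
    rw [h2, inner_sub_left, sum_inner]
    have h3 : a i ⬝ᵥ a j = 0 := by
      by_contra h
      exact hij (Relation.ReflTransGen.single h)
    rw [inner_toLp, h3, zero_sub, neg_eq_zero]
    refine Finset.sum_eq_zero fun k hk => ?_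
    have hk' : k < i := Finset.mem_Iio.mp hk
    rw [inner_smul_left]
    by_cases hki : Lk a k i
    · have hkj : ¬ Lk a k j := fun h => hij ((lk_symm hki).trans h)
      rw [ih k hk' j hkj, mul_zero]
    · have := ih k hk' i hki
      simp only [this]
      simp

/-- [C6] adapted coordinates (Gram-Schmidt) -/
theorem exists_blk {n : ℕ} {a : Fin n → Fin n → ℝ} (ha : LinearIndependent ℝ a) :
    ∃ (O : Matrix (Fin n) (Fin n) ℝ) (β : Type) (lab : Fin n → β), O * Oᵀ = 1 ∧ Oᵀ * O = 1 ∧
      Blk (fun i => O *ᵥ a i) lab := by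
  set f : Fin n → EuclideanSpace ℝ (Fin n) := fun i => WithLp.toLp 2 (a i) with hf
  have hfl : LinearIndependent ℝ f := by
    have := ha.map' (WithLp.linearEquiv 2 ℝ (Fin n → ℝ)).symm.toLinearMap
      (LinearEquiv.ker _)
    exact this
  have hon : Orthonormal ℝ (gramSchmidtNormed ℝ f) := gramSchmidtNormed_orthonormal hfl
  set O : Matrix (Fin n) (Fin n) ℝ := fun i k => gramSchmidtNormed ℝ f i k with hO
  have h1 : O * Oᵀ = 1 := by
    ext i j
    rw [mul_apply]
    have h2 := orthonormal_iff_ite.mp hon i j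
    rw [EuclideanSpace.inner_eq_star_dotProduct] at h2
    simp only [dotProduct, star_trivial, Pi.star_apply] at h2
    rw [one_apply, ← h2]
    refine Finset.sum_congr rfl fun k _ => ?_
    rw [transpose_apply]
    exact mul_comm _ _
  have h2 : Oᵀ * O = 1 := mul_eq_one_comm.mp h1
  have hdot : ∀ u v : Fin n → ℝ, (O *ᵥ u) ⬝ᵥ (O *ᵥ v) = u ⬝ᵥ v := by
    intro u v
    rw [dotProduct_mulVec, vecMul_mulVec, h2, vecMul_one]
  have hval : ∀ i j, (O *ᵥ a j) i = inner ℝ (gramSchmidtNormed ℝ f i) (f j) := by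
    intro i j
    rw [EuclideanSpace.inner_eq_star_dotProduct]
    simp only [mulVec, dotProduct, hO, hf, Pi.star_apply, star_trivial]
    refine Finset.sum_congr rfl fun k _ => ?_
    ring
  let s : Setoid (Fin n) :=
    { r := Lk a
      iseqv := ⟨fun _ => Relation.ReflTransGen.refl, lk_symm, fun h h' => h.trans h'⟩ }
  refine ⟨O, Quotient s, fun i => Quotient.mk s i, h1, h2, ?_, ?_, ?_⟩
  · have hinj : Function.Injective (fun v : Fin n → ℝ => O *ᵥ v) := by
      intro u v huv
      have := congrArg (fun w => Oᵀ *ᵥ w) huv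
      simpa only [mulVec_mulVec, h2, one_mulVec] using this
    exact ha.map' O.mulVecLin (LinearMap.ker_eq_bot.mpr hinj)
  · intro i j hij
    have hl : ¬ Lk a i j := fun h => hij (Quotient.sound h)
    simp only [hval]
    rw [gramSchmidtNormed, inner_smul_left, gs_zero a i j hl, mul_zero]
  · intro i j hij
    have hl : Lk a i j := Quotient.exact hij
    unfold Lk at hl ⊢
    simpa only [hdot] using hl

end Vale.Agent.P254.Refl.H972
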