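import Vale.Agent.P254.Refl.Defs
import Vale.Agent.P254.Bdl.B2
import Vale.Agent.P254.Bdl.B17
import Vale.Agent.P254.Unc.FinDefs

/-!
P254/Refl, [C7]: from adapted coordinates to any coordinates by an orthogonal matrix.
-/

open MeasureTheory Set Matrix

namespace Vale.Agent.P254.Refl

namespace C7

theorem dot_orth {n : ℕ} {O : Matrix (Fin n) (Fin n) ℝ} (h2 : Oᵀ * O = 1) (u v : Fin n → ℝ) :
    (O *ᵥ u) ⬝ᵥ (O *ᵥ v) = u ⬝ᵥ v := by
  rw [Matrix.dotProduct_mulVec, Matrix.vecMul_mulVec, h2, Matrix.vecMul_one]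

theorem rf_orth {n : ℕ} {O : Matrix (Fin n) (Fin n) ℝ} (h2 : Oᵀ * O = 1) (a x : Fin n → ℝ) :
    rf (O *ᵥ a) (O *ᵥ x) = O *ᵥ rf a x := by
  unfold rf
  rw [dot_orth h2, dot_orth h2, Matrix.mulVec_sub, Matrix.mulVec_smul]

theorem det_sq {n : ℕ} {O : Matrix (Fin n) (Fin n) ℝ} (h1 : O * Oᵀ = 1) : O.det * O.det = 1 := by
  have h := congrArg Matrix.det h1
  rwa [Matrix.det_mul, Matrix.det_transpose, Matrix.det_one] at h

theorem body_aff {n : ℕ} {A : Matrix (Fin n) (Fin n) ℝ} (hA : A.det ≠ 0) (b : Fin n → ℝ)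
    {K : Set (Fin n → ℝ)} (hK : IsConvexBody K) : IsConvexBody (aff A b '' K) := by
  have hi := aff_injective hA (0 : Fin n → ℝ)
  refine ⟨?_, isCompact_aff_image A b hK.2.1, ?_⟩
  · have e : aff A b '' K = (fun x => b + x) '' (Matrix.toLin' A '' K) := by
      rw [Set.image_image]
      refine Set.image_congr fun x _ => ?_
      simp only [aff, Matrix.toLin'_apply, add_comm]
    rw [e]
    exact (hK.1.linear_image _).translate b
  · have hs : Function.Surjective (aff A b) := by
      intro y
      have hs0 : Function.Surjective (Matrix.toLin' A) := by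
        refine LinearMap.surjective_of_injective ?_
        intro x y hxy
        refine hi ?_
        simpa [aff, Matrix.toLin'_apply] using hxy
      obtain ⟨x, hx⟩ := hs0 (y - b)
      refine ⟨x, ?_⟩
      rw [Matrix.toLin'_apply] at hx
      simp [aff, hx]
    have ho : IsOpenMap (aff A b) := by
      have h0 : IsOpenMap (Matrix.toLin' A) := by
        refine LinearMap.isOpenMap_of_finiteDimensional _ ?_
        refine LinearMap.surjective_of_injective ?_
        intro x y hxy
        refine hi ?_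
        simpa [aff, Matrix.toLin'_apply] using hxy
      have e : aff A b = (Homeomorph.addRight b) ∘ (Matrix.toLin' A) := by
        funext x
        simp [aff, Matrix.toLin'_apply]
      rw [e]
      exact (Homeomorph.addRight b).isOpenMap.comp h0
    exact (hK.2.2.image (aff A b)).mono (ho.image_interior_subset K)

end C7

/-- [C7] the orthogonal form, from [C5] and [C6] -/
theorem det_orth_of {n : ℕ}
    (det_blk : ∀ {β : Type} {a : Fin n → Fin n → ℝ} {lab : Fin n → β}, Blk a lab →
      ∀ {K : Set (Fin n → ℝ)}, IsConvexBody K → RInv a K →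
        (covMatrix K).det ≤ cst n * (volume K).toReal ^ 2)
    (exists_blk : ∀ {a : Fin n → Fin n → ℝ}, LinearIndependent ℝ a →
      ∃ (O : Matrix (Fin n) (Fin n) ℝ) (β : Type) (lab : Fin n → β), O * Oᵀ = 1 ∧ Oᵀ * O = 1 ∧
        Blk (fun i => O *ᵥ a i) lab)
    {a : Fin n → Fin n → ℝ} (ha : LinearIndependent ℝ a) {K : Set (Fin n → ℝ)}
    (hK : IsConvexBody K) (hR : RInv a K) :
    (covMatrix K).det ≤ cst n * (volume K).toReal ^ 2 := by
  obtain ⟨O, β, lab, h1, h2, hB⟩ := exists_blk ha
  have hd := C7.det_sq h1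
  have hd0 : O.det ≠ 0 := by
    intro h
    rw [h] at hd
    norm_num at hd
  have habs : |O.det| = 1 := by
    have := abs_mul_abs_self O.det
    rw [hd] at this
    nlinarith [abs_nonneg O.det]
  have hV : (volume K).toReal ≠ 0 := by
    have hpos : 0 < volume K := lt_of_lt_of_le
      (isOpen_interior.measure_pos volume hK.2.2) (measure_mono interior_subset)
    exact (ENNReal.toReal_pos hpos.ne' hK.2.1.measure_lt_top.ne).ne'
  have hK' : IsConvexBody (aff O 0 '' K) := C7.body_aff hd0 0 hK
  have hR' : RInv (fun i => O *ᵥ a i) (aff O 0 '' K) := by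
    rintro i _ ⟨x, hx, rfl⟩
    refine ⟨rf (a i) x, hR i x hx, ?_⟩
    have e : ∀ y, aff O 0 y = O *ᵥ y := fun y => by simp [aff]
    rw [e, e, C7.rf_orth h2]
  have key := det_blk hB hK' hR'
  rw [cov_aff_image hd0 0 hK.2.1 hV, volume_aff_image hd0 0 hK.2.1.measurableSet, habs, one_mul,
    det_mul, det_mul, det_transpose] at key
  have e : O.det * (covMatrix K).det * O.det = (covMatrix K).det := by
    rw [mul_right_comm, hd, one_mul]
  rwa [e] at key

end Vale.Agent.P254.Refl
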