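import Vale.Agent.P254.Refl.Defs
import Vale.Agent.P254.Affine
import Vale.Agent.P254.Unc.Near
import Mathlib.Analysis.CStarAlgebra.Matrix
import Mathlib.Analysis.Matrix.Order

/-!
P254/Refl, leaf C8: oblique affine reflections become orthogonal in the isotropic position.
-/

open MeasureTheory Set Matrix

namespace Vale.Agent.P254.Refl.H972

open scoped MatrixOrder Matrix.Norms.L2Operator in
theorem root {n : ℕ} {t : Matrix (Fin n) (Fin n) ℝ} (h : t.PosDef) :
    ∃ A : Matrix (Fin n) (Fin n) ℝ, t = Aᵀ * A := by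
  obtain ⟨B, hB⟩ := CStarAlgebra.nonneg_iff_eq_star_mul_self.1 h.posSemidef.nonneg
  refine ⟨B, ?_⟩
  rw [hB, star_eq_conjTranspose]
  congr 1

/-- [C8] reduction of oblique affine reflections to orthogonal ones -/
theorem exists_pos {n : ℕ} {K : Set (Fin n → ℝ)} (hK : IsConvexBody K)
    {a w : Fin n → Fin n → ℝ} {c : Fin n → ℝ} (ha : LinearIndependent ℝ a)
    (hw : ∀ i, w i ⬝ᵥ a i = 2) (hR : ∀ i, ∀ x ∈ K, x - (w i ⬝ᵥ x - c i) • a i ∈ K) :
    ∃ (A : Matrix (Fin n) (Fin n) ℝ) (b : Fin n → ℝ) (a' : Fin n → Fin n → ℝ), A.det ≠ 0 ∧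
      LinearIndependent ℝ a' ∧ RInv a' ((fun x => A *ᵥ x + b) '' K) := by
  have hM := covMatrix_posDef hK
  have hc := hK.2.1
  have hV : 0 < (volume K).toReal :=
    ENNReal.toReal_pos ((isOpen_interior.measure_pos volume hK.2.2).trans_le
      (measure_mono interior_subset)).ne' hc.measure_ne_top
  set M := covMatrix K with hMdef
  set g := centroid K with hg
  obtain ⟨A, hA⟩ := root hM.inv
  have hMdet : M.det ≠ 0 := hM.det_pos.ne'
  have hMu : IsUnit M.det := isUnit_iff_ne_zero.mpr hMdet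
  have hAdet : A.det ≠ 0 := by
    intro h
    have h1 : (M⁻¹).det = 0 := by rw [hA, det_mul, h, mul_zero]
    exact hM.inv.det_pos.ne' h1
  have hinj : Function.Injective (fun v : Fin n → ℝ => A *ᵥ v) :=
    mulVec_injective_iff_isUnit.mpr
      ((isUnit_iff_isUnit_det A).mpr (isUnit_iff_ne_zero.mpr hAdet))
  -- the reflection in the original coordinates
  have key : ∀ i, w i ⬝ᵥ g = c i ∧ ∀ x : Fin n → ℝ,
      w i ⬝ᵥ x = 2 * ((A *ᵥ a i) ⬝ᵥ (A *ᵥ x)) / ((A *ᵥ a i) ⬝ᵥ (A *ᵥ a i)) := by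
    intro i
    have hne : a i ≠ 0 := ha.ne_zero i
    set R : Matrix (Fin n) (Fin n) ℝ := 1 - vecMulVec (a i) (w i) with hRdef
    have hRx : ∀ x : Fin n → ℝ, R *ᵥ x = x - (w i ⬝ᵥ x) • a i := by
      intro x
      rw [hRdef, sub_mulVec, one_mulVec, vecMulVec_mulVec]
      simp
    have hRR : R * R = 1 := by
      refine ext_of_mulVec_single fun j => ?_
      rw [← mulVec_mulVec, hRx, hRx, one_mulVec, dotProduct_sub, dotProduct_smul, hw i]
      simp only [smul_eq_mul]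
      module
    have hRdet : R.det ≠ 0 := by
      intro h
      have h1 := congrArg Matrix.det hRR
      rw [det_mul, h, mul_zero, det_one] at h1
      exact zero_ne_one h1
    have haff : ∀ x, aff R (c i • a i) x = x - (w i ⬝ᵥ x - c i) • a i := by
      intro x
      rw [aff, hRx]
      module
    have hinv : ∀ x, aff R (c i • a i) (aff R (c i • a i) x) = x := by
      intro x
      rw [haff, haff, dotProduct_sub, dotProduct_smul, hw i]
      simp only [smul_eq_mul]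
      module
    have himg : aff R (c i • a i) '' K = K := by
      apply Subset.antisymm
      · rintro _ ⟨x, hx, rfl⟩
        rw [haff]
        exact hR i x hx
      · intro x hx
        refine ⟨aff R (c i • a i) x, ?_, hinv x⟩
        rw [haff]
        exact hR i x hx
    have hcen := centroid_aff_image hRdet (c i • a i) hc hV.ne'
    have hcov := cov_aff_image hRdet (c i • a i) hc hV.ne'
    rw [himg] at hcen hcov
    rw [← hMdef] at hcov
    rw [← hg, haff] at hcen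
    have h1 : w i ⬝ᵥ g = c i := by
      have h2 : (w i ⬝ᵥ g - c i) • a i = 0 := by
        have h3 := sub_eq_zero.mpr hcen
        rw [sub_sub_cancel] at h3
        exact h3
      rcases smul_eq_zero.mp h2 with h3 | h3
      · linarith
      · exact absurd h3 hne
    refine ⟨h1, ?_⟩
    have hRM : R * M = M * Rᵀ := by
      have h2 : Rᵀ * Rᵀ = 1 := by rw [← transpose_mul, hRR, transpose_one]
      calc R * M = R * M * (Rᵀ * Rᵀ) := by rw [h2, mul_one]
        _ = (R * M * Rᵀ) * Rᵀ := by rw [Matrix.mul_assoc (R * M)]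
        _ = M * Rᵀ := by rw [← hcov]
    have hRtw : Rᵀ *ᵥ w i = - w i := by
      rw [hRdef, transpose_sub, transpose_one, transpose_vecMulVec, sub_mulVec, one_mulVec,
        vecMulVec_mulVec, dotProduct_comm, hw i]
      ext k
      simp
      ring
    have hMw : (2 : ℝ) • (M *ᵥ w i) = (w i ⬝ᵥ (M *ᵥ w i)) • a i := by
      have h2 := congrArg (fun X : Matrix (Fin n) (Fin n) ℝ => X *ᵥ w i) hRM
      simp only [← mulVec_mulVec] at h2
      rw [hRtw, hRx, mulVec_neg] at h2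
      have h3 : M *ᵥ w i + M *ᵥ w i = (w i ⬝ᵥ (M *ᵥ w i)) • a i := by
        have h4 := eq_add_of_sub_eq h2
        rw [neg_add_eq_sub] at h4
        exact (eq_sub_iff_add_eq.mp h4)
      rw [two_smul]
      exact h3
    set q := w i ⬝ᵥ (M *ᵥ w i) with hq
    have hwi : w i = (q / 2) • (M⁻¹ *ᵥ a i) := by
      have h2 : M⁻¹ *ᵥ (M *ᵥ w i) = w i := by
        rw [mulVec_mulVec, nonsing_inv_mul _ hMu, one_mulVec]
      have h3 : M *ᵥ w i = (q / 2) • a i := by
        have h4 := congrArg (fun v => (1 / 2 : ℝ) • v) hMw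
        simp only [smul_smul] at h4
        rw [show (1 / 2 : ℝ) * 2 = 1 by norm_num, one_smul] at h4
        rw [h4]
        congr 1
        ring
      rw [← h2, h3, mulVec_smul]
    have hwx : ∀ x : Fin n → ℝ, w i ⬝ᵥ x = (q / 2) * ((A *ᵥ a i) ⬝ᵥ (A *ᵥ x)) := by
      intro x
      rw [hwi, hA, smul_dotProduct, smul_eq_mul, ← mulVec_mulVec]
      congr 1
      rw [dotProduct_mulVec, ← mulVec_transpose]
    have h5 := hwx (a i)
    rw [hw i] at h5
    intro x
    rw [hwx x]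
    have h6 : (A *ᵥ a i) ⬝ᵥ (A *ᵥ a i) ≠ 0 := by
      intro h
      rw [h, mul_zero] at h5
      norm_num at h5
    rw [eq_div_iff h6]
    calc q / 2 * ((A *ᵥ a i) ⬝ᵥ (A *ᵥ x)) * ((A *ᵥ a i) ⬝ᵥ (A *ᵥ a i))
        = (q / 2 * ((A *ᵥ a i) ⬝ᵥ (A *ᵥ a i))) * ((A *ᵥ a i) ⬝ᵥ (A *ᵥ x)) := by ring
      _ = 2 * ((A *ᵥ a i) ⬝ᵥ (A *ᵥ x)) := by rw [← h5]
  refine ⟨A, -(A *ᵥ g), fun i => A *ᵥ a i, hAdet, ?_, ?_⟩
  · exact ha.map' A.mulVecLin (LinearMap.ker_eq_bot.mpr hinj)
  · rintro i _ ⟨x, hx, rfl⟩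
    obtain ⟨h1, h2⟩ := key i
    refine ⟨x - (w i ⬝ᵥ x - c i) • a i, hR i x hx, ?_⟩
    have h3 : w i ⬝ᵥ x - c i = 2 * ((A *ᵥ a i) ⬝ᵥ (A *ᵥ x + -(A *ᵥ g))) /
        ((A *ᵥ a i) ⬝ᵥ (A *ᵥ a i)) := by
      rw [← sub_eq_add_neg, ← mulVec_sub, ← h2 (x - g), dotProduct_sub, h1]
    unfold rf
    simp only
    rw [← h3, mulVec_sub, mulVec_smul]
    module

end Vale.Agent.P254.Refl.H972
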