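import Vale.Agent.P254.Refl.Defs
import Vale.Agent.P254.Bdl.B2
import Vale.Agent.P254.Bdl.B10
import Vale.Agent.P254.Bdl.B17

/-!
P254, reflection symmetries: from the bound of the determinant for orthogonal reflections through
the origin to the isotropic constant, oblique affine reflections (helper462).
-/

open MeasureTheory Set Matrix

namespace Vale.Agent.P254.Refl

theorem cst_eq_simpC (n : ℕ) : cst n = FV.simpC n := by
  unfold cst FV.simpC
  rw [mul_pow]
  congr 1
  rw [pow_succ]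
  ring

/-- [C9] with [C7], [C8] as hypotheses -/
theorem isoConst_le_of {n : ℕ} (hn : 1 ≤ n)
    (h7 : ∀ {a : Fin n → Fin n → ℝ}, LinearIndependent ℝ a → ∀ {K : Set (Fin n → ℝ)},
      IsConvexBody K → RInv a K → (covMatrix K).det ≤ cst n * (volume K).toReal ^ 2)
    (h8 : ∀ {K : Set (Fin n → ℝ)}, IsConvexBody K → ∀ {a w : Fin n → Fin n → ℝ} {c : Fin n → ℝ},
      LinearIndependent ℝ a → (∀ i, w i ⬝ᵥ a i = 2) →
      (∀ i, ∀ x ∈ K, x - (w i ⬝ᵥ x - c i) • a i ∈ K) →
      ∃ (A : Matrix (Fin n) (Fin n) ℝ) (b : Fin n → ℝ) (a' : Fin n → Fin n → ℝ), A.det ≠ 0 ∧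
        LinearIndependent ℝ a' ∧ RInv a' ((fun x => A *ᵥ x + b) '' K))
    {K S : Set (Fin n → ℝ)} (hK : IsConvexBody K) (hS : IsSimplex S)
    {a w : Fin n → Fin n → ℝ} {c : Fin n → ℝ} (ha : LinearIndependent ℝ a)
    (hw : ∀ i, w i ⬝ᵥ a i = 2) (hR : ∀ i, ∀ x ∈ K, x - (w i ⬝ᵥ x - c i) • a i ∈ K) :
    isoConst K ≤ isoConst S := by
  obtain ⟨A, b, a', hA, ha', hR'⟩ := h8 hK ha hw hR
  have hK' : IsConvexBody (aff A b '' K) := isConvexBody_aff_image hA b hK
  have h1 := h7 ha' hK' hR'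
  have hV : 0 < (volume (aff A b '' K)).toReal := volume_pos_of_body hK'
  have h2 : (covMatrix (aff A b '' K)).det / (volume (aff A b '' K)).toReal ^ 2 ≤ FV.simpC n := by
    rw [div_le_iff₀ (by positivity), ← cst_eq_simpC]
    exact h1
  rw [← isoConst_aff_image hA b hK.2.1 (volume_pos_of_body hK).ne', isoConst_simplex hS, isoConst,
    isoConst, FV.det_simplex hn]
  exact Real.rpow_le_rpow (div_nonneg (covMatrix_posSemidef hK'.2.1).det_nonneg (by positivity))
    h2 (by positivity)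

end Vale.Agent.P254.Refl
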