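import Vale.Agent.P254.Refl.C9

/-!
P254, reflection symmetries: the case of equality of the top step (helper462).
-/

open MeasureTheory Set Matrix

namespace Vale.Agent.P254.Refl

theorem isSimplex_of_aff {n : ℕ} {K : Set (Fin n → ℝ)} {A : Matrix (Fin n) (Fin n) ℝ}
    (hA : A.det ≠ 0) (b : Fin n → ℝ) (h : IsSimplex (aff A b '' K)) : IsSimplex K := by
  obtain ⟨B, c, hB, hBc⟩ := h.exists_aff
  have hu : IsUnit B.det := isUnit_iff_ne_zero.mpr hB
  have hu' : (B⁻¹).det ≠ 0 := by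
    rw [det_nonsing_inv, Ring.inverse_eq_inv']
    exact inv_ne_zero hB
  refine isSimplex_of_aff_image (A := B⁻¹ * A) (by rw [det_mul]; exact mul_ne_zero hu' hA)
    (B⁻¹ *ᵥ b + -(B⁻¹ *ᵥ c)) ?_
  have e1 : aff (B⁻¹ * A) (B⁻¹ *ᵥ b + -(B⁻¹ *ᵥ c)) = aff B⁻¹ (-(B⁻¹ *ᵥ c)) ∘ aff A b := by
    ext1 x
    rw [Function.comp_apply, aff_aff]
  have e2 : aff B⁻¹ (-(B⁻¹ *ᵥ c)) ∘ aff B c = id := by
    ext1 x
    rw [Function.comp_apply, aff_aff, nonsing_inv_mul _ hu]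
    simp [aff]
  rw [e1, image_comp, hBc, ← image_comp, e2, image_id]

/-- the case of equality, with the case of equality of [C7], and [C8] as hypotheses -/
theorem isSimplex_of_eq_of {n : ℕ} (hn : 1 ≤ n)
    (h7 : ∀ {a : Fin n → Fin n → ℝ}, LinearIndependent ℝ a → ∀ {K : Set (Fin n → ℝ)},
      IsConvexBody K → RInv a K → (covMatrix K).det = cst n * (volume K).toReal ^ 2 → IsSimplex K)
    (h8 : ∀ {K : Set (Fin n → ℝ)}, IsConvexBody K → ∀ {a w : Fin n → Fin n → ℝ} {c : Fin n → ℝ},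
      LinearIndependent ℝ a → (∀ i, w i ⬝ᵥ a i = 2) →
      (∀ i, ∀ x ∈ K, x - (w i ⬝ᵥ x - c i) • a i ∈ K) →
      ∃ (A : Matrix (Fin n) (Fin n) ℝ) (b : Fin n → ℝ) (a' : Fin n → Fin n → ℝ), A.det ≠ 0 ∧
        LinearIndependent ℝ a' ∧ RInv a' ((fun x => A *ᵥ x + b) '' K))
    {K S : Set (Fin n → ℝ)} (hK : IsConvexBody K) (hS : IsSimplex S)
    {a w : Fin n → Fin n → ℝ} {c : Fin n → ℝ} (ha : LinearIndependent ℝ a)
    (hw : ∀ i, w i ⬝ᵥ a i = 2) (hR : ∀ i, ∀ x ∈ K, x - (w i ⬝ᵥ x - c i) • a i ∈ K)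
    (he : isoConst K = isoConst S) : IsSimplex K := by
  obtain ⟨A, b, a', hA, ha', hR'⟩ := h8 hK ha hw hR
  have hK' : IsConvexBody (aff A b '' K) := isConvexBody_aff_image hA b hK
  have hV : 0 < (volume (aff A b '' K)).toReal := volume_pos_of_body hK'
  rw [← isoConst_aff_image hA b hK.2.1 (volume_pos_of_body hK).ne', isoConst_simplex hS, isoConst,
    isoConst, FV.det_simplex hn] at he
  have h0 : 0 ≤ (covMatrix (aff A b '' K)).det / (volume (aff A b '' K)).toReal ^ 2 :=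
    div_nonneg (covMatrix_posSemidef hK'.2.1).det_nonneg (by positivity)
  have hn' : (1 : ℝ) ≤ n := by exact_mod_cast hn
  have h2 : (covMatrix (aff A b '' K)).det / (volume (aff A b '' K)).toReal ^ 2 = FV.simpC n :=
    (Real.rpow_left_inj h0 (FV.simpC_pos n).le (by positivity)).1 he
  rw [div_eq_iff (by positivity), ← cst_eq_simpC] at h2
  exact isSimplex_of_aff hA b (h7 ha' hK' hR' h2)

end Vale.Agent.P254.Refl
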