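import Vale.Agent.P254.Refl.Defs
import Vale.Agent.P254.Unc.FinDefs
import Vale.Agent.P254.Unc.Stab2

/-!
P254/Refl, leaf C9 (hedge): the top statement from the orthogonal form (C7) and the reduction (C8).
-/

open MeasureTheory Set Matrix

namespace Vale.Agent.P254.Refl.C9h793

theorem simpC_eq (n : ℕ) : FV.simpC n = cst n := by
  unfold FV.simpC cst
  rw [mul_pow, pow_succ]
  congr 1
  ring

/-- the isotropic constant from the determinant bound -/
theorem iso_of_det {n : ℕ} (hn : 1 ≤ n) {K S : Set (Fin n → ℝ)} (hK : IsConvexBody K)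
    (hS : IsSimplex S) (h : (covMatrix K).det ≤ cst n * (volume K).toReal ^ 2) :
    isoConst K ≤ isoConst S := by
  have hV := volume_pos_of_body hK
  have h2 : (covMatrix K).det / (volume K).toReal ^ 2 ≤ FV.simpC n := by
    rw [div_le_iff₀ (by positivity), simpC_eq]
    exact h
  rw [isoConst_simplex hS, isoConst, isoConst, FV.det_simplex (by omega)]
  exact Real.rpow_le_rpow (div_nonneg (covMatrix_posSemidef hK.2.1).det_nonneg (by positivity))
    h2 (by positivity)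

/-- [C9] from [C7] and [C8] -/
theorem isoConst_le_of
    (h7 : ∀ {n : ℕ}, 1 ≤ n → Unc.UNCR n → (∀ m, 1 ≤ m → IrrBd m) →
      ∀ {a : Fin n → Fin n → ℝ}, LinearIndependent ℝ a → ∀ {K : Set (Fin n → ℝ)},
        IsConvexBody K → RInv a K → (covMatrix K).det ≤ cst n * (volume K).toReal ^ 2)
    (h8 : ∀ {n : ℕ} {K : Set (Fin n → ℝ)}, IsConvexBody K →
      ∀ {a w : Fin n → Fin n → ℝ} {c : Fin n → ℝ}, LinearIndependent ℝ a →
        (∀ i, w i ⬝ᵥ a i = 2) → (∀ i, ∀ x ∈ K, x - (w i ⬝ᵥ x - c i) • a i ∈ K) →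
        ∃ (A : Matrix (Fin n) (Fin n) ℝ) (b : Fin n → ℝ) (a' : Fin n → Fin n → ℝ), A.det ≠ 0 ∧
          LinearIndependent ℝ a' ∧ RInv a' ((fun x => A *ᵥ x + b) '' K))
    {n : ℕ} (hn : 1 ≤ n) (hU : Unc.UNCR n) (hI : ∀ m, 1 ≤ m → IrrBd m)
    {K S : Set (Fin n → ℝ)} (hK : IsConvexBody K) (hS : IsSimplex S)
    {a w : Fin n → Fin n → ℝ} {c : Fin n → ℝ} (ha : LinearIndependent ℝ a)
    (hw : ∀ i, w i ⬝ᵥ a i = 2) (hR : ∀ i, ∀ x ∈ K, x - (w i ⬝ᵥ x - c i) • a i ∈ K) :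
    isoConst K ≤ isoConst S := by
  obtain ⟨A, b, a', hA, ha', hR'⟩ := h8 hK ha hw hR
  have e : isoConst ((fun x => A *ᵥ x + b) '' K) = isoConst K :=
    isoConst_aff_image hA b hK.2.1 (volume_pos_of_body hK).ne'
  have hK' : IsConvexBody ((fun x => A *ᵥ x + b) '' K) := isConvexBody_aff_image hA b hK
  rw [← e]
  exact iso_of_det hn hK' hS (h7 hn hU hI ha' hK' hR')

end Vale.Agent.P254.Refl.C9h793
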