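import Vale.Agent.P254.Refl.Defs
import Vale.Agent.P254.Perm.Sec

/-!
P254/Refl: cube symmetrization of a block, [P1], [P1'], [P3a] and compactness (helper498).
-/

open MeasureTheory Set Filter Topology
open scoped Pointwise

namespace Vale.Agent.P254.Refl

namespace C498

variable {m p : ℕ}

theorem hh_nonneg (L : Set ((Fin m → ℝ) × (Fin p → ℝ))) (z : Fin p → ℝ) : 0 ≤ hgt L z :=
  Real.rpow_nonneg ENNReal.toReal_nonneg _

theorem hh_pow (hm : m ≠ 0) (L : Set ((Fin m → ℝ) × (Fin p → ℝ))) (z : Fin p → ℝ) :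
    hgt L z ^ m = (volume {y : Fin m → ℝ | (y, z) ∈ L}).toReal := by
  rw [hgt, one_div]
  exact Real.rpow_inv_natCast_pow ENNReal.toReal_nonneg hm

theorem isCompact_fib {L : Set ((Fin m → ℝ) × (Fin p → ℝ))} (hL : IsCompact L)
    (z : Fin p → ℝ) : IsCompact {y : Fin m → ℝ | (y, z) ∈ L} := by
  refine (hL.image continuous_fst).of_isClosed_subset
    (hL.isClosed.preimage (Continuous.prodMk_left z)) ?_
  intro y hy
  exact ⟨(y, z), hy, rfl⟩

theorem concave_hh (hm : m ≠ 0) {L : Set ((Fin m → ℝ) × (Fin p → ℝ))} (hc : Convex ℝ L)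
    (hL : IsCompact L) {x y : Fin p → ℝ} (hx : x ∈ Prod.snd '' L) (hy : y ∈ Prod.snd '' L)
    {α β : ℝ} (hα : 0 ≤ α) (hβ : 0 ≤ β) (hαβ : α + β = 1) :
    α * hgt L x + β * hgt L y ≤ hgt L (α • x + β • y) := by
  obtain ⟨⟨u, x'⟩, hu, rfl⟩ := hx
  obtain ⟨⟨v, y'⟩, hv, rfl⟩ := hy
  refine Perm.sec_bm hm ((isCompact_fib hL x').smul α) ((isCompact_fib hL y').smul β)
    (isCompact_fib hL (α • x' + β • y')) (Set.Nonempty.smul_set ⟨u, hu⟩)
    (Set.Nonempty.smul_set ⟨v, hv⟩)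
    (mul_nonneg hα (hh_nonneg _ _)) (mul_nonneg hβ (hh_nonneg _ _)) (hh_nonneg _ _) ?_ ?_
    (hh_pow hm _ _).symm ?_
  · rw [Perm.sec_smul hα, mul_pow, hh_pow hm]
  · rw [Perm.sec_smul hβ, mul_pow, hh_pow hm]
  · rintro _ ⟨u, hu, rfl⟩ _ ⟨v, hv, rfl⟩
    have h1 := hc hu hv hα hβ hαβ
    exact h1

/-- the volume of the fibre is upper semicontinuous -/
theorem usc_vol {L : Set ((Fin m → ℝ) × (Fin p → ℝ))} (hL : IsCompact L) (x : Fin p → ℝ) {c : ℝ}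
    (hc : (volume {y : Fin m → ℝ | (y, x) ∈ L}).toReal < c) :
    ∀ᶠ x' in 𝓝 x, (volume {y : Fin m → ℝ | (y, x') ∈ L}).toReal < c := by
  have hfin := (isCompact_fib hL x).measure_lt_top (μ := volume)
  have h1 : volume {y : Fin m → ℝ | (y, x) ∈ L} < ENNReal.ofReal c := by
    rw [ENNReal.lt_ofReal_iff_toReal_lt hfin.ne]; exact hc
  obtain ⟨U, hU, hUo, hUv⟩ := Set.exists_isOpen_lt_of_lt _ _ h1
  have h2 : IsClosed (Prod.snd '' (L ∩ Prod.fst ⁻¹' Uᶜ)) :=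
    ((hL.inter_right (hUo.isClosed_compl.preimage continuous_fst)).image continuous_snd).isClosed
  have h3 : x ∈ (Prod.snd '' (L ∩ Prod.fst ⁻¹' Uᶜ))ᶜ := by
    rintro ⟨⟨y, x'⟩, ⟨hp, hq⟩, rfl⟩
    exact hq (hU hp)
  filter_upwards [h2.isOpen_compl.mem_nhds h3] with x' hx'
  have h4 : {y : Fin m → ℝ | (y, x') ∈ L} ⊆ U := by
    intro y hy
    by_contra hn
    exact hx' ⟨(y, x'), ⟨hy, hn⟩, rfl⟩
  have h5 : volume {y : Fin m → ℝ | (y, x') ∈ L} < ENNReal.ofReal c :=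
    (measure_mono h4).trans_lt hUv
  exact (ENNReal.lt_ofReal_iff_toReal_lt h5.ne_top).1 h5

theorem usc_hh (hm : m ≠ 0) {L : Set ((Fin m → ℝ) × (Fin p → ℝ))} (hL : IsCompact L)
    (x : Fin p → ℝ) {c : ℝ} (hc : hgt L x < c) : ∀ᶠ x' in 𝓝 x, hgt L x' < c := by
  have hc0 : 0 < c := (hh_nonneg _ _).trans_lt hc
  have h1 : (volume {y : Fin m → ℝ | (y, x) ∈ L}).toReal < c ^ m := by
    rw [← hh_pow hm]
    exact pow_lt_pow_left₀ hc (hh_nonneg _ _) hm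
  filter_upwards [usc_vol hL x h1] with x' hx'
  rw [← hh_pow hm] at hx'
  exact lt_of_pow_lt_pow_left₀ m hc0.le hx'

theorem isClosed_cube (hm : m ≠ 0) {L : Set ((Fin m → ℝ) × (Fin p → ℝ))} (hL : IsCompact L) :
    IsClosed (cube L) := by
  have h1 : cube L = Prod.snd ⁻¹' (Prod.snd '' L) ∩
      ⋂ j, {q : (Fin m → ℝ) × (Fin p → ℝ) | 2 * |q.1 j| ≤ hgt L q.2} := by
    ext q; simp [cube]
  rw [h1]
  refine ((hL.image continuous_snd).isClosed.preimage continuous_snd).inter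
    (isClosed_iInter fun j => ?_)
  rw [← isOpen_compl_iff, isOpen_iff_eventually]
  rintro ⟨z, x⟩ hp
  have hp' : hgt L x < 2 * |z j| := not_le.1 hp
  obtain ⟨c, hc1, hc2⟩ := exists_between hp'
  have h2 : ∀ᶠ q : (Fin m → ℝ) × (Fin p → ℝ) in 𝓝 (z, x), hgt L q.2 < c :=
    (continuous_snd.tendsto (z, x)).eventually (usc_hh hm hL x hc1)
  have h3 : ∀ᶠ q : (Fin m → ℝ) × (Fin p → ℝ) in 𝓝 (z, x), c < 2 * |q.1 j| := by
    have hcont : Continuous fun q : (Fin m → ℝ) × (Fin p → ℝ) => 2 * |q.1 j| := by fun_prop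
    exact (hcont.tendsto (z, x)).eventually (lt_mem_nhds hc2)
  filter_upwards [h2, h3] with q h4 h5
  exact not_le.2 (h4.trans h5)

theorem bdd_hh {L : Set ((Fin m → ℝ) × (Fin p → ℝ))} (hL : IsCompact L) :
    ∃ M : ℝ, 0 ≤ M ∧ ∀ x, hgt L x ≤ M := by
  refine ⟨(volume (Prod.fst '' L)).toReal ^ (1 / (m : ℝ)),
    Real.rpow_nonneg ENNReal.toReal_nonneg _, fun x => ?_⟩
  refine Real.rpow_le_rpow ENNReal.toReal_nonneg
    (ENNReal.toReal_mono (hL.image continuous_fst).measure_ne_top (measure_mono ?_)) (by positivity)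
  intro y hy
  exact ⟨(y, x), hy, rfl⟩

theorem isCompact_cube (hm : m ≠ 0) {L : Set ((Fin m → ℝ) × (Fin p → ℝ))} (hL : IsCompact L) :
    IsCompact (cube L) := by
  obtain ⟨M, hM0, hM⟩ := bdd_hh hL
  refine ((isCompact_closedBall (0 : Fin m → ℝ) (M / 2)).prod (hL.image continuous_snd))
    |>.of_isClosed_subset (isClosed_cube hm hL) ?_
  rintro ⟨z, x⟩ ⟨hx, hz⟩
  refine ⟨?_, hx⟩
  rw [mem_closedBall_zero_iff, pi_norm_le_iff_of_nonneg (by positivity)]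
  intro j
  have h1 : 2 * |z j| ≤ hgt L x := hz j
  have h2 := hM x
  rw [Real.norm_eq_abs]
  linarith

theorem closure_cube (hm : m ≠ 0) {L : Set ((Fin m → ℝ) × (Fin p → ℝ))} (hL : IsCompact L) :
    closure (cube L) = cube L := (isClosed_cube hm hL).closure_eq

theorem fib_cube {L : Set ((Fin m → ℝ) × (Fin p → ℝ))} {x : Fin p → ℝ}
    (hx : x ∈ Prod.snd '' L) : {z : Fin m → ℝ | (z, x) ∈ cube L} =
      Icc (fun _ => -(hgt L x / 2)) (fun _ => hgt L x / 2) := by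
  ext z
  constructor
  · intro h
    have h2 : ∀ j, 2 * |z j| ≤ hgt L x := h.2
    refine ⟨fun j => ?_, fun j => ?_⟩
    · have := neg_abs_le (z j); have := h2 j; linarith
    · have := le_abs_self (z j); have := h2 j; linarith
  · intro h
    refine ⟨hx, fun j => ?_⟩
    have h1 := h.1 j
    have h2 := h.2 j
    show 2 * |z j| ≤ hgt L x
    have : |z j| ≤ hgt L x / 2 := abs_le.2 ⟨h1, h2⟩
    linarith

theorem fib_cube_not {L : Set ((Fin m → ℝ) × (Fin p → ℝ))} {x : Fin p → ℝ}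
    (hx : x ∉ Prod.snd '' L) : {z : Fin m → ℝ | (z, x) ∈ cube L} = ∅ :=
  eq_empty_of_forall_notMem fun _ h => hx h.1

theorem fib_not {L : Set ((Fin m → ℝ) × (Fin p → ℝ))} {x : Fin p → ℝ}
    (hx : x ∉ Prod.snd '' L) : {z : Fin m → ℝ | (z, x) ∈ L} = ∅ :=
  eq_empty_of_forall_notMem fun z h => hx ⟨(z, x), h, rfl⟩

theorem vol_fib_cube (hm : m ≠ 0) {L : Set ((Fin m → ℝ) × (Fin p → ℝ))} (hL : IsCompact L)
    (x : Fin p → ℝ) : volume {z : Fin m → ℝ | (z, x) ∈ cube L} =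
      volume {y : Fin m → ℝ | (y, x) ∈ L} := by
  by_cases hx : x ∈ Prod.snd '' L
  · rw [fib_cube hx, Real.volume_Icc_pi]
    simp only [sub_neg_eq_add, add_halves, Finset.prod_const, Finset.card_univ, Fintype.card_fin]
    rw [← ENNReal.ofReal_pow (hh_nonneg _ _), hh_pow hm,
      ENNReal.ofReal_toReal (isCompact_fib hL x).measure_ne_top]
  · rw [fib_cube_not hx, fib_not hx]

end C498

/-- [P1] Brunn-Minkowski -/
theorem C498.hgt_conc {m p : ℕ} (hm : 1 ≤ m) {L : Set ((Fin m → ℝ) × (Fin p → ℝ))}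
    (hc : Convex ℝ L) (hL : IsCompact L) : ConcaveOn ℝ (Prod.snd '' L) (hgt L) :=
  ⟨hc.linear_image (LinearMap.snd ℝ (Fin m → ℝ) (Fin p → ℝ)), fun _ hx _ hy _ _ hα hβ hαβ =>
    C498.concave_hh (by omega) hc hL hx hy hα hβ hαβ⟩

/-- [P1'] measurability and boundedness -/
theorem C498.hgt_meas {m p : ℕ} {L : Set ((Fin m → ℝ) × (Fin p → ℝ))} (hL : IsCompact L) :
    Measurable (hgt L) ∧ (∀ z, 0 ≤ hgt L z) ∧ ∃ C : ℝ, ∀ z, hgt L z ≤ C := by
  refine ⟨?_, C498.hh_nonneg L, ?_⟩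
  · have h1 : Measurable fun z : Fin p → ℝ => volume {y : Fin m → ℝ | (y, z) ∈ L} :=
      measurable_measure_prodMk_right hL.measurableSet
    exact h1.ennreal_toReal.pow_const _
  · obtain ⟨M, -, hM⟩ := C498.bdd_hh hL
    exact ⟨M, hM⟩

/-- [P3a] -/
theorem C498.cube_convex {m p : ℕ} (hm : 1 ≤ m) {L : Set ((Fin m → ℝ) × (Fin p → ℝ))}
    (hc : Convex ℝ L) (hL : IsCompact L) : Convex ℝ (cube L) ∧ IsCompact (closure (cube L)) := by
  refine ⟨?_, ?_⟩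
  · rintro ⟨u, x⟩ ⟨hx, hu⟩ ⟨v, y⟩ ⟨hy, hv⟩ α β hα hβ hαβ
    have hcv := C498.concave_hh (by omega) hc hL hx hy hα hβ hαβ
    refine ⟨?_, fun j => ?_⟩
    · exact (C498.hgt_conc hm hc hL).1 hx hy hα hβ hαβ
    · have h1 : 2 * |u j| ≤ hgt L x := hu j
      have h2 : 2 * |v j| ≤ hgt L y := hv j
      show 2 * |α * u j + β * v j| ≤ hgt L (α • x + β • y)
      calc 2 * |α * u j + β * v j| ≤ 2 * (|α * u j| + |β * v j|) := by
            gcongr; exact abs_add_le _ _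
        _ = α * (2 * |u j|) + β * (2 * |v j|) := by
            rw [abs_mul, abs_mul, abs_of_nonneg hα, abs_of_nonneg hβ]; ring
        _ ≤ α * hgt L x + β * hgt L y := by gcongr
        _ ≤ hgt L (α • x + β • y) := hcv
  · rw [C498.closure_cube (by omega) hL]
    exact C498.isCompact_cube (by omega) hL

end Vale.Agent.P254.Refl
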