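import Mathlib

/-!
Arithmetic of the constants `d_m = (m!)² / (m+1)^(2m+1)` and `c_m = d_m ((m+1)/(m+2))^m`:
supermultiplicativity `d_m d_k ≤ d_(m+k)` and the product over the blocks.
-/

namespace Vale.Agent.P254.Refl.A192

open Finset

/-- `d_m = (m!)² / (m+1)^(2m+1)`. -/
noncomputable def dd (m : ℕ) : ℝ := ((m.factorial : ℝ)) ^ 2 / ((m : ℝ) + 1) ^ (2 * m + 1)

/-- `c_m = (m!)² / ((m+1)^(m+1) (m+2)^m)`. -/
noncomputable def cc (m : ℕ) : ℝ :=
  ((m.factorial : ℝ)) ^ 2 / (((m : ℝ) + 1) ^ (m + 1) * ((m : ℝ) + 2) ^ m)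

theorem dd_pos (m : ℕ) : 0 < dd m := by
  unfold dd; positivity

theorem cc_pos (m : ℕ) : 0 < cc m := by
  unfold cc; positivity

theorem dd_zero : dd 0 = 1 := by simp [dd]

theorem cc_zero : cc 0 = 1 := by simp [cc]

theorem cc_eq (m : ℕ) : cc m = dd m * (((m : ℝ) + 1) / ((m : ℝ) + 2)) ^ m := by
  unfold cc dd
  have h1 : ((m : ℝ) + 1) ≠ 0 := by positivity
  have h2 : ((m : ℝ) + 2) ≠ 0 := by positivity
  rw [div_pow]
  field_simp
  ring

/-- The ratio `d_(m+1) / d_m`. -/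
noncomputable def rr (m : ℕ) : ℝ := (((m : ℝ) + 1) / ((m : ℝ) + 2)) ^ (2 * m + 3)

theorem dd_succ (m : ℕ) : dd (m + 1) = dd m * rr m := by
  unfold dd rr
  rw [Nat.factorial_succ]
  push_cast
  have h1 : ((m : ℝ) + 1) ≠ 0 := by positivity
  have h2 : ((m : ℝ) + 1 + 1) ≠ 0 := by positivity
  have h3 : ((m : ℝ) + 2) = (m : ℝ) + 1 + 1 := by ring
  rw [h3, div_pow, show 2 * (m + 1) + 1 = 2 * m + 3 by ring]
  field_simp
  ring

/-- `(2x+1) log (1 + 1/x)` is antitone. -/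
theorem log_anti {x y : ℝ} (hx : 0 < x) (hxy : x ≤ y) :
    (2 * y + 1) * Real.log (1 + y⁻¹) ≤ (2 * x + 1) * Real.log (1 + x⁻¹) := by
  have hy : 0 < y := lt_of_lt_of_le hx hxy
  have key : ∀ a : ℝ, 0 < a → HasSum (fun k : ℕ => (2 : ℝ) * (1 / (2 * k + 1)) *
      (1 / (2 * a + 1)) ^ (2 * k)) ((2 * a + 1) * Real.log (1 + a⁻¹)) := by
    intro a ha
    have h := (Real.hasSum_log_one_add_inv ha).mul_left (2 * a + 1)
    refine h.congr_fun ?_ |> fun t => t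
    intro k
    have : (2 * a + 1) ≠ 0 := by positivity
    rw [pow_succ]
    field_simp
  refine hasSum_le ?_ (key y hy) (key x hx)
  intro k
  have : 1 / (2 * y + 1) ≤ 1 / (2 * x + 1) := by
    apply one_div_le_one_div_of_le <;> linarith
  gcongr

theorem rr_mono {m k : ℕ} (h : m ≤ k) : rr m ≤ rr k := by
  have e : ∀ j : ℕ, rr j = Real.exp (-((2 * ((j : ℝ) + 1) + 1) * Real.log (1 + ((j : ℝ) + 1)⁻¹))) := by
    intro j
    unfold rr
    have h1 : (0 : ℝ) < (j : ℝ) + 1 := by positivity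
    have h2 : (1 + ((j : ℝ) + 1)⁻¹) = (((j : ℝ) + 1) / ((j : ℝ) + 2))⁻¹ := by
      rw [inv_div]; field_simp; ring
    rw [h2, Real.log_inv]
    have h3 : (0 : ℝ) < ((j : ℝ) + 1) / ((j : ℝ) + 2) := by positivity
    have h4 : -((2 * ((j : ℝ) + 1) + 1) * -Real.log (((j : ℝ) + 1) / ((j : ℝ) + 2)))
        = ((2 * j + 3 : ℕ) : ℝ) * Real.log (((j : ℝ) + 1) / ((j : ℝ) + 2)) := by
      push_cast; ring
    rw [h4, Real.exp_nat_mul, Real.exp_log h3]
  rw [e m, e k]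
  apply Real.exp_le_exp.2
  apply neg_le_neg
  apply log_anti (by positivity)
  have : (m : ℝ) ≤ k := by exact_mod_cast h
  linarith

/-- Supermultiplicativity. -/
theorem dd_mul_le (m k : ℕ) : dd m * dd k ≤ dd (m + k) := by
  induction k with
  | zero => simp [dd_zero]
  | succ k ih =>
    rw [dd_succ, ← add_assoc, dd_succ]
    have h1 := rr_mono (Nat.le_add_left k m)
    have h0 : 0 ≤ rr k := by unfold rr; positivity
    calc dd m * (dd k * rr k) = (dd m * dd k) * rr k := by ring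
      _ ≤ dd (m + k) * rr (m + k) := by
        apply mul_le_mul ih h1 h0 (dd_pos _).le

theorem prod_dd_le {ι : Type*} (s : Finset ι) (m : ι → ℕ) :
    ∏ j ∈ s, dd (m j) ≤ dd (∑ j ∈ s, m j) := by
  classical
  induction s using Finset.induction_on with
  | empty => simp [dd_zero]
  | insert a s ha ih =>
    rw [Finset.prod_insert ha, Finset.sum_insert ha]
    exact le_trans (mul_le_mul_of_nonneg_left ih (dd_pos _).le) (dd_mul_le _ _)

/-- The Berwald constant. -/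
noncomputable def bw (n m : ℕ) : ℝ := ((m : ℝ) + 2) * ((n : ℝ) + 1) / (((m : ℝ) + 1) * ((n : ℝ) + 2))

theorem cc_mul_bw (n m : ℕ) : cc m * bw n m ^ m = dd m * (((n : ℝ) + 1) / ((n : ℝ) + 2)) ^ m := by
  rw [cc_eq]
  unfold bw
  have h1 : ((m : ℝ) + 1) ≠ 0 := by positivity
  have h2 : ((m : ℝ) + 2) ≠ 0 := by positivity
  have h3 : ((n : ℝ) + 2) ≠ 0 := by positivity
  rw [mul_assoc, ← mul_pow]
  congr 2
  field_simp

/-- The product over the blocks: `∏ c_(m_j) r_(m_j)^(m_j) ≤ c_n`, `n = ∑ m_j`. -/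
theorem prod_cc_bw_le {ι : Type*} (s : Finset ι) (m : ι → ℕ) :
    ∏ j ∈ s, (cc (m j) * bw (∑ i ∈ s, m i) (m j) ^ m j) ≤ cc (∑ j ∈ s, m j) := by
  set n := ∑ j ∈ s, m j with hn
  have h : ∏ j ∈ s, (cc (m j) * bw n (m j) ^ m j)
      = (∏ j ∈ s, dd (m j)) * (((n : ℝ) + 1) / ((n : ℝ) + 2)) ^ n := by
    rw [Finset.prod_congr rfl (fun j _ => cc_mul_bw n (m j)), Finset.prod_mul_distrib,
      Finset.prod_pow_eq_pow_sum]
  rw [h, cc_eq]
  apply mul_le_mul_of_nonneg_right _ (by positivity)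
  rw [hn]
  exact prod_dd_le s m

end Vale.Agent.P254.Refl.A192
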