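import Vale.Agent.P254.Refl.Slice171
import Vale.Agent.P254.Refl.A1
import Vale.Agent.P254.Refl.A2
import Vale.Agent.P254.Refl.A3
import Vale.Agent.P254.Refl.A5

/-!
P254/Refl: the bound and its case of equality for irreducible systems of reflections.
-/

open MeasureTheory Set Matrix

namespace Vale.Agent.P254.Refl

namespace H171

theorem momSt (n : ℕ) : MomSt n := fun a K ha hL hK hR => by
  have hB : Blk a (fun _ : Fin n => ()) := ⟨ha, fun i j h => absurd rfl h, fun i j _ => hL i j⟩
  obtain ⟨h1, -, h3⟩ := A2.blk_mom hB hK hR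
  exact ⟨h1, fun i j => h3 i j rfl⟩

theorem both (m : ℕ) (hm : 1 ≤ m) : IrrBd m ∧ EqIrr m := by
  induction m, hm using Nat.le_induction with
  | base => exact ⟨irr_one, eq_one⟩
  | succ m hm ih =>
    exact ⟨irr_succ_of hm (momSt m) (momSt (m + 1)) (exists_orth m)
        (fun _ h => exists_noncut hm h) ih.1,
      eq_succ_of hm (momSt m) (momSt (m + 1)) (exists_orth m)
        (fun _ h => exists_noncut hm h) ih.1 ih.2⟩

end H171

/-- [E1] Equality in `IrrBd` forces a simplex. -/
theorem eqIrr (m : ℕ) (hm : 1 ≤ m) : EqIrr m := (H171.both m hm).2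

end Vale.Agent.P254.Refl
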