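import Vale.Agent.P254.Refl.Defs
import Vale.Agent.P254.Refl.N1
import Vale.Agent.P254.Unc.FinDefs

/-!
P254/Refl, E2 (helper444): strictness if there are at least two blocks.
-/

open MeasureTheory Set Matrix

namespace Vale.Agent.P254.Refl.H444

open Vale.Agent.P254.Refl

/-- the factor of one block of size `m` in dimension `n` -/
noncomputable def fac (n m : ℕ) : ℝ :=
  cst m ^ (1 / (m : ℝ)) * (((m : ℝ) + 2) * ((n : ℝ) + 1) / (((m : ℝ) + 1) * ((n : ℝ) + 2)))

theorem cst_pos' (n : ℕ) : 0 < cst n := by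
  unfold cst
  positivity

theorem fac_lt {n m : ℕ} (hm : 1 ≤ m) (hmn : m < n) : fac n m < cst n ^ (1 / (n : ℝ)) := by
  obtain ⟨p, rfl⟩ : ∃ p, n = m + p := ⟨n - m, by omega⟩
  have h := cst_pow_lt (m := m) (p := p) hm (by omega)
  unfold fac
  push_cast
  exact h

theorem fac_nonneg (n m : ℕ) : 0 ≤ fac n m := by
  unfold fac
  have := cst_pos' m
  positivity

open Classical in
/-- a constant below the one of the simplex which dominates all blocks -/
theorem exists_D {n : ℕ} {β : Type} {lab : Fin n → β} (h : ∃ i j, lab i ≠ lab j) :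
    ∃ D : ℝ, 0 ≤ D ∧ D < cst n ^ (1 / (n : ℝ)) ∧
      ∀ m : ℕ, 1 ≤ m → (∃ b, (Finset.univ.filter fun i => lab i = b).card = m) →
        cst m ^ (1 / (m : ℝ)) *
          (((m : ℝ) + 2) * ((n : ℝ) + 1) / (((m : ℝ) + 1) * ((n : ℝ) + 2))) ≤ D := by
  obtain ⟨i, j, hij⟩ := h
  have hn : 2 ≤ n := by
    have h1 : i ≠ j := fun e => hij (by rw [e])
    have h2 := i.2
    have h3 := j.2
    by_contra hc
    apply h1
    apply Fin.ext
    omega
  have hne : (Finset.Icc 1 (n - 1)).Nonempty := ⟨1, Finset.mem_Icc.2 ⟨le_rfl, by omega⟩⟩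
  refine ⟨(Finset.Icc 1 (n - 1)).sup' hne (fac n), ?_, ?_, ?_⟩
  · exact (fac_nonneg n 1).trans (Finset.le_sup' (fac n) (Finset.mem_Icc.2 ⟨le_rfl, by omega⟩))
  · rw [Finset.sup'_lt_iff]
    intro m hm
    rw [Finset.mem_Icc] at hm
    exact fac_lt hm.1 (by omega)
  · rintro m hm ⟨b, hb⟩
    have hlt : m < n := by
      rw [← hb]
      have h1 : (Finset.univ.filter fun i => lab i = b) ⊂ (Finset.univ : Finset (Fin n)) := by
        rw [Finset.ssubset_univ_iff]
        intro he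
        have hi : i ∈ (Finset.univ.filter fun i => lab i = b) := by rw [he]; exact Finset.mem_univ i
        have hj : j ∈ (Finset.univ.filter fun i => lab i = b) := by rw [he]; exact Finset.mem_univ j
        rw [Finset.mem_filter] at hi hj
        exact hij (hi.2.trans hj.2.symm)
      have h2 := Finset.card_lt_card h1
      rwa [Finset.card_univ, Fintype.card_fin] at h2
    exact Finset.le_sup' (fac n) (Finset.mem_Icc.2 ⟨hm, by omega⟩)

/-- the product bound, strict for at least two labels; `hall` = `all_blocks_D` for `D` -/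
theorem prod_lt_of {n : ℕ} (hn : 1 ≤ n) {K K' : Set (Fin n → ℝ)} {D : ℝ} (hD0 : 0 ≤ D)
    (hD : D < cst n ^ (1 / (n : ℝ))) (hV : 0 < (volume K).toReal)
    (hV' : (volume K').toReal = (volume K).toReal)
    (hU : ∏ i, (∫ x in K', |x i|) ≤ ((volume K').toReal / 4 ^ n) * (volume K').toReal ^ n)
    (hall : ∀ i, (volume K).toReal * ∫ x in K, x i ^ 2 ≤ 16 * D * (∫ x in K', |x i|) ^ 2) :
    ∏ i, (∫ x in K, x i ^ 2) < cst n * (volume K).toReal ^ (n + 2) := by
  obtain ⟨V, hVdef⟩ : ∃ V : ℝ, V = (volume K).toReal := ⟨_, rfl⟩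
  rw [hV', ← hVdef] at hU
  rw [← hVdef] at hV hall ⊢
  have h1 : V ^ n * ∏ i, (∫ x in K, x i ^ 2) ≤ (16 * D) ^ n * (∏ i, (∫ x in K', |x i|)) ^ 2 := by
    have e1 : V ^ n * ∏ i, (∫ x in K, x i ^ 2) = ∏ i : Fin n, (V * ∫ x in K, x i ^ 2) := by
      rw [Finset.prod_mul_distrib, Finset.prod_const, Finset.card_univ, Fintype.card_fin]
    have e2 : (16 * D) ^ n * (∏ i, (∫ x in K', |x i|)) ^ 2 =
        ∏ i : Fin n, (16 * D * (∫ x in K', |x i|) ^ 2) := by
      rw [Finset.prod_mul_distrib, Finset.prod_const, Finset.card_univ, Fintype.card_fin,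
        Finset.prod_pow]
    rw [e1, e2]
    refine Finset.prod_le_prod (fun i _ => ?_) fun i _ => hall i
    exact mul_nonneg hV.le (integral_nonneg fun x => sq_nonneg _)
  have hP0 : 0 ≤ ∏ i, (∫ x in K', |x i|) :=
    Finset.prod_nonneg fun i _ => integral_nonneg fun x => abs_nonneg _
  have h2 : (∏ i, (∫ x in K', |x i|)) ^ 2 ≤ ((V / 4 ^ n) * V ^ n) ^ 2 :=
    pow_le_pow_left₀ hP0 hU 2
  have h3 : V ^ n * ∏ i, (∫ x in K, x i ^ 2) ≤ (16 * D) ^ n * ((V / 4 ^ n) * V ^ n) ^ 2 :=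
    h1.trans (mul_le_mul_of_nonneg_left h2 (by positivity))
  have h4 : (16 * D) ^ n * ((V / 4 ^ n) * V ^ n) ^ 2 = V ^ n * (D ^ n * V ^ (n + 2)) := by
    have e3 : (16 : ℝ) ^ n = (4 ^ n) ^ 2 := by
      rw [← pow_mul, mul_comm n 2, pow_mul]
      norm_num
    rw [mul_pow, e3]
    have h5 : (4 : ℝ) ^ n ≠ 0 := by positivity
    field_simp
    ring
  rw [h4] at h3
  have h5 : ∏ i, (∫ x in K, x i ^ 2) ≤ D ^ n * V ^ (n + 2) :=
    le_of_mul_le_mul_left h3 (by positivity)
  refine h5.trans_lt ?_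
  have h6 : D ^ n < cst n := by
    have h7 := pow_lt_pow_left₀ hD hD0 (by omega : n ≠ 0)
    have hn' : (n : ℝ) ≠ 0 := by
      have : (1 : ℝ) ≤ n := by exact_mod_cast hn
      linarith
    rwa [← Real.rpow_natCast (cst n ^ (1 / (n : ℝ))) n, ← Real.rpow_mul (cst_pos' n).le,
      one_div_mul_cancel hn', Real.rpow_one] at h7
  exact mul_lt_mul_of_pos_right h6 (by positivity)

end Vale.Agent.P254.Refl.H444
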