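import Vale.Agent.P254.Refl.E1
import Vale.Agent.P254.Refl.C5h637
import Vale.Agent.P254.Refl.C7
import Vale.Agent.P254.Refl.C9E

/-!
P254/Refl: the case of equality in the orthogonal form.
-/

open MeasureTheory Set Matrix

namespace Vale.Agent.P254.Refl

/-- The case of equality in adapted coordinates, from the strict inequality for two blocks. -/
theorem eq_blk_of {n : ℕ} (hn : 1 ≤ n) {β : Type} {a : Fin n → Fin n → ℝ} {lab : Fin n → β}
    (hB : Blk a lab) {K : Set (Fin n → ℝ)} (hK : IsConvexBody K) (hR : RInv a K)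
    (hlt : (∃ i j, lab i ≠ lab j) →
      ∏ i, (∫ x in K, x i ^ 2) < cst n * (volume K).toReal ^ (n + 2))
    (he : cst n * (volume K).toReal ^ 2 ≤ (covMatrix K).det) : IsSimplex K := by
  obtain ⟨h0, h1, h2⟩ := A2.blk_mom hB hK.2.1 hR
  by_cases hl : ∃ i j, lab i ≠ lab j
  · exact absurd (H637.det_blk_lt_of hK h0 h1 (hlt hl)) (not_lt.2 he)
  · have hl' : ∀ i j, lab i = lab j := fun i j => by
      by_contra h
      exact hl ⟨i, j, h⟩
    have hV := H637.vol_pos hK
    set i₁ : Fin n := ⟨0, hn⟩ with hi₁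
    refine eqIrr n hn a K hB.li (fun i j => hB.conn i j (hl' i j)) hK.1 hK.2.1 hR hV i₁ ?_
    rw [H637.det_diag h0 h1, Finset.prod_congr rfl fun i _ => h2 i i₁ (hl' i i₁),
      Finset.prod_const, Finset.card_univ, Fintype.card_fin,
      le_inv_mul_iff₀ (pow_pos hV n)] at he
    calc cst n * (volume K).toReal ^ (n + 2)
        = (volume K).toReal ^ n * (cst n * (volume K).toReal ^ 2) := by rw [pow_add]; ring
      _ ≤ _ := he

/-- The case of equality in the orthogonal form, from the case of equality in adapted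
coordinates. -/
theorem eq_orth_of {n : ℕ}
    (eq_blk : ∀ {β : Type} {a : Fin n → Fin n → ℝ} {lab : Fin n → β}, Blk a lab →
      ∀ {K : Set (Fin n → ℝ)}, IsConvexBody K → RInv a K →
        cst n * (volume K).toReal ^ 2 ≤ (covMatrix K).det → IsSimplex K)
    (exists_blk : ∀ {a : Fin n → Fin n → ℝ}, LinearIndependent ℝ a →
      ∃ (O : Matrix (Fin n) (Fin n) ℝ) (β : Type) (lab : Fin n → β), O * Oᵀ = 1 ∧ Oᵀ * O = 1 ∧
        Blk (fun i => O *ᵥ a i) lab)
    {a : Fin n → Fin n → ℝ} (ha : LinearIndependent ℝ a) {K : Set (Fin n → ℝ)}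
    (hK : IsConvexBody K) (hR : RInv a K)
    (he : (covMatrix K).det = cst n * (volume K).toReal ^ 2) : IsSimplex K := by
  obtain ⟨O, β, lab, h1, h2, hB⟩ := exists_blk ha
  have hd := C7.det_sq h1
  have hd0 : O.det ≠ 0 := by
    intro h
    rw [h] at hd
    norm_num at hd
  have habs : |O.det| = 1 := by
    have := abs_mul_abs_self O.det
    rw [hd] at this
    nlinarith [abs_nonneg O.det]
  have hV : (volume K).toReal ≠ 0 := (H637.vol_pos hK).ne'
  have hK' : IsConvexBody (aff O 0 '' K) := C7.body_aff hd0 0 hK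
  have hR' : RInv (fun i => O *ᵥ a i) (aff O 0 '' K) := by
    rintro i _ ⟨x, hx, rfl⟩
    refine ⟨rf (a i) x, hR i x hx, ?_⟩
    have e : ∀ y, aff O 0 y = O *ᵥ y := fun y => by simp [aff]
    rw [e, e, C7.rf_orth h2]
  refine isSimplex_of_aff hd0 0 (eq_blk hB hK' hR' ?_)
  rw [cov_aff_image hd0 0 hK.2.1 hV, volume_aff_image hd0 0 hK.2.1.measurableSet, habs, one_mul,
    det_mul, det_mul, det_transpose]
  have e : O.det * (covMatrix K).det * O.det = (covMatrix K).det := by
    rw [mul_right_comm, hd, one_mul]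
  rw [e, he]

end Vale.Agent.P254.Refl
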