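import Vale.Agent.P254.Refl.Cub498

/-!
P254/Refl: Fubini for the cube symmetrization of a block, [P2], [P2'], [P3b], [P3c] (helper498).
-/

open MeasureTheory Set Filter Topology

namespace Vale.Agent.P254.Refl

namespace C498

variable {m p : ℕ}

theorem fub {L : Set ((Fin m → ℝ) × (Fin p → ℝ))} (hL : IsCompact L)
    {f : (Fin m → ℝ) × (Fin p → ℝ) → ℝ} (hf : Continuous f) :
    ∫ q in L, f q = ∫ z in Prod.snd '' L, ∫ y in {y : Fin m → ℝ | (y, z) ∈ L}, f (y, z) := by
  have hi : Integrable (L.indicator f) (volume.prod volume) := by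
    rw [integrable_indicator_iff hL.measurableSet]
    exact hf.continuousOn.integrableOn_compact hL
  have h1 : ∀ z, ∫ y, L.indicator f (y, z) = ∫ y in {y : Fin m → ℝ | (y, z) ∈ L}, f (y, z) := by
    intro z
    rw [← integral_indicator (isCompact_fib hL z).measurableSet]
    rfl
  rw [← integral_indicator hL.measurableSet, Measure.volume_eq_prod, integral_prod_symm _ hi]
  simp only [h1]
  symm
  apply setIntegral_eq_integral_of_forall_compl_eq_zero
  intro z hz
  rw [fib_not hz]
  simp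

theorem int_snd (hm : 1 ≤ m) {L : Set ((Fin m → ℝ) × (Fin p → ℝ))} (hL : IsCompact L)
    {φ : (Fin p → ℝ) → ℝ} (hφ : Continuous φ) :
    ∫ q in L, φ q.2 = ∫ z in Prod.snd '' L, φ z * hgt L z ^ m := by
  rw [fub hL (f := fun q => φ q.2) (hφ.comp continuous_snd)]
  congr 1
  funext z
  simp only [setIntegral_const, smul_eq_mul, Measure.real]
  rw [hh_pow (by omega), mul_comm]

theorem snd_cube {L : Set ((Fin m → ℝ) × (Fin p → ℝ))} : Prod.snd '' (cube L) = Prod.snd '' L := by
  apply subset_antisymm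
  · rintro _ ⟨q, hq, rfl⟩
    exact hq.1
  · intro z hz
    refine ⟨(0, z), ⟨hz, fun i => ?_⟩, rfl⟩
    simpa using hh_nonneg L z

theorem hgt_cube (hm : 1 ≤ m) {L : Set ((Fin m → ℝ) × (Fin p → ℝ))} (hL : IsCompact L)
    (z : Fin p → ℝ) : hgt (cube L) z = hgt L z := by
  rw [hgt, hgt, vol_fib_cube (by omega) hL]

/-- [P3b] -/
theorem cube_int (hm : 1 ≤ m) {L : Set ((Fin m → ℝ) × (Fin p → ℝ))}
    (hL : IsCompact L) {φ : (Fin p → ℝ) → ℝ} (hφ : Continuous φ) :
    ∫ q in closure (cube L), φ q.2 = ∫ z in Prod.snd '' L, φ z * hgt L z ^ m := by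
  rw [closure_cube (by omega) hL, int_snd hm (isCompact_cube (by omega) hL) hφ, snd_cube]
  simp only [hgt_cube hm hL]

theorem int_abs_Icc {h : ℝ} (hh : 0 ≤ h) : ∫ t in Icc (-(h / 2)) (h / 2), |t| = h ^ 2 / 4 := by
  rw [integral_Icc_eq_integral_Ioc, ← intervalIntegral.integral_of_le (by linarith)]
  have h1 : ∀ a b : ℝ, IntervalIntegrable (fun t : ℝ => |t|) volume a b :=
    fun a b => continuous_abs.intervalIntegrable a b
  rw [← intervalIntegral.integral_add_adjacent_intervals (h1 _ 0) (h1 0 _)]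
  have h2 : ∫ t in (-(h / 2))..0, |t| = ∫ t in (-(h / 2))..0, -t := by
    apply intervalIntegral.integral_congr
    intro t ht
    rw [uIcc_of_le (by linarith)] at ht
    exact abs_of_nonpos ht.2
  have h3 : ∫ t in (0:ℝ)..(h / 2), |t| = ∫ t in (0:ℝ)..(h / 2), t := by
    apply intervalIntegral.integral_congr
    intro t ht
    rw [uIcc_of_le (by linarith)] at ht
    exact abs_of_nonneg ht.1
  rw [h2, h3, intervalIntegral.integral_neg, integral_id, integral_id]
  ring

theorem int_abs_box (hm : 1 ≤ m) (i : Fin m) {h : ℝ} (hh : 0 ≤ h) :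
    ∫ y in Icc (fun _ : Fin m => -(h / 2)) (fun _ => h / 2), |y i| = 1 / 4 * h ^ (m + 1) := by
  have e1 : ∀ y : Fin m → ℝ, (Icc (fun _ : Fin m => -(h / 2)) (fun _ => h / 2)).indicator
      (fun y => |y i|) y = ∏ j, (Icc (-(h / 2)) (h / 2)).indicator
        (fun t : ℝ => if j = i then |t| else 1) (y j) := by
    intro y
    by_cases hy : y ∈ Icc (fun _ : Fin m => -(h / 2)) (fun _ => h / 2)
    · rw [indicator_of_mem hy]
      have h1 : ∀ j, (Icc (-(h / 2)) (h / 2)).indicator
          (fun t : ℝ => if j = i then |t| else 1) (y j) = if j = i then |y j| else 1 :=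
        fun j => indicator_of_mem (show y j ∈ Icc (-(h / 2)) (h / 2) from ⟨hy.1 j, hy.2 j⟩) _
      simp only [h1]
      rw [Finset.prod_ite_eq' Finset.univ i (fun j => |y j|)]
      simp
    · rw [indicator_of_notMem hy]
      have h2 : ∃ j, y j ∉ Icc (-(h / 2)) (h / 2) := by
        by_contra hcon
        push Not at hcon
        exact hy ⟨fun j => (hcon j).1, fun j => (hcon j).2⟩
      obtain ⟨j, hj⟩ := h2
      exact (Finset.prod_eq_zero (Finset.mem_univ j) (indicator_of_notMem hj _)).symm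
  rw [← integral_indicator measurableSet_Icc]
  simp only [e1]
  rw [integral_fintype_prod_volume_eq_prod]
  have e2 : ∀ j : Fin m, ∫ t, (Icc (-(h / 2)) (h / 2)).indicator
      (fun t : ℝ => if j = i then |t| else 1) t = if j = i then h ^ 2 / 4 else h := by
    intro j
    rw [integral_indicator measurableSet_Icc]
    by_cases hj : j = i
    · simp only [hj, if_true]
      exact int_abs_Icc hh
    · simp only [hj, if_false]
      rw [setIntegral_const, smul_eq_mul, mul_one, Real.volume_real_Icc_of_le (by linarith)]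
      ring
  simp only [e2]
  rw [Finset.prod_ite, Finset.prod_const, Finset.prod_const]
  have h3 : (Finset.univ.filter fun j : Fin m => j = i).card = 1 := by
    rw [Finset.filter_eq']; simp
  have h4 : (Finset.univ.filter fun j : Fin m => ¬ j = i).card = m - 1 := by
    rw [Finset.filter_ne' Finset.univ i]; simp
  rw [h3, h4, pow_one]
  obtain ⟨k, rfl⟩ : ∃ k, m = k + 1 := ⟨m - 1, by omega⟩
  simp only [Nat.add_sub_cancel]
  ring

/-- [P3c] -/
theorem cube_abs (hm : 1 ≤ m) {L : Set ((Fin m → ℝ) × (Fin p → ℝ))}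
    (hL : IsCompact L) (i : Fin m) :
    ∫ q in closure (cube L), |q.1 i| = 1 / 4 * ∫ z in Prod.snd '' L, hgt L z ^ (m + 1) := by
  rw [closure_cube (by omega) hL, fub (isCompact_cube (by omega) hL)
    (f := fun q => |q.1 i|) (by fun_prop), snd_cube, ← integral_const_mul]
  apply setIntegral_congr_fun (hL.image continuous_snd).measurableSet
  intro z hz
  show ∫ y in {y : Fin m → ℝ | (y, z) ∈ cube L}, |y i| = 1 / 4 * hgt L z ^ (m + 1)
  rw [fib_cube hz]
  exact int_abs_box hm i (hh_nonneg L z)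

/-- [P2'] -/
theorem int_sq_le (hm : 1 ≤ m) {L : Set ((Fin m → ℝ) × (Fin p → ℝ))} (hL : IsCompact L)
    {i : Fin m} {c : ℝ} (hc0 : 0 ≤ c)
    (h : ∀ z : Fin p → ℝ, (∫ y in {y : Fin m → ℝ | (y, z) ∈ L}, y i ^ 2) ^ m ≤
      c * (volume {y : Fin m → ℝ | (y, z) ∈ L}).toReal ^ (m + 2)) :
    ∫ q in L, q.1 i ^ 2 ≤ c ^ (1 / (m : ℝ)) * ∫ z in Prod.snd '' L, hgt L z ^ (m + 2) := by
  have hm0 : m ≠ 0 := by omega
  obtain ⟨hme, -, M, hM⟩ := hgt_meas (m := m) (p := p) hL
  have hP : IsCompact (Prod.snd '' L) := hL.image continuous_snd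
  rw [fub hL (f := fun q => q.1 i ^ 2) (by fun_prop), ← integral_const_mul]
  have hint : IntegrableOn (fun z => c ^ (1 / (m : ℝ)) * hgt L z ^ (m + 2)) (Prod.snd '' L) := by
    apply Integrable.const_mul
    refine Measure.integrableOn_of_bounded (M := M ^ (m + 2)) hP.measure_ne_top
      (hme.pow_const _).aestronglyMeasurable (Eventually.of_forall fun z => ?_)
    rw [Real.norm_eq_abs, abs_of_nonneg (pow_nonneg (hh_nonneg L z) _)]
    exact pow_le_pow_left₀ (hh_nonneg L z) (hM z) _
  refine integral_mono_of_nonneg (ae_of_all _ fun z => ?_) hint (ae_of_all _ fun z => ?_)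
  · exact integral_nonneg fun y => sq_nonneg _
  · show ∫ y in {y : Fin m → ℝ | (y, z) ∈ L}, y i ^ 2 ≤ c ^ (1 / (m : ℝ)) * hgt L z ^ (m + 2)
    refine le_of_pow_le_pow_left₀ hm0
      (mul_nonneg (Real.rpow_nonneg hc0 _) (pow_nonneg (hh_nonneg L z) _)) ?_
    refine (h z).trans_eq ?_
    rw [← hh_pow hm0 L z, mul_pow, one_div, Real.rpow_inv_natCast_pow hc0 hm0]
    ring

end C498

end Vale.Agent.P254.Refl
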