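import Vale.Agent.P254.Rev.Main
import Vale.Agent.P254.Perm.BdOne

/-!
P254: convex bodies invariant under an irreducible (connected) system of reflections, part 1:
moments.
-/

open MeasureTheory Set Matrix

namespace Vale.Agent.P254.Refl.I769

open Perm Rev

/-- the reflection with the unit normal `a` -/
def rf {m : ℕ} (a x : Fin m → ℝ) : Fin m → ℝ := x - (2 * (a ⬝ᵥ x)) • a

/-- `K` is invariant under the reflections with the unit normals `a i`, which are linearly
independent, and each of which (but the first) is not orthogonal to some earlier one. -/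
structure RS {m : ℕ} (K : Set (Fin m → ℝ)) (a : Fin m → Fin m → ℝ) : Prop where
  unit : ∀ i, a i ⬝ᵥ a i = 1
  indep : LinearIndependent ℝ a
  conn : ∀ k : Fin m, k.1 ≠ 0 → ∃ j, j < k ∧ a j ⬝ᵥ a k ≠ 0
  inv : ∀ i, ∀ x ∈ K, rf (a i) x ∈ K

section basic

variable {m : ℕ}

theorem dot_rf (a u x : Fin m → ℝ) : u ⬝ᵥ rf a x = rf a u ⬝ᵥ x := by
  simp only [rf, dotProduct_sub, sub_dotProduct, dotProduct_smul, smul_dotProduct, smul_eq_mul]
  rw [dotProduct_comm u a]
  ring

theorem rf_rf {a : Fin m → ℝ} (ha : a ⬝ᵥ a = 1) (x : Fin m → ℝ) : rf a (rf a x) = x := by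
  have h : a ⬝ᵥ rf a x = -(a ⬝ᵥ x) := by
    simp only [rf, dotProduct_sub, dotProduct_smul, smul_eq_mul, ha]
    ring
  rw [rf, h, rf]
  module

theorem rf_self {a : Fin m → ℝ} (ha : a ⬝ᵥ a = 1) : rf a a = -a := by
  rw [rf, ha]
  module

theorem rf_perp {a x : Fin m → ℝ} (h : a ⬝ᵥ x = 0) : rf a x = x := by
  rw [rf, h]
  simp

/-- the reflection as a linear map -/
def rfL (a : Fin m → ℝ) : (Fin m → ℝ) →ₗ[ℝ] (Fin m → ℝ) where
  toFun := rf a
  map_add' x y := by
    simp only [rf, dotProduct_add]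
    module
  map_smul' c x := by
    simp only [rf, dotProduct_smul, smul_eq_mul, RingHom.id_apply]
    module

theorem int_rf {K : Set (Fin m → ℝ)} {a : Fin m → ℝ} (ha : a ⬝ᵥ a = 1)
    (hK : ∀ x ∈ K, rf a x ∈ K) (f : (Fin m → ℝ) → ℝ) :
    ∫ x in K, f (rf a x) = ∫ x in K, f x :=
  SymInt.int_inv (rfL a) (rf_rf ha) hK f

theorem cont_dot (v : Fin m → ℝ) : Continuous fun x : Fin m → ℝ => v ⬝ᵥ x := by
  unfold dotProduct
  fun_prop

theorem exists_comb {a : Fin m → Fin m → ℝ} (ha : LinearIndependent ℝ a) (v : Fin m → ℝ) :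
    ∃ c : Fin m → ℝ, v = ∑ i, c i • a i := by
  rcases Nat.eq_zero_or_pos m with h0 | h0
  · subst h0
    exact ⟨0, Subsingleton.elim _ _⟩
  have : Nonempty (Fin m) := ⟨⟨0, h0⟩⟩
  set b := basisOfLinearIndependentOfCardEqFinrank ha (by simp) with hb
  have hba : ∀ i, b i = a i := fun i => by simp [hb]
  refine ⟨b.repr v, ?_⟩
  conv_lhs => rw [← b.sum_repr v]
  simp only [hba]

theorem mean_zero {K : Set (Fin m → ℝ)} (hK : IsCompact K) {a : Fin m → Fin m → ℝ} (h : RS K a)
    (v : Fin m → ℝ) : ∫ x in K, v ⬝ᵥ x = 0 := by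
  have h1 : ∀ i, ∫ x in K, a i ⬝ᵥ x = 0 := by
    intro i
    have h2 := int_rf (h.unit i) (h.inv i) (fun x => a i ⬝ᵥ x)
    simp_rw [dot_rf, rf_self (h.unit i), neg_dotProduct] at h2
    rw [integral_neg] at h2
    linarith
  obtain ⟨c, rfl⟩ := exists_comb h.indep v
  simp_rw [sum_dotProduct, smul_dotProduct, smul_eq_mul]
  rw [integral_finsetSum]
  · refine Finset.sum_eq_zero fun i _ => ?_
    rw [integral_const_mul, h1 i, mul_zero]
  · intro i _
    exact ((cont_dot (a i)).continuousOn.integrableOn_compact hK).const_mul _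

/-- The second moments: `∫ ⟨x, u⟩ ⟨x, v⟩ = Q ⟨u, v⟩`. -/
theorem second {K : Set (Fin m → ℝ)} (hK : IsCompact K) {a : Fin m → Fin m → ℝ} (h : RS K a) :
    ∃ Q : ℝ, ∀ u v : Fin m → ℝ, ∫ x in K, (u ⬝ᵥ x) * (v ⬝ᵥ x) = Q * (u ⬝ᵥ v) := by
  have hint : ∀ u v : Fin m → ℝ, IntegrableOn (fun x => (u ⬝ᵥ x) * (v ⬝ᵥ x)) K := fun u v =>
    ((cont_dot u).mul (cont_dot v)).continuousOn.integrableOn_compact hK
  set B : (Fin m → ℝ) → (Fin m → ℝ) → ℝ := fun u v => ∫ x in K, (u ⬝ᵥ x) * (v ⬝ᵥ x) with hB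
  have hsymm : ∀ u v, B u v = B v u := fun u v => by
    simp only [hB]
    simp_rw [mul_comm (u ⬝ᵥ _)]
  have hinv : ∀ i u v, B (rf (a i) u) (rf (a i) v) = B u v := by
    intro i u v
    have h2 := int_rf (h.unit i) (h.inv i) (fun x => (u ⬝ᵥ x) * (v ⬝ᵥ x))
    simp_rw [dot_rf] at h2
    exact h2
  have hadd : ∀ u v w, B u (v + w) = B u v + B u w := by
    intro u v w
    simp only [hB]
    simp_rw [add_dotProduct, mul_add]
    exact integral_add (hint u v) (hint u w)
  have hsmul : ∀ (c : ℝ) u v, B u (c • v) = c * B u v := by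
    intro c u v
    simp only [hB]
    simp_rw [smul_dotProduct, smul_eq_mul]
    rw [← integral_const_mul]
    refine integral_congr_ae (Filter.Eventually.of_forall fun x => ?_)
    simp only
    ring
  have hneg : ∀ i v, a i ⬝ᵥ v = 0 → B (a i) v = 0 := by
    intro i v hv
    have h2 := hinv i (a i) v
    rw [rf_self (h.unit i), rf_perp hv] at h2
    have h3 : B (-a i) v = - B (a i) v := by
      simp only [hB]
      simp_rw [neg_dotProduct, neg_mul]
      rw [integral_neg]
    linarith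
  have hlam : ∀ i v, B (a i) v = B (a i) (a i) * (a i ⬝ᵥ v) := by
    intro i v
    have h2 : a i ⬝ᵥ (v - (a i ⬝ᵥ v) • a i) = 0 := by
      rw [dotProduct_sub, dotProduct_smul, h.unit i, smul_eq_mul]
      ring
    have h3 : v = (v - (a i ⬝ᵥ v) • a i) + (a i ⬝ᵥ v) • a i := by module
    rw [h3, hadd, hneg i _ h2, hsmul, ← h3]
    ring
  rcases Nat.eq_zero_or_pos m with h0 | h0
  · subst h0
    refine ⟨0, fun u v => ?_⟩
    simp
  have hall : ∀ n : ℕ, ∀ hn : n < m, B (a ⟨n, hn⟩) (a ⟨n, hn⟩) = B (a ⟨0, h0⟩) (a ⟨0, h0⟩) := by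
    intro n
    induction n using Nat.strong_induction_on with
    | _ n ih =>
      intro hn
      rcases Nat.eq_zero_or_pos n with hz | hz
      · subst hz; rfl
      obtain ⟨j, hj, hjn⟩ := h.conn ⟨n, hn⟩ (by simpa using hz.ne')
      have h1 := ih j.1 hj j.2
      have h2 := hlam j (a ⟨n, hn⟩)
      have h3 := hlam ⟨n, hn⟩ (a j)
      rw [hsymm (a ⟨n, hn⟩) (a j), h2, dotProduct_comm (a ⟨n, hn⟩) (a j)] at h3
      have h4 := mul_right_cancel₀ hjn h3
      rw [← h4]
      exact h1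
  refine ⟨B (a ⟨0, h0⟩) (a ⟨0, h0⟩), fun u v => ?_⟩
  change B u v = _
  rw [hsymm]
  obtain ⟨c, rfl⟩ := exists_comb h.indep u
  have hsum : B v (∑ i, c i • a i) = ∑ i, c i * B v (a i) := by
    simp only [hB]
    simp_rw [sum_dotProduct, smul_dotProduct, smul_eq_mul, Finset.mul_sum]
    rw [integral_finsetSum]
    · refine Finset.sum_congr rfl fun i _ => ?_
      rw [← integral_const_mul]
      refine integral_congr_ae (Filter.Eventually.of_forall fun x => ?_)
      simp only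
      ring
    · intro i _
      have := (hint v (a i)).const_mul (c i)
      refine this.congr (Filter.Eventually.of_forall fun x => ?_)
      simp only
      ring
  rw [hsum, sum_dotProduct, Finset.mul_sum]
  refine Finset.sum_congr rfl fun i _ => ?_
  rw [hsymm v (a i), hlam i v, hall i.1 i.2, smul_dotProduct, smul_eq_mul]
  ring

end basic

end Vale.Agent.P254.Refl.I769
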