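import Vale.Agent.P254.Refl.Irr769

/-!
P254: convex bodies invariant under an irreducible (connected) system of reflections, part 2:
orthogonal changes of coordinates and the induction over the dimension.
-/

open MeasureTheory Set Matrix

namespace Vale.Agent.P254.Refl.I769

open Perm Rev

section orth

variable {n : ℕ} {U : Matrix (Fin n) (Fin n) ℝ}

theorem tmul (hU : U * Uᵀ = 1) : Uᵀ * U = 1 := mul_eq_one_comm.1 hU

theorem dot_orth (hU : U * Uᵀ = 1) (x y : Fin n → ℝ) : (U *ᵥ x) ⬝ᵥ (U *ᵥ y) = x ⬝ᵥ y := by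
  rw [dotProduct_mulVec, vecMul_mulVec, tmul hU, vecMul_one]

/-- the homeomorphism -/
noncomputable def orthH (hU : U * Uᵀ = 1) : (Fin n → ℝ) ≃ₜ (Fin n → ℝ) where
  toFun x := U *ᵥ x
  invFun x := Uᵀ *ᵥ x
  left_inv x := by
    simp only [mulVec_mulVec, tmul hU, one_mulVec]
  right_inv x := by
    simp only [mulVec_mulVec, hU, one_mulVec]
  continuous_toFun := by fun_prop
  continuous_invFun := by fun_prop

theorem orthH_apply (hU : U * Uᵀ = 1) (x : Fin n → ℝ) : orthH hU x = U *ᵥ x := rfl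

theorem mp_orth (hU : U * Uᵀ = 1) :
    MeasurePreserving (orthH hU) (volume : Measure (Fin n → ℝ)) volume := by
  have h1 : U.det * U.det = 1 := by
    have h := congrArg Matrix.det hU
    rwa [det_mul, det_transpose, det_one] at h
  have h0 : U.det ≠ 0 := by
    intro h
    rw [h] at h1
    simp at h1
  have h2 : |(U.det)⁻¹| = 1 := by
    have h3 : |U.det| * |U.det| = 1 := by
      rw [← abs_mul, h1, abs_one]
    have h4 := abs_nonneg U.det
    have h5 : |U.det| = 1 := by nlinarith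
    rw [abs_inv, h5, inv_one]
  refine ⟨(orthH hU).continuous.measurable, ?_⟩
  have h6 := Real.map_matrix_volume_pi_eq_smul_volume_pi h0
  rw [h2, ENNReal.ofReal_one, one_smul] at h6
  exact h6

theorem orth_pre (hU : U * Uᵀ = 1) (K : Set (Fin n → ℝ)) :
    (orthH hU) ⁻¹' (orthH hU '' K) = K := (orthH hU).injective.preimage_image K

theorem int_orth (hU : U * Uᵀ = 1) (K : Set (Fin n → ℝ)) (f : (Fin n → ℝ) → ℝ) :
    ∫ x in orthH hU '' K, f x = ∫ x in K, f (U *ᵥ x) := by
  have h := (mp_orth hU).setIntegral_preimage_emb (orthH hU).measurableEmbedding f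
    (orthH hU '' K)
  rw [orth_pre] at h
  exact h.symm

theorem vol_orth (hU : U * Uᵀ = 1) (K : Set (Fin n → ℝ)) :
    volume (orthH hU '' K) = volume K := by
  have h := (mp_orth hU).measure_preimage_emb (orthH hU).measurableEmbedding (orthH hU '' K)
  rw [orth_pre] at h
  exact h.symm

theorem convex_orth (hU : U * Uᵀ = 1) {K : Set (Fin n → ℝ)} (hK : Convex ℝ K) :
    Convex ℝ (orthH hU '' K) := by
  have h := hK.linear_image U.mulVecLin
  exact h

theorem rf_orth (hU : U * Uᵀ = 1) (a x : Fin n → ℝ) : rf (U *ᵥ a) (U *ᵥ x) = U *ᵥ rf a x := by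
  rw [rf, rf, dot_orth hU, mulVec_sub, mulVec_smul]

theorem RS.orth (hU : U * Uᵀ = 1) {K : Set (Fin n → ℝ)} {a : Fin n → Fin n → ℝ} (h : RS K a) :
    RS (orthH hU '' K) (fun i => U *ᵥ a i) where
  unit i := by rw [dot_orth hU, h.unit i]
  indep := by
    have h1 : LinearMap.ker U.mulVecLin = ⊥ := by
      rw [LinearMap.ker_eq_bot]
      exact (orthH hU).injective
    exact h.indep.map' U.mulVecLin h1
  conn k hk := by
    obtain ⟨j, hj, hjk⟩ := h.conn k hk
    exact ⟨j, hj, by rwa [dot_orth hU]⟩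
  inv i := by
    rintro _ ⟨x, hx, rfl⟩
    exact ⟨rf (a i) x, h.inv i x hx, (rf_orth hU (a i) x).symm⟩

end orth

/-- an orthonormal frame whose first vector is orthogonal to `m` given vectors of `ℝ^(m+1)` -/
theorem exists_frame {m : ℕ} (a : Fin m → Fin (m + 1) → ℝ) :
    ∃ U : Matrix (Fin (m + 1)) (Fin (m + 1)) ℝ, U * Uᵀ = 1 ∧ ∀ j, (U *ᵥ a j) 0 = 0 := by
  set T : (Fin (m + 1) → ℝ) →ₗ[ℝ] (Fin m → ℝ) := (Matrix.of a).mulVecLin with hT
  have hker : LinearMap.ker T ≠ ⊥ := T.ker_ne_bot_of_finrank_lt (by simp)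
  obtain ⟨w, hw, hw0⟩ := (Submodule.ne_bot_iff _).1 hker
  have hwa : ∀ j, a j ⬝ᵥ w = 0 := fun j => congrFun (LinearMap.mem_ker.1 hw) j
  set e : EuclideanSpace ℝ (Fin (m + 1)) := WithLp.toLp 2 w with he
  have he0 : e ≠ 0 := by
    intro h
    apply hw0
    have := congrArg WithLp.ofLp h
    simpa [he] using this
  have hn : ‖e‖ ≠ 0 := norm_ne_zero_iff.2 he0
  set v : Fin (m + 1) → EuclideanSpace ℝ (Fin (m + 1)) := fun _ => ‖e‖⁻¹ • e with hv
  have hv1 : Orthonormal ℝ (({0} : Set (Fin (m + 1))).domRestrict v) := by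
    constructor
    · intro i
      simp only [hv, Set.domRestrict, norm_smul, norm_inv, norm_norm]
      exact inv_mul_cancel₀ hn
    · intro i j hij
      exact absurd (Subsingleton.elim i j) hij
  obtain ⟨b, hb⟩ := hv1.exists_orthonormalBasis_extension_of_card_eq (by simp)
  have hb0 : b 0 = ‖e‖⁻¹ • e := hb 0 rfl
  refine ⟨Matrix.of fun i j => b i j, ?_, ?_⟩
  · ext i k
    rw [mul_apply, one_apply]
    have h1 := orthonormal_iff_ite.1 b.orthonormal i k
    rw [← h1, PiLp.inner_apply]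
    refine Finset.sum_congr rfl fun j _ => ?_
    simp [mul_comm]
  · intro j
    change (fun k => b 0 k) ⬝ᵥ a j = 0
    have h1 : (fun k => b 0 k) = ‖e‖⁻¹ • w := by
      rw [hb0]
      rfl
    rw [h1, smul_dotProduct, dotProduct_comm, hwa j, smul_zero]

end Vale.Agent.P254.Refl.I769
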