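import Vale.Agent.P254.Refl.Irr769b

/-!
P254: convex bodies invariant under an irreducible (connected) system of reflections, part 3:
the second moment bound.
-/

open MeasureTheory Set Matrix

namespace Vale.Agent.P254.Refl.I769

open Perm Rev

theorem dot_single {m : ℕ} (i : Fin m) (x : Fin m → ℝ) : (Pi.single i (1 : ℝ)) ⬝ᵥ x = x i := by
  rw [single_dotProduct, one_mul]

theorem dot_single' {m : ℕ} (i j : Fin m) :
    (Pi.single i (1 : ℝ) : Fin m → ℝ) ⬝ᵥ (Pi.single j (1 : ℝ)) = if i = j then 1 else 0 := by
  rw [dot_single, Pi.single_apply]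

/-- the tail of a vector -/
def tl {m : ℕ} (x : Fin (m + 1) → ℝ) : Fin m → ℝ := fun i => x i.succ

theorem dot_tl {m : ℕ} {x y : Fin (m + 1) → ℝ} (hx : x 0 = 0) : x ⬝ᵥ y = tl x ⬝ᵥ tl y := by
  rw [dotProduct, Fin.sum_univ_succ, hx, zero_mul, zero_add]
  rfl

theorem base {K : Set (Fin 1 → ℝ)} (hc : Convex ℝ K) (hK : IsCompact K) {a : Fin 1 → Fin 1 → ℝ}
    (h : RS K a) (i : Fin 1) :
    (∫ x in K, x i ^ 2) ^ 1 ≤ FV.simpC 1 * (volume K).toReal ^ (1 + 2) := by
  have hs : Sym K := by
    refine ⟨fun σ x hx => ?_, fun i x hx => ?_⟩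
    · have : (fun i => x (σ i)) = x := by
        funext i
        rw [Subsingleton.elim (σ i) i]
      rwa [this]
    · have h1 := h.inv 0 x hx
      have h2 := h.unit 0
      have h3 : Function.update x i (-∑ j, x j) = rf (a 0) x := by
        funext k
        have hk : k = 0 := Subsingleton.elim _ _
        have hi : i = 0 := Subsingleton.elim _ _
        subst hk hi
        simp only [Function.update_self, Finset.univ_unique, Fin.default_eq_zero,
          Finset.sum_singleton]
        simp only [dotProduct, Finset.univ_unique, Fin.default_eq_zero,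
          Finset.sum_singleton] at h2
        simp only [rf, dotProduct, Finset.univ_unique, Fin.default_eq_zero,
          Finset.sum_singleton, Pi.sub_apply, Pi.smul_apply, smul_eq_mul]
        linear_combination (2 * x 0) * h2
      rwa [h3]
  have h1 := bd_one K hc hK hs i
  have h2 : FV.simpC 1 = gam 1 := by
    norm_num [FV.simpC, gam]
  rw [h2]
  exact h1

/-- The second moment bound for a connected system of reflections. -/
theorem irr (m : ℕ) (hm : 1 ≤ m) : ∀ (K : Set (Fin m → ℝ)) (a : Fin m → Fin m → ℝ),
    Convex ℝ K → IsCompact K → RS K a → ∀ i,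
    (∫ x in K, x i ^ 2) ^ m ≤ FV.simpC m * (volume K).toReal ^ (m + 2) := by
  induction m, hm using Nat.le_induction with
  | base => exact fun K a hc hK h i => base hc hK h i
  | succ m hm ih =>
    intro K a hc hK h i
    obtain ⟨U, hU, hU0⟩ := exists_frame fun j : Fin m => a j.castSucc
    have h' := h.orth hU
    set K' : Set (Fin (m + 1) → ℝ) := orthH hU '' K with hK'
    have hc' : Convex ℝ K' := convex_orth hU hc
    have hKc : IsCompact K' := hK.image (orthH hU).continuous
    have hvol : volume K' = volume K := vol_orth hU K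
    obtain ⟨Q, hQ⟩ := second hK h
    obtain ⟨Q', hQ'⟩ := second hKc h'
    -- the two constants are equal
    have hQQ : Q' = Q := by
      have h1 := hQ' (U *ᵥ Pi.single i 1) (U *ᵥ Pi.single i 1)
      rw [int_orth hU, dot_orth hU] at h1
      simp_rw [dot_orth hU] at h1
      rw [hQ] at h1
      rw [dot_single', if_pos rfl, mul_one, mul_one] at h1
      exact h1.symm
    have hi : ∀ j, ∫ x in K', x j ^ 2 = Q := by
      intro j
      have h1 := hQ' (Pi.single j 1) (Pi.single j 1)
      simp_rw [dot_single] at h1
      rw [Pi.single_eq_same, mul_one, hQQ] at h1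
      rw [← h1]
      refine integral_congr_ae (Filter.Eventually.of_forall fun x => ?_)
      simp only
      ring
    have hiK : ∫ x in K, x i ^ 2 = Q := by
      have h1 := hQ (Pi.single i 1) (Pi.single i 1)
      simp_rw [dot_single] at h1
      rw [Pi.single_eq_same, mul_one] at h1
      rw [← h1]
      refine integral_congr_ae (Filter.Eventually.of_forall fun x => ?_)
      simp only
      ring
    have hQ0 : 0 ≤ Q := by
      rw [← hiK]
      exact integral_nonneg fun x => sq_nonneg _
    -- the slices
    have hRS : ∀ s, RS (slc K' s) (fun j => tl (U *ᵥ a j.castSucc)) := by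
      intro s
      refine ⟨fun j => ?_, ?_, fun k hk => ?_, fun j y hy => ?_⟩
      · rw [← dot_tl (hU0 j), dot_orth hU, h.unit]
      · have h1 : LinearIndependent ℝ fun j : Fin m => U *ᵥ a j.castSucc :=
          h'.indep.comp _ (Fin.castSucc_injective m)
        let ι : (Fin m → ℝ) →ₗ[ℝ] (Fin (m + 1) → ℝ) :=
          { toFun := fun y => Fin.cons 0 y
            map_add' := fun y z => by
              funext j
              refine Fin.cases ?_ (fun j => ?_) j <;> simp
            map_smul' := fun c y => by
              funext j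
              refine Fin.cases ?_ (fun j => ?_) j <;> simp }
        have h2 : (ι ∘ fun j : Fin m => tl (U *ᵥ a j.castSucc)) =
            fun j : Fin m => U *ᵥ a j.castSucc := by
          funext j
          change (Fin.cons 0 (tl (U *ᵥ a j.castSucc)) : Fin (m + 1) → ℝ) = _
          funext k
          refine Fin.cases ?_ (fun k => ?_) k
          · rw [Fin.cons_zero]; exact (hU0 j).symm
          · rw [Fin.cons_succ]; rfl
        exact LinearIndependent.of_comp ι (h2 ▸ h1)
      · obtain ⟨j, hj, hjk⟩ := h.conn k.castSucc (by simpa using hk)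
        have hjm : j.1 < m := lt_trans hj k.2
        refine ⟨⟨j.1, hjm⟩, hj, ?_⟩
        have e : (⟨j.1, hjm⟩ : Fin m).castSucc = j := rfl
        rw [← dot_tl (hU0 ⟨j.1, hjm⟩), dot_orth hU, e]
        exact hjk
      · have h1 := h'.inv j.castSucc _ hy
        have h2 : rf (U *ᵥ a j.castSucc) (Fin.cons s y) =
            (Fin.cons s (rf (tl (U *ᵥ a j.castSucc)) y) : Fin (m + 1) → ℝ) := by
          rw [rf, rf, dot_tl (hU0 j)]
          have e : tl (Fin.cons s y : Fin (m + 1) → ℝ) = y := by
            funext k
            simp [tl]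
          rw [e]
          funext k
          refine Fin.cases ?_ (fun k => ?_) k
          · simp [hU0 j]
          · simp [tl]
        change (Fin.cons s (rf (tl (U *ᵥ a j.castSucc)) y) : Fin (m + 1) → ℝ) ∈ K'
        rw [← h2]
        exact h1
    have hsc : ∀ s, IsCompact (slc K' s) := fun s => isCompact_slice (sp_compact hKc) s
    have hscv : ∀ s, Convex ℝ (slc K' s) := fun s => convex_slice (sp_convex hc') s
    have key := moments_le hm (oneDim_all hm) (secSt_all hm) hc' hKc (Γ := FV.simpC m)
      (FV.simpC_pos m).le
      (fun s j => by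
        have h1 := mean_zero (hsc s) (hRS s) (Pi.single j 1)
        simpa [dot_single] using h1)
      (fun s j => ih _ _ (hscv s) (hsc s) (hRS s) j) ⟨0, hm⟩
    have h0 : ∫ x in K', x 0 = 0 := by
      have h1 := mean_zero hKc h' (Pi.single 0 1)
      simpa [dot_single] using h1
    have key3 := key.2.2
    rw [hi, hi, h0, hvol, simpC_kap] at key3
    rw [hiK]
    set V := (volume K).toReal with hV
    rcases (ENNReal.toReal_nonneg (a := volume K)).eq_or_lt with hz | hz
    · have hv : volume K = 0 := by
        rcases (ENNReal.toReal_eq_zero_iff _).1 hz.symm with hh | hh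
        · exact hh
        · exact absurd hh hK.measure_lt_top.ne
      have hQz : Q = 0 := by
        rw [← hiK, Measure.restrict_eq_zero.2 hv, integral_zero_measure]
      rw [hQz, zero_pow (by omega)]
      exact mul_nonneg (FV.simpC_pos _).le (by positivity)
    · have h5 : V * Q ^ (m + 1) ≤ V * (FV.simpC (m + 1) * V ^ (m + 1 + 2)) := by
        calc V * Q ^ (m + 1) = Q ^ m * (V * Q - 0 ^ 2) := by ring
          _ ≤ FV.simpC (m + 1) * V ^ (m + 4) := key3
          _ = V * (FV.simpC (m + 1) * V ^ (m + 1 + 2)) := by ring
      exact le_of_mul_le_mul_left h5 hz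

end Vale.Agent.P254.Refl.I769
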