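import Vale.Agent.P254.Refl.Defs
import Vale.Agent.P254.Refl.Irr769c

/-!
P254/Refl: `IrrBd m` for all `m ≥ 1` (every connected system of reflections can be listed in an
order in which each vector is not orthogonal to some earlier one).
-/

open MeasureTheory Set Matrix

namespace Vale.Agent.P254.Refl

namespace I769

theorem cst_eq (n : ℕ) : cst n = FV.simpC n := by
  unfold cst FV.simpC
  rw [mul_pow, pow_succ]
  ring

theorem cross {κ : Type} {r : κ → κ → Prop} {S : Set κ} {p q : κ} (h : Relation.ReflTransGen r p q)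
    (hp : p ∈ S) (hq : q ∉ S) : ∃ u ∈ S, ∃ v ∉ S, r u v := by
  induction h with
  | refl => exact absurd hp hq
  | @tail b c _ hbc ih =>
    by_cases hb : b ∈ S
    · exact ⟨b, hb, c, hq, hbc⟩
    · exact ih hb

theorem exists_order {m : ℕ} (hm : 1 ≤ m) {r : Fin m → Fin m → Prop}
    (hC : ∀ i j, Relation.ReflTransGen r i j) (k : ℕ) (hk : k ≤ m) :
    ∃ f : Fin k → Fin m, Function.Injective f ∧
      ∀ t : Fin k, t.1 ≠ 0 → ∃ j, j < t ∧ r (f j) (f t) := by
  induction k with
  | zero => exact ⟨Fin.elim0, fun i => i.elim0, fun t => t.elim0⟩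
  | succ k ih =>
    obtain ⟨f, hf, hr⟩ := ih (by omega)
    rcases Nat.eq_zero_or_pos k with h0 | h0
    · subst h0
      refine ⟨fun _ => ⟨0, hm⟩, fun i j _ => Fin.ext (by omega), fun t ht => ?_⟩
      exact absurd (by omega : t.1 = 0) ht
    · have hex : ∃ q, q ∉ range f := by
        by_contra hcon
        push Not at hcon
        have hs : Function.Surjective f := fun q => hcon q
        have h1 := Fintype.card_le_of_surjective f hs
        simp only [Fintype.card_fin] at h1
        omega
      obtain ⟨q, hq⟩ := hex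
      obtain ⟨u, ⟨i, hi⟩, v, hv, huv⟩ := cross (hC (f ⟨0, h0⟩) q) (mem_range_self _) hq
      refine ⟨Fin.snoc f v, ?_, ?_⟩
      · intro x y hxy
        induction x using Fin.lastCases with
        | last =>
          induction y using Fin.lastCases with
          | last => rfl
          | cast y =>
            rw [Fin.snoc_last, Fin.snoc_castSucc] at hxy
            exact absurd ⟨y, hxy.symm⟩ hv
        | cast x =>
          induction y using Fin.lastCases with
          | last =>
            rw [Fin.snoc_last, Fin.snoc_castSucc] at hxy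
            exact absurd ⟨x, hxy⟩ hv
          | cast y =>
            rw [Fin.snoc_castSucc, Fin.snoc_castSucc] at hxy
            rw [hf hxy]
      · intro t ht
        induction t using Fin.lastCases with
        | last =>
          refine ⟨i.castSucc, Fin.castSucc_lt_last i, ?_⟩
          rw [Fin.snoc_last, Fin.snoc_castSucc, hi]
          exact huv
        | cast t =>
          obtain ⟨j, hj, hjt⟩ := hr t (by simpa using ht)
          refine ⟨j.castSucc, by simpa using hj, ?_⟩
          rw [Fin.snoc_castSucc, Fin.snoc_castSucc]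
          exact hjt

end I769

open I769 in
theorem irr_all (m : ℕ) (hm : 1 ≤ m) : IrrBd m := by
  intro a K ha hC hc hK hR i
  rw [cst_eq]
  obtain ⟨f, hf, hr⟩ := exists_order hm hC m le_rfl
  have hne : ∀ k, a k ≠ 0 := fun k => ha.ne_zero k
  have hpos : ∀ k, 0 < a k ⬝ᵥ a k := fun k => by
    have h1 : 0 ≤ a k ⬝ᵥ a k := Finset.sum_nonneg fun i _ => mul_self_nonneg _
    refine lt_of_le_of_ne h1 fun h2 => hne k ?_
    exact dotProduct_self_eq_zero.1 h2.symm
  set c : Fin m → ℝ := fun k => (Real.sqrt (a (f k) ⬝ᵥ a (f k)))⁻¹ with hcdef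
  have hc0 : ∀ k, 0 < c k := fun k => inv_pos.2 (Real.sqrt_pos.2 (hpos _))
  have hc2 : ∀ k, c k * c k * (a (f k) ⬝ᵥ a (f k)) = 1 := by
    intro k
    have h1 := Real.mul_self_sqrt (hpos (f k)).le
    simp only [hcdef]
    rw [← mul_inv, h1, inv_mul_cancel₀ (hpos _).ne']
  refine irr m hm K (fun k => c k • a (f k)) hc hK ⟨fun k => ?_, ?_, fun k hk => ?_, fun k x hx => ?_⟩ i
  · rw [smul_dotProduct, dotProduct_smul, smul_eq_mul, smul_eq_mul, ← mul_assoc]
    exact hc2 k
  · have h1 : LinearIndependent ℝ fun k => a (f k) := ha.comp f hf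
    have h2 := h1.units_smul fun k => Units.mk0 (c k) (hc0 k).ne'
    exact h2
  · obtain ⟨j, hj, hjk⟩ := hr k hk
    refine ⟨j, hj, ?_⟩
    rw [smul_dotProduct, dotProduct_smul, smul_eq_mul, smul_eq_mul]
    exact mul_ne_zero (hc0 j).ne' (mul_ne_zero (hc0 k).ne' hjk)
  · have h1 := hR (f k) x hx
    have h2 : I769.rf (c k • a (f k)) x = Refl.rf (a (f k)) x := by
      have hp := (hpos (f k)).ne'
      rw [I769.rf, Refl.rf, smul_dotProduct, smul_eq_mul, smul_smul]
      congr 2
      rw [eq_div_iff hp]
      linear_combination (2 * (a (f k) ⬝ᵥ x)) * hc2 k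
    rw [h2]
    exact h1

end Vale.Agent.P254.Refl
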