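import Vale.Agent.P254.Refl.Defs
import Vale.Agent.P254.Refl.DArith192

/-! P254/Refl [N1]: the numbers. -/

open MeasureTheory Set Matrix

namespace Vale.Agent.P254.Refl.N1h192

open Vale.Agent.P254.Refl.A192

theorem rr_pos (m : ℕ) : 0 < rr m := by unfold rr; positivity

theorem dd_le_rr_pow {n m : ℕ} (h : m ≤ n + 1) : dd m ≤ rr n ^ m := by
  induction m with
  | zero => simp [dd_zero]
  | succ m ih =>
    rw [dd_succ, pow_succ]
    apply mul_le_mul (ih (by omega)) (rr_mono (by omega)) (rr_pos _).le (by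
      have := rr_pos n; positivity)

theorem dd_pow_le {m n : ℕ} (h : m ≤ n) : dd m ^ n ≤ dd n ^ m := by
  induction n, h using Nat.le_induction with
  | base => exact le_rfl
  | succ n h ih =>
    rw [dd_succ, mul_pow, pow_succ]
    apply mul_le_mul ih (dd_le_rr_pow (by omega)) (dd_pos _).le (by
      have := dd_pos n; positivity)

theorem dd_rpow_le {m n : ℕ} (hm : 1 ≤ m) (h : m ≤ n) :
    dd m ^ (1 / (m : ℝ)) ≤ dd n ^ (1 / (n : ℝ)) := by
  have hm0 : (0 : ℝ) < m := by exact_mod_cast hm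
  have hn0 : (0 : ℝ) < n := by exact_mod_cast (le_trans hm h)
  have h1 : dd m ^ (1 / (m : ℝ)) = (dd m ^ n) ^ (1 / ((m : ℝ) * n)) := by
    rw [← Real.rpow_natCast (dd m) n, ← Real.rpow_mul (dd_pos m).le]
    congr 1
    field_simp
  have h2 : dd n ^ (1 / (n : ℝ)) = (dd n ^ m) ^ (1 / ((m : ℝ) * n)) := by
    rw [← Real.rpow_natCast (dd n) m, ← Real.rpow_mul (dd_pos n).le]
    congr 1
    field_simp
  rw [h1, h2]
  apply Real.rpow_le_rpow (by have := dd_pos m; positivity) (dd_pow_le h) (by positivity)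

theorem cst_rpow {m : ℕ} (hm : 1 ≤ m) :
    cst m ^ (1 / (m : ℝ)) = dd m ^ (1 / (m : ℝ)) * (((m : ℝ) + 1) / ((m : ℝ) + 2)) := by
  have hm0 : (m : ℝ) ≠ 0 := by
    have : (0 : ℝ) < m := by exact_mod_cast hm
    exact this.ne'
  have h : cst m = cc m := rfl
  rw [h, cc_eq, Real.mul_rpow (dd_pos m).le (by positivity), ← Real.rpow_natCast _ m,
    ← Real.rpow_mul (by positivity)]
  congr 1
  rw [mul_one_div_cancel hm0, Real.rpow_one]

/-- [N1] -/
theorem cst_pow_le {m p : ℕ} (hm : 1 ≤ m) :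
    cst m ^ (1 / (m : ℝ)) *
        (((m : ℝ) + 2) * ((m : ℝ) + p + 1) / (((m : ℝ) + 1) * ((m : ℝ) + p + 2))) ≤
      cst (m + p) ^ (1 / ((m : ℝ) + p)) := by
  have h1 := cst_rpow (m := m) hm
  have h2 := cst_rpow (m := m + p) (by omega)
  have h3 := dd_rpow_le hm (Nat.le_add_right m p)
  push_cast at h2 h3
  rw [h1, h2]
  have e : dd m ^ (1 / (m : ℝ)) * (((m : ℝ) + 1) / ((m : ℝ) + 2)) *
      (((m : ℝ) + 2) * ((m : ℝ) + p + 1) / (((m : ℝ) + 1) * ((m : ℝ) + p + 2)))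
      = dd m ^ (1 / (m : ℝ)) * (((m : ℝ) + p + 1) / ((m : ℝ) + p + 2)) := by
    have a1 : ((m : ℝ) + 1) ≠ 0 := by positivity
    have a2 : ((m : ℝ) + 2) ≠ 0 := by positivity
    have a3 : ((m : ℝ) + p + 2) ≠ 0 := by positivity
    field_simp
  rw [e]
  exact mul_le_mul_of_nonneg_right h3 (by positivity)

end Vale.Agent.P254.Refl.N1h192
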