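import Vale.Agent.P254.Refl.Defs

/-! P254, reflections: leaf P1' (measurability and boundedness of the side of the fibre cube). -/

open MeasureTheory Set

namespace Vale.Agent.P254.Refl.H964

/-- [P1'] measurability and boundedness -/
theorem hgt_meas {m p : ℕ} {L : Set ((Fin m → ℝ) × (Fin p → ℝ))} (hL : IsCompact L) :
    Measurable (hgt L) ∧ (∀ z, 0 ≤ hgt L z) ∧ ∃ C : ℝ, ∀ z, hgt L z ≤ C := by
  refine ⟨?_, fun z => Real.rpow_nonneg ENNReal.toReal_nonneg _,
    (volume (Prod.fst '' L)).toReal ^ (1 / (m : ℝ)), fun z => ?_⟩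
  · have h := measurable_measure_prodMk_right (μ := (volume : Measure (Fin m → ℝ))) hL.measurableSet
    exact (h.ennreal_toReal).pow_const _
  · refine Real.rpow_le_rpow ENNReal.toReal_nonneg ?_ (by positivity)
    refine ENNReal.toReal_mono (hL.image continuous_fst).measure_lt_top.ne ?_
    exact measure_mono fun y hy => ⟨(y, z), hy, rfl⟩

end Vale.Agent.P254.Refl.H964
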