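import Vale.Agent.P254.Refl.Defs

/-!
P254/Refl: Fubini for the fibres of a block.
-/

open MeasureTheory Set Matrix

namespace Vale.Agent.P254.Refl

namespace H918

variable {m p : ℕ} {L : Set ((Fin m → ℝ) × (Fin p → ℝ))}

lemma meas_fib (hL : IsCompact L) (z : Fin p → ℝ) :
    MeasurableSet {y : Fin m → ℝ | (y, z) ∈ L} :=
  measurable_prodMk_right hL.measurableSet

/-- Fubini. -/
lemma int_fib (hL : IsCompact L) {f : (Fin m → ℝ) × (Fin p → ℝ) → ℝ} (hf : Continuous f) :
    ∫ q in L, f q = ∫ z in Prod.snd '' L, ∫ y in {y : Fin m → ℝ | (y, z) ∈ L}, f (y, z) := by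
  have hint : Integrable (L.indicator f) volume :=
    (hf.continuousOn.integrableOn_compact hL).integrable_indicator hL.measurableSet
  rw [← integral_indicator hL.measurableSet]
  have hint' : Integrable (L.indicator f)
      ((volume : Measure (Fin m → ℝ)).prod (volume : Measure (Fin p → ℝ))) := hint
  change ∫ q, L.indicator f q ∂((volume : Measure (Fin m → ℝ)).prod
    (volume : Measure (Fin p → ℝ))) = _
  rw [integral_prod_symm _ hint']
  have e : ∀ z : Fin p → ℝ, ∫ y, L.indicator f (y, z) =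
      ∫ y in {y : Fin m → ℝ | (y, z) ∈ L}, f (y, z) := by
    intro z
    rw [← integral_indicator (meas_fib hL z)]
    rfl
  simp_rw [e]
  refine (setIntegral_eq_integral_of_forall_compl_eq_zero fun z hz => ?_).symm
  have h0 : {y : Fin m → ℝ | (y, z) ∈ L} = ∅ := by
    ext y
    simp only [mem_ofPred_eq, mem_empty_iff_false, iff_false]
    intro hy
    exact hz ⟨(y, z), hy, rfl⟩
  rw [h0, Measure.restrict_empty, integral_zero_measure]

lemma hgt_pow (hm : 1 ≤ m) (z : Fin p → ℝ) :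
    hgt L z ^ m = (volume {y : Fin m → ℝ | (y, z) ∈ L}).toReal := by
  have hmR : (0 : ℝ) < m := by exact_mod_cast hm
  unfold hgt
  rw [← Real.rpow_natCast, ← Real.rpow_mul ENNReal.toReal_nonneg, one_div_mul_cancel hmR.ne',
    Real.rpow_one]

lemma hgt_nonneg (z : Fin p → ℝ) : 0 ≤ hgt L z := Real.rpow_nonneg ENNReal.toReal_nonneg _

lemma hgt_measurable (hL : IsCompact L) : Measurable (hgt L) :=
  (measurable_measure_prodMk_right hL.measurableSet).ennreal_toReal.pow_const _

lemma hgt_bdd (hL : IsCompact L) : ∃ C : ℝ, ∀ z, hgt L z ≤ C := by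
  refine ⟨(volume (Prod.fst '' L)).toReal ^ (1 / (m : ℝ)), fun z => ?_⟩
  refine Real.rpow_le_rpow ENNReal.toReal_nonneg ?_ (by positivity)
  refine ENNReal.toReal_mono (hL.image continuous_fst).measure_lt_top.ne (measure_mono ?_)
  intro y hy
  exact ⟨(y, z), hy, rfl⟩

end H918

open H918

/-- [P2] -/
theorem int_snd {m p : ℕ} (hm : 1 ≤ m) {L : Set ((Fin m → ℝ) × (Fin p → ℝ))} (hL : IsCompact L)
    {φ : (Fin p → ℝ) → ℝ} (hφ : Continuous φ) :
    ∫ q in L, φ q.2 = ∫ z in Prod.snd '' L, φ z * hgt L z ^ m := by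
  rw [int_fib hL (f := fun q => φ q.2) (by fun_prop)]
  refine setIntegral_congr_fun (hL.image continuous_snd).measurableSet fun z _ => ?_
  simp only [integral_const, smul_eq_mul]
  rw [hgt_pow hm z, Measure.real, Measure.restrict_apply_univ, mul_comm]

/-- [P2'] -/
theorem int_sq_le {m p : ℕ} (hm : 1 ≤ m) {L : Set ((Fin m → ℝ) × (Fin p → ℝ))} (hL : IsCompact L)
    {i : Fin m} {c : ℝ} (hc0 : 0 ≤ c)
    (h : ∀ z : Fin p → ℝ, (∫ y in {y : Fin m → ℝ | (y, z) ∈ L}, y i ^ 2) ^ m ≤
      c * (volume {y : Fin m → ℝ | (y, z) ∈ L}).toReal ^ (m + 2)) :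
    ∫ q in L, q.1 i ^ 2 ≤ c ^ (1 / (m : ℝ)) * ∫ z in Prod.snd '' L, hgt L z ^ (m + 2) := by
  have hm0 : m ≠ 0 := by omega
  have hmR : (0 : ℝ) < m := by exact_mod_cast hm
  obtain ⟨C, hC⟩ := hgt_bdd hL
  rw [int_fib hL (f := fun q => q.1 i ^ 2) (by fun_prop), ← integral_const_mul]
  have hint : IntegrableOn (fun z => hgt L z ^ (m + 2)) (Prod.snd '' L) := by
    refine Measure.integrableOn_of_bounded (M := C ^ (m + 2))
      (hL.image continuous_snd).measure_lt_top.ne
      ((hgt_measurable hL).pow_const _).aestronglyMeasurable (Filter.Eventually.of_forall fun z => ?_)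
    rw [Real.norm_eq_abs, abs_of_nonneg (pow_nonneg (hgt_nonneg z) _)]
    exact pow_le_pow_left₀ (hgt_nonneg z) (hC z) _
  refine integral_mono_of_nonneg (Filter.Eventually.of_forall fun z =>
    integral_nonneg fun y => sq_nonneg _) (hint.const_mul _)
    (Filter.Eventually.of_forall fun z => ?_)
  simp only
  refine le_of_pow_le_pow_left₀ hm0
    (mul_nonneg (Real.rpow_nonneg hc0 _) (pow_nonneg (hgt_nonneg z) _)) ?_
  refine (h z).trans (le_of_eq ?_)
  rw [mul_pow, ← Real.rpow_natCast (c ^ (1 / (m : ℝ))), ← Real.rpow_mul hc0,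
    one_div_mul_cancel hmR.ne', Real.rpow_one, ← pow_mul, mul_comm (m + 2) m, pow_mul,
    hgt_pow hm z]

end Vale.Agent.P254.Refl
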