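import Vale.Agent.P254.Refl.Defs

/-! P254/Refl, leaf P3a: the cube symmetrization of a convex body is convex and bounded. -/

open MeasureTheory Set Matrix

namespace Vale.Agent.P254.Refl

/-- the heights are bounded -/
theorem hgt_bdd144 {m p : ℕ} {L : Set ((Fin m → ℝ) × (Fin p → ℝ))} (hL : IsCompact L) :
    ∃ C : ℝ, ∀ z, hgt L z ≤ C := by
  obtain ⟨r, hr⟩ := hL.isBounded.exists_norm_le
  refine ⟨(volume (Metric.closedBall (0 : Fin m → ℝ) r)).toReal ^ (1 / (m : ℝ)), fun z => ?_⟩
  unfold hgt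
  refine Real.rpow_le_rpow ENNReal.toReal_nonneg ?_ (by positivity)
  refine ENNReal.toReal_mono (measure_closedBall_lt_top).ne (measure_mono fun y hy => ?_)
  rw [mem_closedBall_zero_iff]
  exact (le_max_left _ _).trans (hr (y, z) hy)

/-- [P3a], from the concavity of the heights -/
theorem cube_convex_of {m p : ℕ} {L : Set ((Fin m → ℝ) × (Fin p → ℝ))}
    (hconc : ConcaveOn ℝ (Prod.snd '' L) (hgt L)) (hL : IsCompact L) :
    Convex ℝ (cube L) ∧ IsCompact (closure (cube L)) := by
  constructor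
  · rintro q ⟨hq1, hq2⟩ q' ⟨hq1', hq2'⟩ a b ha hb hab
    refine ⟨hconc.1 hq1 hq1' ha hb hab, fun i => ?_⟩
    have h1 : |a * q.1 i + b * q'.1 i| ≤ a * |q.1 i| + b * |q'.1 i| := by
      refine (abs_add_le _ _).trans (le_of_eq ?_)
      rw [abs_mul, abs_mul, abs_of_nonneg ha, abs_of_nonneg hb]
    have h2 : a • hgt L q.2 + b • hgt L q'.2 ≤ hgt L (a • q.2 + b • q'.2) :=
      hconc.2 hq1 hq1' ha hb hab
    simp only [smul_eq_mul] at h2
    have h3 := mul_le_mul_of_nonneg_left (hq2 i) ha
    have h4 := mul_le_mul_of_nonneg_left (hq2' i) hb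
    calc 2 * |(a • q + b • q').1 i| = 2 * |a * q.1 i + b * q'.1 i| := by simp
      _ ≤ a * (2 * |q.1 i|) + b * (2 * |q'.1 i|) := by linarith
      _ ≤ a * hgt L q.2 + b * hgt L q'.2 := by linarith
      _ ≤ _ := h2
  · obtain ⟨C, hC⟩ := hgt_bdd144 hL
    obtain ⟨r, hr⟩ := hL.isBounded.exists_norm_le
    have hb : Bornology.IsBounded (cube L) := by
      refine (Metric.isBounded_iff_subset_closedBall 0).2 ⟨max (max C 0) (max r 0), ?_⟩
      rintro q ⟨⟨x, hx, hxq⟩, hq2⟩
      rw [mem_closedBall_zero_iff]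
      refine max_le ((pi_norm_le_iff_of_nonneg (by positivity)).2 fun i => ?_) ?_
      · have h1 := hq2 i
        have h2 := hC q.2
        rw [Real.norm_eq_abs]
        have h3 : |q.1 i| ≤ max C 0 := by
          have h4 := abs_nonneg (q.1 i)
          have h5 : |q.1 i| ≤ C := by linarith
          exact h5.trans (le_max_left _ _)
        exact h3.trans (le_max_left _ _)
      · have h1 : ‖q.2‖ ≤ r := by
          rw [← hxq]
          exact (le_max_right _ _).trans (hr x hx)
        exact h1.trans ((le_max_left _ _).trans (le_max_right _ _))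
    exact hb.isCompact_closure

end Vale.Agent.P254.Refl
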