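import Vale.Agent.P254.FV.Good
import Vale.Agent.P254.Unc.Top
import Vale.Agent.P254.Refl.E1
import Vale.Agent.P254.Refl.E2
import Vale.Agent.P254.Refl.A2
import Vale.Agent.P254.Refl.B2D
import Vale.Agent.P254.Refl.C1H545
import Vale.Agent.P254.Refl.C2h700
import Vale.Agent.P254.Refl.C3h708
import Vale.Agent.P254.Refl.C5h637
import Vale.Agent.P254.Refl.C6_120
import Vale.Agent.P254.Refl.C8
import Vale.Agent.P254.Refl.C9h793

/-!
P254/Refl: the strong isotropic constant conjecture for the convex bodies with `n` hyperplane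
symmetries with linearly independent directions.
-/

open MeasureTheory Set Matrix

namespace Vale.Agent.P254.Refl

open Vale.Agent.P254.FV (Good Dn simpC)

theorem allBlocksD : E2.AllBlocksD := by
  classical
  intro n β hI a lab hB K hc hK hR D hD
  refine C2h700.all_blocks_D' (fun hm e _ hc hK h D hD => B2.sym_step_D hm e hD hc hK h)
    C1H.fib_bd hI hB hc hK hR (fun m hm ⟨b, hb⟩ => hD m hm ⟨b, ?_⟩)
  convert hb

theorem irr_bd (m : ℕ) (hm : 1 ≤ m) : IrrBd m := (H171.both m hm).1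

/-- Two blocks or more: strict inequality. -/
theorem det_blk_lt {n : ℕ} {β : Type} {a : Fin n → Fin n → ℝ} {lab : Fin n → β} (hB : Blk a lab)
    (h2 : ∃ i j, lab i ≠ lab j) {K : Set (Fin n → ℝ)} (hK : IsConvexBody K) (hR : RInv a K) :
    (covMatrix K).det < cst n * (volume K).toReal ^ 2 := by
  have h := A2.blk_mom hB hK.2.1 hR
  exact H637.det_blk_lt_of hK h.1 h.2.1 (E2.prod_lt allBlocksD H708.unc_abs (Unc.uncr_all n)
    irr_bd hB hK.1 hK.2.1 (H637.vol_pos hK) hR h2)

/-- One block: the inequality, with the equality case. -/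
theorem good_one {n : ℕ} (hn : 1 ≤ n) {a : Fin n → Fin n → ℝ} (ha : LinearIndependent ℝ a)
    (hc : ∀ i j, Lk a i j) {K : Set (Fin n → ℝ)} (hK : IsConvexBody K) (hR : RInv a K) :
    Good K := by
  have hB : Blk a (fun _ => ()) := ⟨ha, fun i j h => absurd rfl h, fun i j _ => hc i j⟩
  obtain ⟨h0, h1, h2⟩ := A2.blk_mom hB hK.2.1 hR
  have hV := H637.vol_pos hK
  set V := (volume K).toReal with hVdef
  set i₀ : Fin n := ⟨0, hn⟩ with hi₀
  have hQ : ∀ i, ∫ x in K, x i ^ 2 = ∫ x in K, x i₀ ^ 2 := fun i => h2 i i₀ rfl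
  set Q := ∫ x in K, x i₀ ^ 2 with hQdef
  have hdet : (covMatrix K).det = (V ^ n)⁻¹ * Q ^ n := by
    rw [H637.det_diag h0 h1]
    congr 1
    rw [Finset.prod_congr rfl fun i _ => hQ i]
    simp
  have hD : Dn K = Q ^ n / V ^ (n + 2) := by
    unfold FV.Dn
    rw [hdet, ← hVdef, pow_add]
    field_simp
  have hb := irr_bd n hn a K ha hc hK.1 hK.2.1 hR i₀
  refine ⟨hn, hK, ?_, fun h => ?_⟩
  · rw [hD, C9h793.simpC_eq, div_le_iff₀ (by positivity)]
    exact hb
  · refine eqIrr n hn a K ha hc hK.1 hK.2.1 hR hV i₀ ?_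
    rw [hD, C9h793.simpC_eq, div_eq_iff (by positivity)] at h
    exact h.ge

/-- The inverse of an invertible affine map. -/
theorem good_of_aff {n : ℕ} {K : Set (Fin n → ℝ)} {A : Matrix (Fin n) (Fin n) ℝ}
    (hA : A.det ≠ 0) (b : Fin n → ℝ) (h : Good (aff A b '' K)) : Good K := by
  have hu : IsUnit A.det := isUnit_iff_ne_zero.2 hA
  have hA' : (A⁻¹).det ≠ 0 := by
    rw [det_nonsing_inv, Ring.inverse_eq_inv']
    exact inv_ne_zero hA
  have h1 := h.aff hA' (-(A⁻¹ *ᵥ b))
  have e : aff A⁻¹ (-(A⁻¹ *ᵥ b)) '' (aff A b '' K) = K := by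
    rw [← image_comp]
    have : (aff A⁻¹ (-(A⁻¹ *ᵥ b)) ∘ aff A b) = id := by
      funext x
      simp only [aff, Function.comp, mulVec_add, mulVec_mulVec, nonsing_inv_mul A hu, one_mulVec,
        id]
      abel
    rw [this, image_id]
  rwa [e] at h1

theorem body_aff {n : ℕ} {K : Set (Fin n → ℝ)} (hK : IsConvexBody K)
    {A : Matrix (Fin n) (Fin n) ℝ} (hA : A.det ≠ 0) (b : Fin n → ℝ) :
    IsConvexBody (aff A b '' K) := by
  have hV := (H637.vol_pos hK).ne'
  refine FV.body_of_vol ?_ (isCompact_aff_image A b hK.2.1) ?_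
  · rw [← coe_affMap]
    exact hK.1.affine_image _
  · rw [volume_aff_image hA b hK.2.1.measurableSet]
    exact mul_ne_zero (abs_ne_zero.2 hA) hV

/-- The image under an orthogonal matrix is invariant under the reflections in the images. -/
theorem rinv_image {n : ℕ} {O : Matrix (Fin n) (Fin n) ℝ} (h : Oᵀ * O = 1)
    {a : Fin n → Fin n → ℝ} {K : Set (Fin n → ℝ)} (hK : RInv a K) :
    RInv (fun i => O *ᵥ a i) (aff O 0 '' K) := by
  have hd : ∀ u v : Fin n → ℝ, (O *ᵥ u) ⬝ᵥ (O *ᵥ v) = u ⬝ᵥ v := by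
    intro u v
    rw [dotProduct_mulVec, vecMul_mulVec, ← dotProduct_mulVec, h, one_mulVec]
  rintro i _ ⟨x, hx, rfl⟩
  refine ⟨_, hK i x hx, ?_⟩
  simp only [aff, add_zero, rf]
  rw [hd, hd, mulVec_sub, mulVec_smul]

/-- The orthogonal case. -/
theorem good_orth {n : ℕ} (hn : 1 ≤ n) {K : Set (Fin n → ℝ)} (hK : IsConvexBody K)
    {a : Fin n → Fin n → ℝ} (ha : LinearIndependent ℝ a) (hR : RInv a K) : Good K := by
  obtain ⟨O, β, lab, h1, h2, hb⟩ := H120.exists_blk ha
  have hO : O.det ≠ 0 := by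
    intro h
    have := congrArg Matrix.det h1
    rw [det_mul, h, zero_mul, det_one] at this
    exact zero_ne_one this
  have hK' := body_aff hK hO 0
  have hR' := rinv_image h2 hR
  refine good_of_aff hO 0 ?_
  by_cases hk : ∃ i j, lab i ≠ lab j
  · have h3 := det_blk_lt hb hk hK' hR'
    have hV' := H637.vol_pos hK'
    have h4 : Dn (aff O 0 '' K) < simpC n := by
      unfold FV.Dn
      rw [div_lt_iff₀ (by positivity), C9h793.simpC_eq]
      exact h3
    exact ⟨hn, hK', h4.le, fun h => absurd h h4.ne⟩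
  · push Not at hk
    exact good_one hn hb.li (fun i j => hb.conn i j (hk i j)) hK' hR'

/-- The conjecture for the bodies with `n` hyperplane symmetries with independent directions. -/
theorem good_refl {n : ℕ} (hn : 1 ≤ n) {K : Set (Fin n → ℝ)} (hK : IsConvexBody K)
    {a w : Fin n → Fin n → ℝ} {c : Fin n → ℝ} (ha : LinearIndependent ℝ a)
    (hw : ∀ i, w i ⬝ᵥ a i = 2) (hinv : ∀ i, ∀ x ∈ K, x - (w i ⬝ᵥ x - c i) • a i ∈ K) : Good K := by
  obtain ⟨A, b, a', hA, ha', hR⟩ := exists_pos hK ha hw hinv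
  exact good_of_aff hA b (good_orth hn (body_aff hK hA b) ha' hR)

end Vale.Agent.P254.Refl
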