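import Vale.Agent.P254.Refl.Defs
import Vale.Agent.P254.Unc.FinDefs

/-!
P254/Refl: the plan. Never import this file.
-/

open MeasureTheory Set Matrix

namespace Vale.Agent.P254.Refl

/-! ### (N) numbers -/

/-- [N1] -/
theorem cst_pow_le {m p : ℕ} (hm : 1 ≤ m) :
    cst m ^ (1 / (m : ℝ)) *
        (((m : ℝ) + 2) * ((m : ℝ) + p + 1) / (((m : ℝ) + 1) * ((m : ℝ) + p + 2))) ≤
      cst (m + p) ^ (1 / ((m : ℝ) + p)) := by
  sorry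

/-! ### (A) irreducible systems -/

/-- [A1] -/
theorem exists_orth (m : ℕ) (a : Fin m → Fin (m + 1) → ℝ) :
    ∃ O : Matrix (Fin (m + 1)) (Fin (m + 1)) ℝ, O * Oᵀ = 1 ∧ Oᵀ * O = 1 ∧
      ∀ j, (O *ᵥ a j) 0 = 0 := by
  sorry

/-- [A2a] invariance of the moments under one reflection -/
theorem mom_rf {ι : Type} [Fintype ι] {a : ι → ℝ} (ha : a ≠ 0) {K : Set (ι → ℝ)}
    (hK : IsCompact K) (h : ∀ x ∈ K, rf a x ∈ K) :
    (∫ x in K, a ⬝ᵥ x) = 0 ∧ ∃ l : ℝ, ∀ v : ι → ℝ,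
      ∫ x in K, (a ⬝ᵥ x) * (v ⬝ᵥ x) = l * (a ⬝ᵥ v) := by
  sorry

/-- [A2] the second moments are diagonal, and constant on the blocks -/
theorem blk_mom {n : ℕ} {β : Type} {a : Fin n → Fin n → ℝ} {lab : Fin n → β} (hB : Blk a lab)
    {K : Set (Fin n → ℝ)} (hK : IsCompact K) (hR : RInv a K) :
    (∀ i, ∫ x in K, x i = 0) ∧ (∀ i j, i ≠ j → ∫ x in K, x i * x j = 0) ∧
      ∀ i j, lab i = lab j → ∫ x in K, x i ^ 2 = ∫ x in K, x j ^ 2 := by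
  sorry

/-- [A3] deletion of a vertex which is not a cut vertex -/
theorem exists_noncut {ι : Type} [Fintype ι] {m : ℕ} (hm : 1 ≤ m) {a : Fin (m + 1) → ι → ℝ}
    (hC : ∀ i j, Lk a i j) : ∃ i₀ : Fin (m + 1), ∀ i j, Lk (fun j : Fin m => a (i₀.succAbove j)) i j := by
  sorry

/-- [A5] -/
theorem irr_one : IrrBd 1 := by
  sorry

/-- [A6] use `exists_noncut`, `exists_orth`, `blk_mom` (with one label), `Rev.moments_le` -/
theorem irr_succ (m : ℕ) (hm : 1 ≤ m) (h : IrrBd m) : IrrBd (m + 1) := by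
  sorry

/-! ### (B) cube symmetrization of a block -/

/-- [P1] Brunn-Minkowski -/
theorem hgt_conc {m p : ℕ} (hm : 1 ≤ m) {L : Set ((Fin m → ℝ) × (Fin p → ℝ))} (hc : Convex ℝ L)
    (hL : IsCompact L) : ConcaveOn ℝ (Prod.snd '' L) (hgt L) := by
  sorry

/-- [P1'] measurability and boundedness -/
theorem hgt_meas {m p : ℕ} {L : Set ((Fin m → ℝ) × (Fin p → ℝ))} (hL : IsCompact L) :
    Measurable (hgt L) ∧ (∀ z, 0 ≤ hgt L z) ∧ ∃ C : ℝ, ∀ z, hgt L z ≤ C := by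
  sorry

/-- [P2] -/
theorem int_snd {m p : ℕ} (hm : 1 ≤ m) {L : Set ((Fin m → ℝ) × (Fin p → ℝ))} (hL : IsCompact L)
    {φ : (Fin p → ℝ) → ℝ} (hφ : Continuous φ) :
    ∫ q in L, φ q.2 = ∫ z in Prod.snd '' L, φ z * hgt L z ^ m := by
  sorry

/-- [P2'] -/
theorem int_sq_le {m p : ℕ} (hm : 1 ≤ m) {L : Set ((Fin m → ℝ) × (Fin p → ℝ))} (hL : IsCompact L)
    {i : Fin m} {c : ℝ} (hc0 : 0 ≤ c)
    (h : ∀ z : Fin p → ℝ, (∫ y in {y : Fin m → ℝ | (y, z) ∈ L}, y i ^ 2) ^ m ≤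
      c * (volume {y : Fin m → ℝ | (y, z) ∈ L}).toReal ^ (m + 2)) :
    ∫ q in L, q.1 i ^ 2 ≤ c ^ (1 / (m : ℝ)) * ∫ z in Prod.snd '' L, hgt L z ^ (m + 2) := by
  sorry

/-- [P3a] -/
theorem cube_convex {m p : ℕ} (hm : 1 ≤ m) {L : Set ((Fin m → ℝ) × (Fin p → ℝ))}
    (hc : Convex ℝ L) (hL : IsCompact L) : Convex ℝ (cube L) ∧ IsCompact (closure (cube L)) := by
  sorry

/-- [P3b] -/
theorem cube_int {m p : ℕ} (hm : 1 ≤ m) {L : Set ((Fin m → ℝ) × (Fin p → ℝ))}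
    (hc : Convex ℝ L) (hL : IsCompact L) {φ : (Fin p → ℝ) → ℝ} (hφ : Continuous φ) :
    ∫ q in closure (cube L), φ q.2 = ∫ z in Prod.snd '' L, φ z * hgt L z ^ m := by
  sorry

/-- [P3c] -/
theorem cube_abs {m p : ℕ} (hm : 1 ≤ m) {L : Set ((Fin m → ℝ) × (Fin p → ℝ))}
    (hc : Convex ℝ L) (hL : IsCompact L) (i : Fin m) :
    ∫ q in closure (cube L), |q.1 i| = 1 / 4 * ∫ z in Prod.snd '' L, hgt L z ^ (m + 1) := by
  sorry

/-- [P4] Berwald -/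
theorem berwald_gen {m p : ℕ} (hm : 1 ≤ m) {P : Set (Fin p → ℝ)} (hP : Convex ℝ P)
    (hc : IsCompact P) {h : (Fin p → ℝ) → ℝ} (hconc : ConcaveOn ℝ P h) (h0 : ∀ x, 0 ≤ h x)
    (hmeas : Measurable h) (hb : ∃ C : ℝ, ∀ x, h x ≤ C) :
    (∫ x in P, h x ^ (m + 2)) * (∫ x in P, h x ^ m) ≤
      (((m : ℝ) + 2) * ((m : ℝ) + p + 1) / (((m : ℝ) + 1) * ((m : ℝ) + p + 2))) *
        (∫ x in P, h x ^ (m + 1)) ^ 2 := by
  sorry

/-- [B1] cube symmetrization in the product, from P1-P4 and N1 -/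
theorem prod_step {m p : ℕ} (hm : 1 ≤ m) {L : Set ((Fin m → ℝ) × (Fin p → ℝ))}
    (hc : Convex ℝ L) (hL : IsCompact L)
    (hfib : ∀ (z : Fin p → ℝ) (i : Fin m), (∫ y in {y : Fin m → ℝ | (y, z) ∈ L}, y i ^ 2) ^ m ≤
      cst m * (volume {y : Fin m → ℝ | (y, z) ∈ L}).toReal ^ (m + 2)) :
    ∃ L' : Set ((Fin m → ℝ) × (Fin p → ℝ)), Convex ℝ L' ∧ IsCompact L' ∧
      (∀ φ : (Fin p → ℝ) → ℝ, Continuous φ → ∫ q in L', φ q.2 = ∫ q in L, φ q.2) ∧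
      (∀ i : Fin m, (volume L).toReal * ∫ q in L, q.1 i ^ 2 ≤
        16 * cst (m + p) ^ (1 / ((m : ℝ) + p)) * (∫ q in L', |q.1 i|) ^ 2) ∧
      (∀ i : Fin m, ∀ q ∈ L', (Function.update q.1 i (-q.1 i), q.2) ∈ L') ∧
      ∀ T : (Fin p → ℝ) → (Fin p → ℝ), Continuous T → (∀ z, T (T z) = z) →
        (∀ q ∈ L, (q.1, T q.2) ∈ L) → ∀ q ∈ L', (q.1, T q.2) ∈ L' := by
  sorry

/-- [B2] transfer of `prod_step` to `Fin n → ℝ` -/
theorem sym_step {n m p : ℕ} (hm : 1 ≤ m) (e : Fin m ⊕ Fin p ≃ Fin n) {K : Set (Fin n → ℝ)}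
    (hc : Convex ℝ K) (hK : IsCompact K)
    (hfib : ∀ (z : Fin p → ℝ) (i : Fin m), (∫ y in {y : Fin m → ℝ | cmb e y z ∈ K}, y i ^ 2) ^ m ≤
      cst m * (volume {y : Fin m → ℝ | cmb e y z ∈ K}).toReal ^ (m + 2)) :
    ∃ K' : Set (Fin n → ℝ), Convex ℝ K' ∧ IsCompact K' ∧
      (∀ φ : (Fin n → ℝ) → ℝ, Continuous φ → (∀ y y' z, φ (cmb e y z) = φ (cmb e y' z)) →
        ∫ x in K', φ x = ∫ x in K, φ x) ∧
      (∀ i : Fin m, (volume K).toReal * ∫ x in K, x (e (Sum.inl i)) ^ 2 ≤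
        16 * cst n ^ (1 / (n : ℝ)) * (∫ x in K', |x (e (Sum.inl i))|) ^ 2) ∧
      (∀ i : Fin m, ∀ x ∈ K', rf (Pi.single (e (Sum.inl i)) 1) x ∈ K') ∧
      ∀ a : Fin n → ℝ, (∀ i : Fin m, a (e (Sum.inl i)) = 0) → (∀ x ∈ K, rf a x ∈ K) →
        ∀ x ∈ K', rf a x ∈ K' := by
  sorry

/-! ### (C) all blocks -/

/-- [C1] the fibres of a block satisfy the irreducible bound -/
theorem fib_bd {n m p : ℕ} {β : Type} (hI : IrrBd m) {a : Fin n → Fin n → ℝ} {lab : Fin n → β}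
    (hB : Blk a lab) (b : β) (e : Fin m ⊕ Fin p ≃ Fin n) (h1 : ∀ i, lab (e (Sum.inl i)) = b)
    (h2 : ∀ j, lab (e (Sum.inr j)) ≠ b) {K : Set (Fin n → ℝ)} (hc : Convex ℝ K)
    (hK : IsCompact K) (hR : ∀ i : Fin m, ∀ x ∈ K, rf (a (e (Sum.inl i))) x ∈ K)
    (z : Fin p → ℝ) (i : Fin m) :
    (∫ y in {y : Fin m → ℝ | cmb e y z ∈ K}, y i ^ 2) ^ m ≤
      cst m * (volume {y : Fin m → ℝ | cmb e y z ∈ K}).toReal ^ (m + 2) := by
  sorry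

/-- [C2] induction over the labels, from `sym_step`, `fib_bd` -/
theorem all_blocks {n : ℕ} {β : Type} (hI : ∀ m, 1 ≤ m → IrrBd m) {a : Fin n → Fin n → ℝ}
    {lab : Fin n → β} (hB : Blk a lab) {K : Set (Fin n → ℝ)} (hc : Convex ℝ K)
    (hK : IsCompact K) (hR : RInv a K) :
    ∃ K' : Set (Fin n → ℝ), Convex ℝ K' ∧ IsCompact K' ∧
      (volume K').toReal = (volume K).toReal ∧ Unc.Uncond K' ∧
      ∀ i, (volume K).toReal * ∫ x in K, x i ^ 2 ≤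
        16 * cst n ^ (1 / (n : ℝ)) * (∫ x in K', |x i|) ^ 2 := by
  sorry

/-- [C3] `UNCR` for an unconditional set -/
theorem unc_abs {n : ℕ} (hn : 1 ≤ n) (hU : Unc.UNCR n) {K : Set (Fin n → ℝ)} (hc : Convex ℝ K)
    (hK : IsCompact K) (hu : Unc.Uncond K) :
    ∏ i, (∫ x in K, |x i|) ≤ ((volume K).toReal / 4 ^ n) * (volume K).toReal ^ n := by
  sorry

/-- [C4] -/
theorem prod_le {n : ℕ} {β : Type} (hn : 1 ≤ n) (hU : Unc.UNCR n) (hI : ∀ m, 1 ≤ m → IrrBd m)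
    {a : Fin n → Fin n → ℝ} {lab : Fin n → β} (hB : Blk a lab) {K : Set (Fin n → ℝ)}
    (hc : Convex ℝ K) (hK : IsCompact K) (hV : 0 < (volume K).toReal) (hR : RInv a K) :
    ∏ i, (∫ x in K, x i ^ 2) ≤ cst n * (volume K).toReal ^ (n + 2) := by
  sorry

/-- [C5] the determinant of the covariance matrix in adapted coordinates -/
theorem det_blk {n : ℕ} {β : Type} (hn : 1 ≤ n) (hU : Unc.UNCR n) (hI : ∀ m, 1 ≤ m → IrrBd m)
    {a : Fin n → Fin n → ℝ} {lab : Fin n → β} (hB : Blk a lab) {K : Set (Fin n → ℝ)}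
    (hK : IsConvexBody K) (hR : RInv a K) :
    (covMatrix K).det ≤ cst n * (volume K).toReal ^ 2 := by
  sorry

/-- [C6] adapted coordinates (Gram-Schmidt) -/
theorem exists_blk {n : ℕ} {a : Fin n → Fin n → ℝ} (ha : LinearIndependent ℝ a) :
    ∃ (O : Matrix (Fin n) (Fin n) ℝ) (β : Type) (lab : Fin n → β), O * Oᵀ = 1 ∧ Oᵀ * O = 1 ∧
      Blk (fun i => O *ᵥ a i) lab := by
  sorry

/-- [C7] the orthogonal form -/
theorem det_orth {n : ℕ} (hn : 1 ≤ n) (hU : Unc.UNCR n) (hI : ∀ m, 1 ≤ m → IrrBd m)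
    {a : Fin n → Fin n → ℝ} (ha : LinearIndependent ℝ a) {K : Set (Fin n → ℝ)}
    (hK : IsConvexBody K) (hR : RInv a K) :
    (covMatrix K).det ≤ cst n * (volume K).toReal ^ 2 := by
  sorry

/-- [C8] reduction of oblique affine reflections to orthogonal ones -/
theorem exists_pos {n : ℕ} {K : Set (Fin n → ℝ)} (hK : IsConvexBody K)
    {a w : Fin n → Fin n → ℝ} {c : Fin n → ℝ} (ha : LinearIndependent ℝ a)
    (hw : ∀ i, w i ⬝ᵥ a i = 2) (hR : ∀ i, ∀ x ∈ K, x - (w i ⬝ᵥ x - c i) • a i ∈ K) :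
    ∃ (A : Matrix (Fin n) (Fin n) ℝ) (b : Fin n → ℝ) (a' : Fin n → Fin n → ℝ), A.det ≠ 0 ∧
      LinearIndependent ℝ a' ∧ RInv a' ((fun x => A *ᵥ x + b) '' K) := by
  sorry

/-- [C9] -/
theorem isoConst_le {n : ℕ} (hn : 1 ≤ n) (hU : Unc.UNCR n) (hI : ∀ m, 1 ≤ m → IrrBd m)
    {K S : Set (Fin n → ℝ)} (hK : IsConvexBody K) (hS : IsSimplex S)
    {a w : Fin n → Fin n → ℝ} {c : Fin n → ℝ} (ha : LinearIndependent ℝ a)
    (hw : ∀ i, w i ⬝ᵥ a i = 2) (hR : ∀ i, ∀ x ∈ K, x - (w i ⬝ᵥ x - c i) • a i ∈ K) :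
    isoConst K ≤ isoConst S := by
  sorry

end Vale.Agent.P254.Refl
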