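import Vale.Agent.P254.Refl.Defs
import Vale.Agent.P254.Fib.Core
import Vale.Agent.P254.Fib.CoreEq
import Vale.Agent.P254.Perm.EqOne
import Vale.Agent.P254.Perm.SlicesSimplex77

/-!
P254/Refl: slices of a body with an irreducible system of reflections, and the case of equality in
`IrrBd`.
-/

open MeasureTheory Set Matrix

namespace Vale.Agent.P254.Refl

/-- Equality in `IrrBd m` forces a simplex. -/
def EqIrr (m : ℕ) : Prop :=
  ∀ (a : Fin m → Fin m → ℝ) (K : Set (Fin m → ℝ)), LinearIndependent ℝ a → (∀ i j, Lk a i j) →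
    Convex ℝ K → IsCompact K → RInv a K → 0 < (volume K).toReal → ∀ i,
      cst m * (volume K).toReal ^ (m + 2) ≤ (∫ x in K, x i ^ 2) ^ m → IsSimplex K

namespace H171

theorem cst_pos (m : ℕ) : 0 < cst m := by
  unfold cst
  positivity

theorem cst_kap (m : ℕ) : cst m * Perm.kap m = cst (m + 1) := by
  unfold cst Perm.kap
  rw [Nat.factorial_succ]
  push_cast
  have a1 : ((m : ℝ) + 1 + 1) = (m : ℝ) + 2 := by ring
  have a2 : ((m : ℝ) + 1 + 2) = (m : ℝ) + 3 := by ring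
  rw [a1, a2]
  have c1 : (m : ℝ) + 1 ≠ 0 := by positivity
  have c2 : (m : ℝ) + 2 ≠ 0 := by positivity
  have c3 : (m : ℝ) + 3 ≠ 0 := by positivity
  rw [show ((m : ℝ) + 1) ^ (m + 3) = ((m : ℝ) + 1) ^ (m + 1) * ((m : ℝ) + 1) ^ 2 by
      rw [← pow_add],
    show ((m : ℝ) + 2) ^ (m + 1 + 1) = ((m : ℝ) + 2) ^ m * ((m : ℝ) + 2) ^ 2 by
      rw [← pow_add]]
  field_simp

variable {m : ℕ}

/-- The coordinates after the orthogonal map `O`, split into the first one and the others. -/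
noncomputable def T (O : Matrix (Fin (m + 1)) (Fin (m + 1)) ℝ) (x : Fin (m + 1) → ℝ) :
    ℝ × (Fin m → ℝ) :=
  ((O *ᵥ x) 0, fun i => (O *ᵥ x) i.succ)

/-- The inverse map, linear. -/
noncomputable def U (O : Matrix (Fin (m + 1)) (Fin (m + 1)) ℝ) :
    (ℝ × (Fin m → ℝ)) →ₗ[ℝ] (Fin (m + 1) → ℝ) where
  toFun p := Oᵀ *ᵥ (Fin.cons p.1 p.2 : Fin (m + 1) → ℝ)
  map_add' p q := by
    rw [← Matrix.mulVec_add]
    congr 1
    funext j
    refine Fin.cases ?_ (fun i => ?_) j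
    · simp
    · simp
  map_smul' c p := by
    rw [RingHom.id_apply, ← Matrix.mulVec_smul]
    congr 1
    funext j
    refine Fin.cases ?_ (fun i => ?_) j
    · simp
    · simp

theorem U_apply (O : Matrix (Fin (m + 1)) (Fin (m + 1)) ℝ) (p : ℝ × (Fin m → ℝ)) :
    U O p = Oᵀ *ᵥ (Fin.cons p.1 p.2 : Fin (m + 1) → ℝ) := rfl

theorem U_T {O : Matrix (Fin (m + 1)) (Fin (m + 1)) ℝ} (hO : Oᵀ * O = 1) (x : Fin (m + 1) → ℝ) :
    U O (T O x) = x := by
  have h : (Fin.cons (T O x).1 (T O x).2 : Fin (m + 1) → ℝ) = O *ᵥ x := by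
    funext j
    refine Fin.cases ?_ (fun i => ?_) j
    · rfl
    · rfl
  rw [U_apply, h, Matrix.mulVec_mulVec, hO, Matrix.one_mulVec]

theorem T_U {O : Matrix (Fin (m + 1)) (Fin (m + 1)) ℝ} (hO : O * Oᵀ = 1) (p : ℝ × (Fin m → ℝ)) :
    T O (U O p) = p := by
  unfold T
  rw [U_apply, Matrix.mulVec_mulVec, hO, Matrix.one_mulVec]
  rfl

theorem U_inj {O : Matrix (Fin (m + 1)) (Fin (m + 1)) ℝ} (hO : O * Oᵀ = 1) :
    Function.Injective (U O) := fun p q h => by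
  rw [← T_U hO p, ← T_U hO q, h]

theorem T_cont (O : Matrix (Fin (m + 1)) (Fin (m + 1)) ℝ) : Continuous (T O) := by
  unfold T
  fun_prop

theorem U_cont (O : Matrix (Fin (m + 1)) (Fin (m + 1)) ℝ) : Continuous (U O) :=
  LinearMap.continuous_of_finiteDimensional _

theorem abs_det {n : ℕ} {O : Matrix (Fin n) (Fin n) ℝ} (hO : O * Oᵀ = 1) : |O.det| = 1 := by
  have h : O.det * O.det = 1 := by
    have h1 := congrArg Matrix.det hO
    rwa [Matrix.det_mul, Matrix.det_transpose, Matrix.det_one] at h1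
  have h3 : |O.det| * |O.det| = 1 := by
    rw [← abs_mul, h, abs_one]
  have h4 := abs_nonneg O.det
  nlinarith

theorem mp_O {n : ℕ} {O : Matrix (Fin n) (Fin n) ℝ} (hO : O * Oᵀ = 1) :
    MeasurePreserving (fun x => O *ᵥ x) (volume : Measure (Fin n → ℝ)) volume := by
  have h1 := abs_det hO
  have h0 : O.det ≠ 0 := by
    intro h
    rw [h] at h1
    simp at h1
  refine ⟨(by fun_prop : Continuous fun x : Fin n → ℝ => O *ᵥ x).measurable, ?_⟩
  have h2 := Real.map_matrix_volume_pi_eq_smul_volume_pi (M := O) h0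
  have h3 : (⇑(Matrix.toLin' O) : (Fin n → ℝ) → (Fin n → ℝ)) = fun x => O *ᵥ x := by
    funext x
    exact Matrix.toLin'_apply O x
  rw [h3, abs_inv, h1] at h2
  rw [h2]
  simp

theorem mp_T {O : Matrix (Fin (m + 1)) (Fin (m + 1)) ℝ} (hO : O * Oᵀ = 1) :
    MeasurePreserving (T O) volume volume := by
  have h1 : MeasurePreserving (MeasurableEquiv.piFinSuccAbove (fun _ : Fin (m + 1) => ℝ) 0)
      volume volume := volume_preserving_piFinSuccAbove (fun _ : Fin (m + 1) => ℝ) 0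
  exact h1.comp (mp_O hO)

/-- `T` as a homeomorphism. -/
noncomputable def Th {O : Matrix (Fin (m + 1)) (Fin (m + 1)) ℝ} (hO : O * Oᵀ = 1)
    (hO' : Oᵀ * O = 1) : (Fin (m + 1) → ℝ) ≃ₜ ℝ × (Fin m → ℝ) where
  toFun := T O
  invFun := U O
  left_inv := U_T hO'
  right_inv := T_U hO
  continuous_toFun := T_cont O
  continuous_invFun := U_cont O

theorem dot_O {n : ℕ} {O : Matrix (Fin n) (Fin n) ℝ} (hO' : Oᵀ * O = 1) (x y : Fin n → ℝ) :
    (O *ᵥ x) ⬝ᵥ (O *ᵥ y) = x ⬝ᵥ y := by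
  rw [Matrix.dotProduct_mulVec, Matrix.vecMul_mulVec, hO', Matrix.vecMul_one]

theorem rf_O {n : ℕ} {O : Matrix (Fin n) (Fin n) ℝ} (hO' : Oᵀ * O = 1) (a x : Fin n → ℝ) :
    rf (O *ᵥ a) (O *ᵥ x) = O *ᵥ rf a x := by
  unfold rf
  rw [dot_O hO', dot_O hO', Matrix.mulVec_sub, Matrix.mulVec_smul]

theorem dot_cons {b : Fin (m + 1) → ℝ} (hb : b 0 = 0) (s : ℝ) (y : Fin m → ℝ) :
    b ⬝ᵥ (Fin.cons s y : Fin (m + 1) → ℝ) = (fun i : Fin m => b i.succ) ⬝ᵥ y := by
  simp only [dotProduct, Fin.sum_univ_succ, Fin.cons_zero, Fin.cons_succ, hb, zero_mul, zero_add]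

theorem dot_tail {b c : Fin (m + 1) → ℝ} (hb : b 0 = 0) :
    b ⬝ᵥ c = (fun i : Fin m => b i.succ) ⬝ᵥ (fun i : Fin m => c i.succ) := by
  simp only [dotProduct, Fin.sum_univ_succ, hb, zero_mul, zero_add]

theorem rf_cons {b : Fin (m + 1) → ℝ} (hb : b 0 = 0) (s : ℝ) (y : Fin m → ℝ) :
    rf b (Fin.cons s y : Fin (m + 1) → ℝ) =
      (Fin.cons s (rf (fun i : Fin m => b i.succ) y) : Fin (m + 1) → ℝ) := by
  unfold rf
  rw [dot_cons hb, dot_tail hb]
  funext j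
  refine Fin.cases ?_ (fun i => ?_) j
  · simp [hb]
  · simp

/-- The body in the new coordinates. -/
def Lb (O : Matrix (Fin (m + 1)) (Fin (m + 1)) ℝ) (K : Set (Fin (m + 1) → ℝ)) :
    Set (ℝ × (Fin m → ℝ)) := {p | U O p ∈ K}

section

variable {O : Matrix (Fin (m + 1)) (Fin (m + 1)) ℝ} (hO : O * Oᵀ = 1) (hO' : Oᵀ * O = 1)
  {K : Set (Fin (m + 1) → ℝ)}

include hO' in
theorem Lb_pre : T O ⁻¹' Lb O K = K := by
  ext x
  show U O (T O x) ∈ K ↔ x ∈ K
  rw [U_T hO']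

include hO hO' in
theorem Lb_img : Lb O K = T O '' K := by
  ext p
  constructor
  · intro hp
    exact ⟨U O p, hp, T_U hO p⟩
  · rintro ⟨x, hx, rfl⟩
    show U O (T O x) ∈ K
    rwa [U_T hO']

include hO' in
theorem K_img : K = U O '' Lb O K := by
  ext x
  constructor
  · intro hx
    refine ⟨T O x, ?_, U_T hO' x⟩
    show U O (T O x) ∈ K
    rwa [U_T hO']
  · rintro ⟨p, hp, rfl⟩
    exact hp

theorem Lb_conv (hc : Convex ℝ K) : Convex ℝ (Lb O K) := hc.linear_preimage (U O)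

include hO hO' in
theorem Lb_comp (hK : IsCompact K) : IsCompact (Lb O K) := by
  rw [Lb_img hO hO']
  exact hK.image (T_cont O)

include hO hO' in
theorem Lb_vol (hK : IsCompact K) : volume (Lb O K) = volume K := by
  have h := (mp_T hO).measure_preimage (Lb_comp hO hO' hK).measurableSet.nullMeasurableSet
  rw [Lb_pre hO'] at h
  exact h.symm

include hO hO' in
theorem Lb_int (φ : ℝ × (Fin m → ℝ) → ℝ) :
    ∫ p in Lb O K, φ p = ∫ x in K, φ (T O x) := by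
  have h := (mp_T hO).setIntegral_preimage_emb (Th hO hO').measurableEmbedding φ (Lb O K)
  rw [Lb_pre hO'] at h
  exact h.symm

end

/-- The moments of a body which is invariant under an irreducible system of reflections. -/
def MomSt (n : ℕ) : Prop :=
  ∀ (a : Fin n → Fin n → ℝ) (K : Set (Fin n → ℝ)), LinearIndependent ℝ a → (∀ i j, Lk a i j) →
    IsCompact K → RInv a K → (∀ i, ∫ x in K, x i = 0) ∧
      ∀ i j, ∫ x in K, x i ^ 2 = ∫ x in K, x j ^ 2

theorem Lk_congr {ι κ ι' : Type} [Fintype ι] [Fintype ι'] {a : κ → ι → ℝ} {b : κ → ι' → ℝ}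
    (h : ∀ i j, a i ⬝ᵥ a j = b i ⬝ᵥ b j) {i j : κ} (hL : Lk a i j) : Lk b i j := by
  induction hL with
  | refl => exact Relation.ReflTransGen.refl
  | tail _ h2 ih => exact ih.tail (by rw [← h]; exact h2)

/-- The second moment is the same in the new coordinates. -/
theorem mom_O {n : ℕ} (hM : MomSt n) {a : Fin n → Fin n → ℝ} {K : Set (Fin n → ℝ)}
    (ha : LinearIndependent ℝ a) (hL : ∀ i j, Lk a i j) (hK : IsCompact K) (hR : RInv a K)
    {O : Matrix (Fin n) (Fin n) ℝ} (hO : O * Oᵀ = 1) (hO' : Oᵀ * O = 1) (i j : Fin n) :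
    (∫ x in K, (O *ᵥ x) i = 0) ∧ ∫ x in K, (O *ᵥ x) i ^ 2 = ∫ x in K, x j ^ 2 := by
  set K' : Set (Fin n → ℝ) := {x | Oᵀ *ᵥ x ∈ K} with hK'def
  have hpre : (fun x => O *ᵥ x) ⁻¹' K' = K := by
    ext x
    show Oᵀ *ᵥ (O *ᵥ x) ∈ K ↔ x ∈ K
    rw [Matrix.mulVec_mulVec, hO', Matrix.one_mulVec]
  have himg : K' = (fun x => O *ᵥ x) '' K := by
    ext x
    constructor
    · intro hx
      refine ⟨Oᵀ *ᵥ x, hx, ?_⟩
      show O *ᵥ (Oᵀ *ᵥ x) = x
      rw [Matrix.mulVec_mulVec, hO, Matrix.one_mulVec]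
    · rintro ⟨y, hy, rfl⟩
      show Oᵀ *ᵥ (O *ᵥ y) ∈ K
      rwa [Matrix.mulVec_mulVec, hO', Matrix.one_mulVec]
  have hK'c : IsCompact K' := by
    rw [himg]
    exact hK.image (by fun_prop)
  let e : (Fin n → ℝ) ≃ₜ (Fin n → ℝ) :=
    { toFun := fun x => O *ᵥ x
      invFun := fun x => Oᵀ *ᵥ x
      left_inv := fun x => by
        show Oᵀ *ᵥ (O *ᵥ x) = x
        rw [Matrix.mulVec_mulVec, hO', Matrix.one_mulVec]
      right_inv := fun x => by
        show O *ᵥ (Oᵀ *ᵥ x) = x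
        rw [Matrix.mulVec_mulVec, hO, Matrix.one_mulVec]
      continuous_toFun := by fun_prop
      continuous_invFun := by fun_prop }
  have tr : ∀ φ : (Fin n → ℝ) → ℝ, ∫ x in K', φ x = ∫ x in K, φ (O *ᵥ x) := by
    intro φ
    have h := (mp_O hO).setIntegral_preimage_emb e.measurableEmbedding φ K'
    rw [hpre] at h
    exact h.symm
  have ha' : LinearIndependent ℝ fun i => O *ᵥ a i := by
    have hinj : Function.Injective (Matrix.toLin' O) := by
      intro x y hxy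
      rw [Matrix.toLin'_apply, Matrix.toLin'_apply] at hxy
      have h1 := congrArg (fun z => Oᵀ *ᵥ z) hxy
      simp only [Matrix.mulVec_mulVec, hO', Matrix.one_mulVec] at h1
      exact h1
    have h := ha.map' (Matrix.toLin' O) (LinearMap.ker_eq_bot.2 hinj)
    exact h
  have hR' : RInv (fun i => O *ᵥ a i) K' := by
    intro i x hx
    show Oᵀ *ᵥ rf (O *ᵥ a i) x ∈ K
    have e1 : x = O *ᵥ (Oᵀ *ᵥ x) := by
      rw [Matrix.mulVec_mulVec, hO, Matrix.one_mulVec]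
    rw [e1, rf_O hO', Matrix.mulVec_mulVec, hO', Matrix.one_mulVec]
    exact hR i _ hx
  obtain ⟨h1, h2⟩ := hM (fun i => O *ᵥ a i) K' ha'
    (fun i j => Lk_congr (fun i j => (dot_O hO' _ _).symm) (hL i j)) hK'c hR'
  obtain ⟨-, h3⟩ := hM a K ha hL hK hR
  refine ⟨by rw [← tr fun x => x i]; exact h1 i, ?_⟩
  rw [← tr fun x => x i ^ 2]
  have hn : (0 : ℝ) < n := by
    have : 0 < n := Fin.pos i
    exact_mod_cast this
  have s1 : ∑ k, ∫ x in K', x k ^ 2 = n * ∫ x in K', x i ^ 2 := by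
    rw [Finset.sum_congr rfl fun k _ => h2 k i]
    simp
  have s2 : ∑ k, ∫ x in K, x k ^ 2 = n * ∫ x in K, x j ^ 2 := by
    rw [Finset.sum_congr rfl fun k _ => h3 k j]
    simp
  have i1 : ∀ k : Fin n, IntegrableOn (fun x : Fin n → ℝ => x k ^ 2) K := fun k =>
    ((continuous_apply k).pow 2).continuousOn.integrableOn_compact hK
  have i2 : ∀ k : Fin n, IntegrableOn (fun x : Fin n → ℝ => (O *ᵥ x) k ^ 2) K := fun k =>
    (by fun_prop : Continuous fun x : Fin n → ℝ => (O *ᵥ x) k ^ 2).continuousOn.integrableOn_compact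
      hK
  have s3 : ∑ k, ∫ x in K', x k ^ 2 = ∑ k, ∫ x in K, x k ^ 2 := by
    simp only [tr fun x : Fin n → ℝ => x _ ^ 2]
    rw [← integral_finsetSum _ fun k _ => i1 k, ← integral_finsetSum _ fun k _ => i2 k]
    congr 1
    funext x
    have h := dot_O hO' x x
    simp only [dotProduct] at h
    simp only [pow_two]
    exact h
  rw [s1, s2] at s3
  exact mul_left_cancel₀ hn.ne' s3

/-- The slices of a body with an irreducible system of reflections. -/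
theorem setup (hm : 1 ≤ m) (hM : MomSt (m + 1))
    (horth : ∀ a : Fin m → Fin (m + 1) → ℝ, ∃ O : Matrix (Fin (m + 1)) (Fin (m + 1)) ℝ,
      O * Oᵀ = 1 ∧ Oᵀ * O = 1 ∧ ∀ j, (O *ᵥ a j) 0 = 0)
    {a : Fin (m + 1) → Fin (m + 1) → ℝ} (ha : LinearIndependent ℝ a) (hL : ∀ i j, Lk a i j)
    (hnc : ∃ i₀ : Fin (m + 1), ∀ i j, Lk (fun j : Fin m => a (i₀.succAbove j)) i j)
    {K : Set (Fin (m + 1) → ℝ)} (hc : Convex ℝ K) (hK : IsCompact K) (hR : RInv a K)
    (i₁ : Fin (m + 1)) :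
    ∃ (O : Matrix (Fin (m + 1)) (Fin (m + 1)) ℝ) (a' : Fin m → Fin m → ℝ), O * Oᵀ = 1 ∧
      Oᵀ * O = 1 ∧ LinearIndependent ℝ a' ∧ (∀ i j, Lk a' i j) ∧
      (∀ s, RInv a' {y | (s, y) ∈ Lb O K}) ∧ (∫ p in Lb O K, p.1 = 0) ∧
      (∫ p in Lb O K, p.1 ^ 2 = ∫ x in K, x i₁ ^ 2) ∧
      ∀ i, ∫ p in Lb O K, p.2 i ^ 2 = ∫ x in K, x i₁ ^ 2 := by
  obtain ⟨i₀, hi₀⟩ := hnc
  obtain ⟨O, hO, hO', hz⟩ := horth fun j => a (i₀.succAbove j)
  refine ⟨O, fun j i => (O *ᵥ a (i₀.succAbove j)) i.succ, hO, hO', ?_, ?_, ?_, ?_, ?_, ?_⟩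
  · -- linear independence
    let f : (Fin m → ℝ) →ₗ[ℝ] (Fin (m + 1) → ℝ) :=
      { toFun := fun y => (Fin.cons 0 y : Fin (m + 1) → ℝ)
        map_add' := fun y z => by
          funext j
          refine Fin.cases ?_ (fun i => ?_) j
          · simp
          · simp
        map_smul' := fun c y => by
          funext j
          refine Fin.cases ?_ (fun i => ?_) j
          · simp
          · simp }
    have hinj : Function.Injective (Matrix.toLin' O) := by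
      intro x y hxy
      rw [Matrix.toLin'_apply, Matrix.toLin'_apply] at hxy
      have h1 := congrArg (fun z => Oᵀ *ᵥ z) hxy
      simp only [Matrix.mulVec_mulVec, hO', Matrix.one_mulVec] at h1
      exact h1
    have h1 : LinearIndependent ℝ fun j => O *ᵥ a (i₀.succAbove j) :=
      (ha.comp i₀.succAbove Fin.succAbove_right_injective).map' (Matrix.toLin' O)
        (LinearMap.ker_eq_bot.2 hinj)
    refine LinearIndependent.of_comp f ?_
    have h2 : (f ∘ fun (j : Fin m) (i : Fin m) => (O *ᵥ a (i₀.succAbove j)) i.succ) =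
        fun j => O *ᵥ a (i₀.succAbove j) := by
      funext j k
      refine Fin.cases ?_ (fun i => ?_) k
      · show (0 : ℝ) = (O *ᵥ a (i₀.succAbove j)) 0
        rw [hz j]
      · rfl
    rw [h2]
    exact h1
  · intro i j
    refine Lk_congr (fun i j => ?_) (hi₀ i j)
    rw [← dot_O hO', dot_tail (hz i)]
  · intro s j y hy
    show Oᵀ *ᵥ (Fin.cons s (rf (fun i : Fin m => (O *ᵥ a (i₀.succAbove j)) i.succ) y) :
      Fin (m + 1) → ℝ) ∈ K
    rw [← rf_cons (hz j)]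
    have e1 : (Fin.cons s y : Fin (m + 1) → ℝ) = O *ᵥ (Oᵀ *ᵥ (Fin.cons s y : Fin (m + 1) → ℝ)) := by
      rw [Matrix.mulVec_mulVec, hO, Matrix.one_mulVec]
    rw [e1, rf_O hO', Matrix.mulVec_mulVec, hO', Matrix.one_mulVec]
    exact hR _ _ hy
  · rw [Lb_int hO hO' fun p => p.1]
    exact (mom_O hM ha hL hK hR hO hO' 0 i₁).1
  · rw [Lb_int hO hO' fun p => p.1 ^ 2]
    exact (mom_O hM ha hL hK hR hO hO' 0 i₁).2
  · intro i
    rw [Lb_int hO hO' fun p => p.2 i ^ 2]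
    exact (mom_O hM ha hL hK hR hO hO' i.succ i₁).2

/-- The induction step for the bound. -/
theorem irr_succ_of (hm : 1 ≤ m) (hM : MomSt m) (hM' : MomSt (m + 1))
    (horth : ∀ a : Fin m → Fin (m + 1) → ℝ, ∃ O : Matrix (Fin (m + 1)) (Fin (m + 1)) ℝ,
      O * Oᵀ = 1 ∧ Oᵀ * O = 1 ∧ ∀ j, (O *ᵥ a j) 0 = 0)
    (hnc : ∀ a : Fin (m + 1) → Fin (m + 1) → ℝ, (∀ i j, Lk a i j) →
      ∃ i₀ : Fin (m + 1), ∀ i j, Lk (fun j : Fin m => a (i₀.succAbove j)) i j)
    (hI : IrrBd m) : IrrBd (m + 1) := by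
  intro a K ha hL hc hK hR i₁
  obtain ⟨O, a', hO, hO', ha', hL', hR', e0, e1, e2⟩ :=
    setup hm hM' horth ha hL (hnc a hL) hc hK hR i₁
  have hLc := Lb_conv (O := O) hc
  have hLK := Lb_comp hO hO' hK
  have hsc : ∀ s, Convex ℝ {y | (s, y) ∈ Lb O K} := Perm.H77.sec_convex hLc
  have hsK : ∀ s, IsCompact {y | (s, y) ∈ Lb O K} := Perm.H77.sec_compact hLK
  set i : Fin m := ⟨0, hm⟩ with hi
  obtain ⟨-, -, h3⟩ := Fib.core m hm hLc hLK i (cst_pos m).le
    (fun s j => (hM a' _ ha' hL' (hsK s) (hR' s)).1 j)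
    (fun s => hI a' _ ha' hL' (hsc s) (hsK s) (hR' s) i)
  rw [e0, e1, e2, Lb_vol hO hO' hK, cst_kap] at h3
  set W : ℝ := ∫ x in K, x i₁ ^ 2 with hW
  set v : ℝ := (volume K).toReal with hv
  have h4 : W ^ (m + 1) * v ≤ cst (m + 1) * v ^ (m + 4) := by
    calc W ^ (m + 1) * v = W ^ m * (v * W - 0 ^ 2) := by ring
      _ ≤ _ := h3
  have hv0 : 0 ≤ v := ENNReal.toReal_nonneg
  rcases hv0.eq_or_lt with h0 | h0
  · have hK0 : volume K = 0 := by
      rcases (ENNReal.toReal_eq_zero_iff _).1 h0.symm with h | h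
      · exact h
      · exact absurd h hK.measure_lt_top.ne
    have hW0 : W = 0 := by
      rw [hW, Measure.restrict_eq_zero.2 hK0, integral_zero_measure]
    rw [hW0, ← h0]
    simp
  · have h6 : cst (m + 1) * v ^ (m + 4) = cst (m + 1) * v ^ (m + 1 + 2) * v := by ring
    rw [h6] at h4
    exact le_of_mul_le_mul_right h4 h0

/-- The induction step for the case of equality. -/
theorem eq_succ_of (hm : 1 ≤ m) (hM : MomSt m) (hM' : MomSt (m + 1))
    (horth : ∀ a : Fin m → Fin (m + 1) → ℝ, ∃ O : Matrix (Fin (m + 1)) (Fin (m + 1)) ℝ,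
      O * Oᵀ = 1 ∧ Oᵀ * O = 1 ∧ ∀ j, (O *ᵥ a j) 0 = 0)
    (hnc : ∀ a : Fin (m + 1) → Fin (m + 1) → ℝ, (∀ i j, Lk a i j) →
      ∃ i₀ : Fin (m + 1), ∀ i j, Lk (fun j : Fin m => a (i₀.succAbove j)) i j)
    (hI : IrrBd m) (hE : EqIrr m) : EqIrr (m + 1) := by
  intro a K ha hL hc hK hR hpos i₁ heq
  obtain ⟨O, a', hO, hO', ha', hL', hR', e0, e1, e2⟩ :=
    setup hm hM' horth ha hL (hnc a hL) hc hK hR i₁
  have hLc := Lb_conv (O := O) hc
  have hLK := Lb_comp hO hO' hK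
  have hsc : ∀ s, Convex ℝ {y | (s, y) ∈ Lb O K} := Perm.H77.sec_convex hLc
  have hsK : ∀ s, IsCompact {y | (s, y) ∈ Lb O K} := Perm.H77.sec_compact hLK
  set i : Fin m := ⟨0, hm⟩ with hi
  obtain ⟨v, hv1, hv2⟩ := Fib.core_eq m hm hLc hLK i (cst_pos m)
    (fun s j => (hM a' _ ha' hL' (hsK s) (hR' s)).1 j)
    (fun s => hI a' _ ha' hL' (hsc s) (hsK s) (hR' s) i)
    (by rw [Lb_vol hO hO' hK]; exact hpos)
    (by
      rw [e0, e1, e2, Lb_vol hO hO' hK, cst_kap]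
      set W : ℝ := ∫ x in K, x i₁ ^ 2 with hW
      set v : ℝ := (volume K).toReal with hv
      calc cst (m + 1) * v ^ (m + 4) = (cst (m + 1) * v ^ (m + 1 + 2)) * v := by ring
        _ ≤ W ^ (m + 1) * v := mul_le_mul_of_nonneg_right heq hpos.le
        _ = W ^ m * (v * W - 0 ^ 2) := by ring)
    (fun s h1 h2 => hE a' _ ha' hL' (hsc s) (hsK s) (hR' s) h1 i h2)
  refine ⟨fun j => U O (v j), hv1.map' (U O).toAffineMap (U_inj hO), ?_⟩
  have h := (U O).image_convexHull (range v)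
  rw [← range_comp, ← hv2, ← K_img hO'] at h
  exact h

theorem eq_one : EqIrr 1 := fun _ _ _ _ hc hK _ hvol _ _ => Perm.simplex_of_one hc hK hvol

end H171

end Vale.Agent.P254.Refl
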