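import Vale.Agent.P254.Refl.C4
import Vale.Agent.P254.Refl.C2H154
import Vale.Agent.P254.Refl.C1H545
import Vale.Agent.P254.Refl.B2h898
import Vale.Agent.P254.Refl.C3h708
import Vale.Agent.P254.Refl.C5h165
import Vale.Agent.P254.Refl.C6_120
import Vale.Agent.P254.Refl.C7
import Vale.Agent.P254.Refl.C8
import Vale.Agent.P254.Refl.C9E
import Vale.Agent.P254.Refl.E1
import Vale.Agent.P254.Unc.Top

/-!
P254/Refl: assembly of all leaves (helper898).
-/

open MeasureTheory Set Matrix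

namespace Vale.Agent.P254.Refl.T898

theorem symStepD : C2H.SymStepD := fun hm e _ hD _ hc hK hf => B2h.sym_step_D hm e hc hK hD hf

theorem fibBd : C2H.FibBd := fun hI _ _ hB b e h1 h2 _ hc hK hR z i =>
  C1H.fib_bd hI hB b e h1 h2 hc hK hR z i

theorem allBlocksD : E2.AllBlocksD := fun hI _ _ hB _ hc hK hR _ hD =>
  C2H.all_blocks_D symStepD fibBd hI hB hD hc hK hR

theorem uncAbs : E2.UncAbs := fun hn hU _ hc hK hu => H708.unc_abs hn hU hc hK hu

theorem irrBd (m : ℕ) (hm : 1 ≤ m) : IrrBd m := (H171.both m hm).1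

theorem vol_pos {n : ℕ} {K : Set (Fin n → ℝ)} (hK : IsConvexBody K) : 0 < (volume K).toReal :=
  ENNReal.toReal_pos (hK.2.2.elim fun _ _ =>
    ((isOpen_interior.measure_pos volume hK.2.2).trans_le (measure_mono interior_subset)).ne')
    hK.2.1.measure_lt_top.ne

theorem det_blk {n : ℕ} (hn : 1 ≤ n) {β : Type} {a : Fin n → Fin n → ℝ} {lab : Fin n → β}
    (hB : Blk a lab) {K : Set (Fin n → ℝ)} (hK : IsConvexBody K) (hR : RInv a K) :
    (covMatrix K).det ≤ cst n * (volume K).toReal ^ 2 :=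
  C5h165.det_blk_of hB hK.2.1 (vol_pos hK) hR
    (C4.prod_le allBlocksD uncAbs hn (Unc.uncr_all n) irrBd hB hK.1 hK.2.1 (vol_pos hK) hR)

theorem det_prod {n : ℕ} {β : Type} {a : Fin n → Fin n → ℝ} {lab : Fin n → β} (hB : Blk a lab)
    {K : Set (Fin n → ℝ)} (hK : IsCompact K) (hR : RInv a K) :
    (covMatrix K).det = ((volume K).toReal ^ n)⁻¹ * ∏ i, (∫ x in K, x i ^ 2) := by
  rw [C5h165.cov_blk hB hK hR, Matrix.det_diagonal, Finset.prod_mul_distrib, Finset.prod_const,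
    Finset.card_univ, Fintype.card_fin, inv_pow]

theorem det_blk_eq {n : ℕ} (hn : 1 ≤ n) {β : Type} {a : Fin n → Fin n → ℝ} {lab : Fin n → β}
    (hB : Blk a lab) {K : Set (Fin n → ℝ)} (hK : IsConvexBody K) (hR : RInv a K)
    (he : (covMatrix K).det = cst n * (volume K).toReal ^ 2) : IsSimplex K := by
  have hV := vol_pos hK
  have hp : 0 < (volume K).toReal ^ n := pow_pos hV n
  rw [det_prod hB hK.2.1 hR] at he
  have he' : ∏ i, (∫ x in K, x i ^ 2) = cst n * (volume K).toReal ^ (n + 2) := by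
    have h := congrArg (fun t => (volume K).toReal ^ n * t) he
    simp only [mul_inv_cancel_left₀ hp.ne'] at h
    rw [h]
    ring
  by_cases h2 : ∃ i j, lab i ≠ lab j
  · have h := E2.prod_lt allBlocksD uncAbs (Unc.uncr_all n) irrBd hB hK.1 hK.2.1 hV hR h2
    exact absurd he' h.ne
  · push Not at h2
    have hm := (A2.blk_mom hB hK.2.1 hR).2.2
    let i0 : Fin n := ⟨0, hn⟩
    have hpr : ∏ i, (∫ x in K, x i ^ 2) = (∫ x in K, x i0 ^ 2) ^ n := by
      rw [Finset.prod_congr rfl (fun i _ => hm i i0 (h2 i i0)), Finset.prod_const,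
        Finset.card_univ, Fintype.card_fin]
    exact eqIrr n hn a K hB.li (fun i j => hB.conn i j (h2 i j)) hK.1 hK.2.1 hR hV i0
      (by rw [← hpr, he'])

theorem det_orth {n : ℕ} (hn : 1 ≤ n) {a : Fin n → Fin n → ℝ} (ha : LinearIndependent ℝ a)
    {K : Set (Fin n → ℝ)} (hK : IsConvexBody K) (hR : RInv a K) :
    (covMatrix K).det ≤ cst n * (volume K).toReal ^ 2 :=
  det_orth_of (fun hB _ hK hR => det_blk hn hB hK hR) (fun ha => H120.exists_blk ha) ha hK hR

theorem det_orth_eq {n : ℕ} (hn : 1 ≤ n) {a : Fin n → Fin n → ℝ} (ha : LinearIndependent ℝ a)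
    {K : Set (Fin n → ℝ)} (hK : IsConvexBody K) (hR : RInv a K)
    (he : (covMatrix K).det = cst n * (volume K).toReal ^ 2) : IsSimplex K := by
  obtain ⟨O, β, lab, h1, h2, hB⟩ := H120.exists_blk ha
  have hd := C7.det_sq h1
  have hd0 : O.det ≠ 0 := by
    intro h
    rw [h] at hd
    norm_num at hd
  have habs : |O.det| = 1 := by
    have := abs_mul_abs_self O.det
    rw [hd] at this
    nlinarith [abs_nonneg O.det]
  have hK' : IsConvexBody (aff O 0 '' K) := C7.body_aff hd0 0 hK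
  have hR' : RInv (fun i => O *ᵥ a i) (aff O 0 '' K) := by
    rintro i _ ⟨x, hx, rfl⟩
    refine ⟨rf (a i) x, hR i x hx, ?_⟩
    have e : ∀ y, aff O 0 y = O *ᵥ y := fun y => by simp [aff]
    rw [e, e, C7.rf_orth h2]
  have key : (covMatrix (aff O 0 '' K)).det = cst n * (volume (aff O 0 '' K)).toReal ^ 2 := by
    rw [cov_aff_image hd0 0 hK.2.1 (vol_pos hK).ne', volume_aff_image hd0 0 hK.2.1.measurableSet,
      habs, one_mul, det_mul, det_mul, det_transpose, mul_right_comm, hd, one_mul, he]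
  exact isSimplex_of_aff hd0 0 (det_blk_eq hn hB hK' hR' key)

/-- the inequality -/
theorem isoConst_le {n : ℕ} (hn : 1 ≤ n) {K S : Set (Fin n → ℝ)} (hK : IsConvexBody K)
    (hS : IsSimplex S) {a w : Fin n → Fin n → ℝ} {c : Fin n → ℝ} (ha : LinearIndependent ℝ a)
    (hw : ∀ i, w i ⬝ᵥ a i = 2) (hR : ∀ i, ∀ x ∈ K, x - (w i ⬝ᵥ x - c i) • a i ∈ K) :
    isoConst K ≤ isoConst S :=
  isoConst_le_of hn (fun ha _ hK hR => det_orth hn ha hK hR)
    (fun hK _ _ _ ha hw hR => exists_pos hK ha hw hR) hK hS ha hw hR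

/-- the case of equality -/
theorem isSimplex_of_eq {n : ℕ} (hn : 1 ≤ n) {K S : Set (Fin n → ℝ)} (hK : IsConvexBody K)
    (hS : IsSimplex S) {a w : Fin n → Fin n → ℝ} {c : Fin n → ℝ} (ha : LinearIndependent ℝ a)
    (hw : ∀ i, w i ⬝ᵥ a i = 2) (hR : ∀ i, ∀ x ∈ K, x - (w i ⬝ᵥ x - c i) • a i ∈ K)
    (he : isoConst K = isoConst S) : IsSimplex K :=
  isSimplex_of_eq_of hn (fun ha _ hK hR he => det_orth_eq hn ha hK hR he)
    (fun hK _ _ _ ha hw hR => exists_pos hK ha hw hR) hK hS ha hw hR he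

end Vale.Agent.P254.Refl.T898
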